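import Crest.Agent.R120.Trace

/-! Row 120: existence of irreducible representations and the final reduction. -/

set_option autoImplicit false
set_option linter.style.haveILetI false
set_option linter.unusedSectionVars false

open Filter Topology Crest.OpAlg
open scoped InnerProductSpace

noncomputable section

namespace Crest.Agent.R120

section States

variable {A : Type*} [CStarAlgebra A]

theorem irr_norm_one_le : ‖(1 : A)‖ ≤ 1 := by
  rcases subsingleton_or_nontrivial A with h | h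
  · rw [Subsingleton.elim (1 : A) 0]; simp
  · simp

theorem irr_im_eq_zero (f : A →ₗ[ℂ] ℂ) (h1 : f 1 = 1) (hb : ∀ x, ‖f x‖ ≤ ‖x‖) {a : A}
    (ha : star a = a) : (f a).im = 0 := by
  have key : ∀ t : ℝ, 2 * t * (f a).im ≤ ‖a‖ ^ 2 := by
    intro t
    set z : A := a + ((t : ℂ) * Complex.I) • (1 : A) with hz
    have h2 : star z * z = a * a + ((t ^ 2 : ℝ) : ℂ) • (1 : A) := by
      rw [hz, star_add, star_smul, star_one, ha]
      simp only [add_mul, mul_add, smul_mul_assoc, mul_smul_comm, one_mul, mul_one, smul_smul]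
      have e1 : star ((t : ℂ) * Complex.I) = -((t : ℂ) * Complex.I) := by simp
      have e2 : (t : ℂ) * Complex.I * -((t : ℂ) * Complex.I) = ((t ^ 2 : ℝ) : ℂ) := by
        push_cast
        linear_combination (-(t : ℂ) ^ 2) * Complex.I_sq
      rw [e1, smul_add, smul_smul, e2, neg_smul]
      abel
    have h3 : ‖z‖ ^ 2 ≤ ‖a‖ ^ 2 + t ^ 2 := by
      rw [sq, ← CStarRing.norm_star_mul_self, h2]
      refine (norm_add_le _ _).trans (add_le_add ?_ ?_)
      · rw [sq]; exact norm_mul_le _ _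
      · rw [norm_smul, Complex.norm_real, Real.norm_eq_abs, abs_of_nonneg (sq_nonneg t)]
        exact mul_le_of_le_one_right (sq_nonneg t) irr_norm_one_le
    have h4 : f z = f a + (t : ℂ) * Complex.I := by
      rw [hz, map_add, map_smul, h1, smul_eq_mul, mul_one]
    have h5 : ‖f z‖ ^ 2 ≤ ‖z‖ ^ 2 := by gcongr; exact hb z
    rw [h4, Complex.sq_norm, Complex.normSq_apply] at h5
    simp only [Complex.add_re, Complex.mul_re, Complex.ofReal_re, Complex.I_re, mul_zero,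
      Complex.ofReal_im, Complex.I_im, mul_one, sub_self, add_zero, Complex.add_im,
      Complex.mul_im] at h5
    nlinarith [sq_nonneg (f a).re, sq_nonneg (f a).im]
  by_contra hne
  have h := key ((‖a‖ ^ 2 + 1) / (2 * (f a).im))
  have e : 2 * ((‖a‖ ^ 2 + 1) / (2 * (f a).im)) * (f a).im = ‖a‖ ^ 2 + 1 := by field_simp
  linarith

theorem irr_isState (f : A →ₗ[ℂ] ℂ) (h1 : f 1 = 1) (hb : ∀ x, ‖f x‖ ≤ ‖x‖) : IsState f := by
  refine ⟨h1, fun b => ⟨irr_im_eq_zero f h1 hb (by simp), ?_⟩⟩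
  letI : PartialOrder A := CStarAlgebra.spectralOrder A
  haveI : StarOrderedRing A := CStarAlgebra.spectralOrderedRing A
  set a := star b * b with ha
  have h0 : 0 ≤ a := star_mul_self_nonneg b
  have h2 : a ≤ algebraMap ℝ A ‖a‖ := IsSelfAdjoint.le_algebraMap_norm_self (.of_nonneg h0)
  have h3 : ‖algebraMap ℝ A ‖a‖ - a‖ ≤ ‖a‖ := by
    rw [CStarAlgebra.norm_le_iff_le_algebraMap _ (norm_nonneg a) (sub_nonneg.2 h2)]
    exact sub_le_self _ h0
  have h4 : f (algebraMap ℝ A ‖a‖ - a) = (‖a‖ : ℂ) - f a := by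
    rw [map_sub, Algebra.algebraMap_eq_smul_one, ← Complex.coe_smul, map_smul, h1, smul_eq_mul,
      mul_one]
  have h5 := (Complex.re_le_norm _).trans ((hb _).trans h3)
  rw [h4] at h5
  simp only [Complex.sub_re, Complex.ofReal_re] at h5
  linarith

theorem irr_exists_state (L : Ideal A) (hL : L ≠ ⊤) :
    ∃ f : A →ₗ[ℂ] ℂ, IsState f ∧ ∀ l ∈ L, f l = 0 := by
  let L' : Submodule ℂ A := L.restrictScalars ℂ
  obtain ⟨g, hg1, hg2⟩ := exists_dual_vector'' ℂ (Submodule.Quotient.mk (1 : A) : A ⧸ L')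
  have h1 : ‖(Submodule.Quotient.mk (1 : A) : A ⧸ L')‖ = 1 := by
    apply le_antisymm ((Submodule.Quotient.norm_mk_le L' 1).trans irr_norm_one_le)
    by_contra hlt
    push Not at hlt
    obtain ⟨m, hm, hm'⟩ := Submodule.Quotient.norm_mk_lt
      (Submodule.Quotient.mk (1 : A) : A ⧸ L') (sub_pos.2 hlt)
    have h2 : 1 - m ∈ L := (Submodule.Quotient.eq L').1 hm.symm
    exact hL (L.eq_top_of_norm_lt_one h2 (by simpa using hm'))
  let f : A →ₗ[ℂ] ℂ := g.toLinearMap ∘ₗ L'.mkQ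
  refine ⟨f, irr_isState f ?_ fun x => ?_, fun l hl => ?_⟩
  · change g (Submodule.Quotient.mk 1) = 1
    rw [hg2, h1]; simp
  · change ‖g (Submodule.Quotient.mk x)‖ ≤ _
    refine (g.le_opNorm _).trans ?_
    exact (mul_le_of_le_one_left (norm_nonneg _) hg1).trans (Submodule.Quotient.norm_mk_le L' x)
  · change g (Submodule.Quotient.mk l) = 0
    rw [(Submodule.Quotient.mk_eq_zero L').2 hl, map_zero]

/-- states killing `L`, as a set of functions -/
def irrK (L : Ideal A) : Set (A → ℂ) :=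
  {f | (∀ a b, f (a + b) = f a + f b) ∧ (∀ (c : ℂ) a, f (c • a) = c * f a) ∧ f 1 = 1 ∧
    (∀ a, (f (star a * a)).im = 0 ∧ 0 ≤ (f (star a * a)).re) ∧ ∀ l ∈ L, f l = 0}

theorem irr_mem_K {L : Ideal A} {f : A →ₗ[ℂ] ℂ} (hf : IsState f) (hL : ∀ l ∈ L, f l = 0) :
    (f : A → ℂ) ∈ irrK L :=
  ⟨f.map_add, f.map_smul, hf.1, hf.2, hL⟩

theorem irr_of_mem_K {L : Ideal A} {f : A → ℂ} (hf : f ∈ irrK L) :
    ∃ φ : A →ₗ[ℂ] ℂ, (φ : A → ℂ) = f ∧ IsState φ ∧ ∀ l ∈ L, φ l = 0 :=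
  ⟨{ toFun := f, map_add' := hf.1, map_smul' := hf.2.1 }, rfl, ⟨hf.2.2.1, hf.2.2.2.1⟩, hf.2.2.2.2⟩

theorem irr_isCompact_K (L : Ideal A) : IsCompact (irrK L) := by
  have hc : IsCompact (Set.pi Set.univ fun a : A => Metric.closedBall (0 : ℂ) ‖a‖) :=
    isCompact_univ_pi fun a => isCompact_closedBall _ _
  refine hc.of_isClosed_subset ?_ ?_
  · simp only [irrK, Set.ofPred_and, Set.ofPred_forall]
    refine (isClosed_iInter fun a => isClosed_iInter fun b => isClosed_eq (by fun_prop)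
      (by fun_prop)).inter ((isClosed_iInter fun c => isClosed_iInter fun a =>
        isClosed_eq (by fun_prop) (by fun_prop)).inter
        ((isClosed_eq (by fun_prop) (by fun_prop)).inter
        ((isClosed_iInter fun a => (isClosed_eq (by fun_prop) (by fun_prop)).inter
          (isClosed_le (by fun_prop) (by fun_prop))).inter
        (isClosed_iInter fun l => isClosed_iInter fun _ =>
          isClosed_eq (by fun_prop) (by fun_prop)))))
  · intro f hf a _
    obtain ⟨φ, rfl, hφ, -⟩ := irr_of_mem_K hf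
    simpa using hφ.norm_apply_le a

variable {H : Type*} [NormedAddCommGroup H] [InnerProductSpace ℂ H] [CompleteSpace H]

theorem irr_inner_right (π : A →⋆ₐ[ℂ] (H →L[ℂ] H)) (a : A) (x y : H) :
    ⟪x, π a y⟫_ℂ = ⟪π (star a) x, y⟫_ℂ := by
  rw [map_star, ContinuousLinearMap.star_eq_adjoint, ContinuousLinearMap.adjoint_inner_left]

theorem irr_vector_mem_K {L : Ideal A} (π : A →⋆ₐ[ℂ] (H →L[ℂ] H)) {v : H} (hv : v ≠ 0)
    (hL : ∀ l ∈ L, π l v = 0) :
    (fun a => (((‖v‖ ^ 2)⁻¹ : ℝ) : ℂ) * ⟪v, π a v⟫_ℂ) ∈ irrK L := by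
  have hv' : 0 < ‖v‖ := norm_pos_iff.2 hv
  refine ⟨fun a b => ?_, fun c a => ?_, ?_, fun a => ?_, fun l hl => ?_⟩
  · simp only [map_add, add_apply, inner_add_right, mul_add]
  · simp only [map_smul, smul_apply, inner_smul_right]
    ring
  · simp only [map_one, one_apply_eq_self, inner_self_eq_norm_sq_to_K]
    have : ((‖v‖ : ℝ) : ℂ) ≠ 0 := by exact_mod_cast hv'.ne'
    simp [this]
  · have h1 : ⟪v, π (star a * a) v⟫_ℂ = ((‖π a v‖ ^ 2 : ℝ) : ℂ) := by
      rw [map_mul, mul_apply_eq_comp, irr_inner_right, star_star, inner_self_eq_norm_sq_to_K]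
      simp
    simp only [h1, ← Complex.ofReal_mul, Complex.ofReal_im, Complex.ofReal_re, true_and]
    positivity
  · simp only [hL l hl, inner_zero_right, mul_zero]

theorem irr_orth_invariant (π : A →⋆ₐ[ℂ] (H →L[ℂ] H)) {V : Submodule ℂ H}
    (hV : ∀ a : A, ∀ v ∈ V, π a v ∈ V) (a : A) {w : H} (hw : w ∈ Vᗮ) : π a w ∈ Vᗮ := by
  rw [Submodule.mem_orthogonal]
  intro v hv
  rw [irr_inner_right]
  exact (Submodule.mem_orthogonal _ _).1 hw _ (hV _ v hv)

/-- an element killing the orbit of a nonzero vector in an irreducible representation is zero -/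
theorem irr_eq_zero_of_orbit {π : A →⋆ₐ[ℂ] (H →L[ℂ] H)} (hπ : Irr π) {ξ : H} (hξ : ξ ≠ 0)
    {T : H →L[ℂ] H} (hT : ∀ a, T (π a ξ) = 0) : T = 0 := by
  let W : Submodule ℂ H :=
    { carrier := {v | ∀ a, T (π a v) = 0}
      add_mem' := fun hx hy a => by rw [map_add, map_add, hx a, hy a, add_zero]
      zero_mem' := fun a => by simp
      smul_mem' := fun c x hx a => by rw [map_smul, map_smul, hx a, smul_zero] }
  have hc : IsClosed (W : Set H) := by
    change IsClosed {v | ∀ a, T (π a v) = 0}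
    simp only [Set.ofPred_forall]
    exact isClosed_iInter fun a => isClosed_eq (by fun_prop) continuous_const
  rcases hπ W hc (fun a v hv b => by
    rw [← mul_apply_eq_comp (π b), ← map_mul]
    exact hv _) with h | h
  · have : ξ ∈ W := hT
    rw [h] at this
    exact (hξ this).elim
  · ext v
    have : v ∈ W := by rw [h]; trivial
    simpa using this 1

end States

/-- every proper left ideal kills a unit vector of some irreducible representation -/
theorem exists_irr {A : Type} [CStarAlgebra A] (L : Ideal A) (hL : L ≠ ⊤) :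
    ∃ (H : Type) (_ : NormedAddCommGroup H) (_ : InnerProductSpace ℂ H) (_ : CompleteSpace H)
      (π : A →⋆ₐ[ℂ] (H →L[ℂ] H)) (ξ : H), Irr π ∧ ‖ξ‖ = 1 ∧ ∀ l ∈ L, π l ξ = 0 := by
  obtain ⟨f₀, hf₀, hf₀L⟩ := irr_exists_state L hL
  obtain ⟨f, hf⟩ := (irr_isCompact_K L).extremePoints_nonempty ⟨_, irr_mem_K hf₀ hf₀L⟩
  obtain ⟨φ, rfl, hφ, hφL⟩ := irr_of_mem_K hf.1
  obtain ⟨H, i1, i2, i3, hat, π, h1, h2, h3⟩ := exists_gns hφ
  have hsq : ∀ v : H, ⟪v, v⟫_ℂ = ((‖v‖ ^ 2 : ℝ) : ℂ) := fun v => by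
    rw [inner_self_eq_norm_sq_to_K]; simp
  have hξ : ‖hat 1‖ = 1 := by rw [← n2_eq_norm h1, hφ.n2_one]
  have hkill : ∀ l ∈ L, π l (hat 1) = 0 := by
    intro l hl
    rw [h2, mul_one, ← inner_self_eq_zero (𝕜 := ℂ), h1]
    exact hφL _ (L.mul_mem_left _ hl)
  have hhat : ∀ a, π a (hat 1) = hat a := fun a => by rw [h2, mul_one]
  have htop : ∀ V : Submodule ℂ H, IsClosed (V : Set H) → (∀ a : A, ∀ v ∈ V, π a v ∈ V) →
      hat 1 ∈ V → V = ⊤ := by
    intro V hVc hV hmem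
    rw [eq_top_iff]
    intro x _
    refine h3.induction_on x hVc fun a => ?_
    rw [← hhat]
    exact hV a _ hmem
  refine ⟨H, i1, i2, i3, π, hat 1, fun V hVc hV => ?_, hξ, hkill⟩
  haveI : CompleteSpace V := hVc.completeSpace_coe
  obtain ⟨ξ₁, hξ₁, ξ₂, hξ₂, hsum⟩ := V.exists_add_mem_mem_orthogonal (hat 1)
  by_cases h10 : ξ₁ = 0
  · left
    rw [h10, zero_add] at hsum
    rw [← Submodule.orthogonal_eq_top_iff]
    exact htop Vᗮ V.isClosed_orthogonal (fun a v hv => irr_orth_invariant π hV a hv)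
      (hsum ▸ hξ₂)
  by_cases h20 : ξ₂ = 0
  · right
    rw [h20, add_zero] at hsum
    exact htop V hVc hV (hsum ▸ hξ₁)
  exfalso
  have o12 : ∀ a, ⟪ξ₁, π a ξ₂⟫_ℂ = 0 := fun a =>
    (Submodule.mem_orthogonal _ _).1 (irr_orth_invariant π hV a hξ₂) _ hξ₁
  have o21 : ∀ a, ⟪ξ₂, π a ξ₁⟫_ℂ = 0 := fun a =>
    (Submodule.mem_orthogonal' _ _).1 hξ₂ _ (hV a _ hξ₁)
  have hk : ∀ l ∈ L, π l ξ₁ = 0 ∧ π l ξ₂ = 0 := by
    intro l hl
    have e1 := hkill l hl
    rw [hsum, map_add] at e1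
    have e2 : ⟪π l ξ₁, π l ξ₂⟫_ℂ = 0 :=
      (Submodule.mem_orthogonal _ _).1 (irr_orth_invariant π hV l hξ₂) _ (hV l _ hξ₁)
    have e3 : π l ξ₁ = 0 := by
      rw [← inner_self_eq_zero (𝕜 := ℂ)]
      have := congrArg (fun z => ⟪π l ξ₁, z⟫_ℂ) e1
      simpa only [inner_add_right, e2, add_zero, inner_zero_right] using this
    rw [e3, zero_add] at e1
    exact ⟨e3, e1⟩
  have hφa : ∀ a, φ a = ⟪ξ₁, π a ξ₁⟫_ℂ + ⟪ξ₂, π a ξ₂⟫_ℂ := by
    intro a
    have := h1 1 a
    rw [star_one, one_mul, ← hhat a, hsum, map_add, inner_add_left, inner_add_right,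
      inner_add_right, o12, o21] at this
    rw [← this]
    ring
  have p1 : 0 < ‖ξ₁‖ ^ 2 := pow_pos (norm_pos_iff.2 h10) 2
  have p2 : 0 < ‖ξ₂‖ ^ 2 := pow_pos (norm_pos_iff.2 h20) 2
  have c1 : ((‖ξ₁‖ ^ 2 : ℝ) : ℂ) ≠ 0 := by exact_mod_cast p1.ne'
  have c2 : ((‖ξ₂‖ ^ 2 : ℝ) : ℂ) ≠ 0 := by exact_mod_cast p2.ne'
  have hone : ‖ξ₁‖ ^ 2 + ‖ξ₂‖ ^ 2 = 1 := by
    have := hφa 1
    rw [hφ.1, map_one, one_apply_eq_self, one_apply_eq_self, hsq, hsq] at this
    exact_mod_cast this.symm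
  have hext := hf.2 (irr_vector_mem_K π h10 fun l hl => (hk l hl).1)
    (irr_vector_mem_K π h20 fun l hl => (hk l hl).2) ⟨_, _, p1, p2, hone, by
      funext a
      simp only [Pi.add_apply, Pi.smul_apply, Complex.real_smul, hφa, Complex.ofReal_inv]
      field_simp⟩
  have hprop : ξ₁ - ((‖ξ₁‖ ^ 2 : ℝ) : ℂ) • hat 1 = 0 := by
    apply h3.eq_zero_of_inner_left (𝕜 := ℂ)
    intro a
    have e1 := congrFun hext a
    simp only [Complex.ofReal_inv] at e1
    rw [inner_sub_left, inner_smul_left, h1, star_one, one_mul, ← e1, ← hhat a, hsum, map_add,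
      inner_add_right, o12, Complex.conj_ofReal]
    field_simp
    ring
  have e2 := congrArg (fun z => ⟪ξ₂, z⟫_ℂ) hprop
  have e3 := o21 1
  rw [map_one, one_apply_eq_self] at e3
  simp only [hsum, inner_sub_right, inner_smul_right, inner_add_right, e3, inner_zero_right,
    hsq, zero_add, zero_sub, neg_eq_zero] at e2
  exact mul_ne_zero c1 c2 e2

/-- a non-unital irreducible representation is unital -/
theorem irr_upgrade {A : Type} [CStarAlgebra A] {H : Type} [NormedAddCommGroup H]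
    [InnerProductSpace ℂ H] [CompleteSpace H] (π : A →⋆ₙₐ[ℂ] (H →L[ℂ] H))
    (hπ : IsIrreducibleRep π) :
    ∃ (π' : A →⋆ₐ[ℂ] (H →L[ℂ] H)) (ξ : H), (∀ a, π' a = π a) ∧ Irr π' ∧ ‖ξ‖ = 1 := by
  have h1 : π 1 = 1 := by
    let V : Submodule ℂ H := (π 1 - 1).ker
    have hV : ∀ v, v ∈ V ↔ π 1 v = v := fun v => by simp [V, sub_eq_zero]
    have hin : ∀ a v, π a v ∈ V := fun a v => by
      rw [hV, ← mul_apply_eq_comp, ← map_mul, one_mul]
    rcases hπ.2 V (π 1 - 1).isClosed_ker (fun a v _ => hin a v) with h | h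
    · exfalso
      apply hπ.1
      ext a v
      have := hin a v
      rw [h] at this
      simpa using this
    · ext v
      have : v ∈ V := by rw [h]; trivial
      exact (hV v).1 this
  have hnt : ∃ v : H, v ≠ 0 := by
    by_contra hcon
    push Not at hcon
    apply hπ.1
    ext a v
    rw [hcon (π a v)]
    simp
  obtain ⟨v, hv⟩ := hnt
  refine ⟨{ toFun := π
            map_one' := h1
            map_mul' := map_mul π
            map_zero' := map_zero π
            map_add' := map_add π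
            commutes' := fun c => ?_
            map_star' := map_star π }, ((‖v‖⁻¹ : ℝ) : ℂ) • v, fun a => rfl, hπ.2, ?_⟩
  · rw [Algebra.algebraMap_eq_smul_one, Algebra.algebraMap_eq_smul_one, map_smul, h1]
  · rw [norm_smul, Complex.norm_real, norm_inv, norm_norm, inv_mul_cancel₀ (norm_ne_zero_iff.2 hv)]

theorem final_of_unique {A : Type} [CStarAlgebra A] {τ : A →ₗ[ℂ] ℂ}
    (hτ : IsFaithfulTracialState τ) {g : ℕ → ℕ → A} (hg : IsBase τ g)
    (huniq : ∀ (H₁ : Type) [NormedAddCommGroup H₁] [InnerProductSpace ℂ H₁] [CompleteSpace H₁]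
      (H₂ : Type) [NormedAddCommGroup H₂] [InnerProductSpace ℂ H₂] [CompleteSpace H₂]
      (π₁ : A →⋆ₐ[ℂ] (H₁ →L[ℂ] H₁)) (π₂ : A →⋆ₐ[ℂ] (H₂ →L[ℂ] H₂)) (ξ₁ : H₁) (ξ₂ : H₂),
      Irr π₁ → Irr π₂ → ‖ξ₁‖ = 1 → ‖ξ₂‖ = 1 →
        ∃ U : H₁ ≃ₗᵢ[ℂ] H₂, ∀ a v, U (π₁ a v) = π₂ a (U v)) :
    ¬ FiniteDimensional ℂ A ∧
      (∀ I : TwoSidedIdeal A, IsClosed (I : Set A) → I = ⊥ ∨ I = ⊤) ∧
      (∃ τ : A →ₗ[ℂ] ℂ, Crest.OpAlg.IsFaithfulTracialState τ) ∧
      ∀ (H₁ : Type) [NormedAddCommGroup H₁] [InnerProductSpace ℂ H₁] [CompleteSpace H₁]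
        (H₂ : Type) [NormedAddCommGroup H₂] [InnerProductSpace ℂ H₂] [CompleteSpace H₂]
        (π₁ : A →⋆ₙₐ[ℂ] (H₁ →L[ℂ] H₁)) (π₂ : A →⋆ₙₐ[ℂ] (H₂ →L[ℂ] H₂)),
        Crest.OpAlg.IsIrreducibleRep π₁ → Crest.OpAlg.IsIrreducibleRep π₂ →
          Crest.OpAlg.AreUnitarilyEquivalent π₁ π₂ := by
  refine ⟨fun hfd => ?_, fun I _ => ?_, ⟨τ, hτ⟩, ?_⟩
  · set N := Module.finrank ℂ A with hN
    have hli : LinearIndependent ℂ fun i : Fin (N + 1) => g N i := by
      rw [Fintype.linearIndependent_iff]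
      intro c hc j
      have h1 := congrArg (fun x => τ (g N j * x)) hc
      simp only [Finset.mul_sum, mul_smul_comm, map_sum, map_smul, mul_zero, map_zero,
        smul_eq_mul] at h1
      rw [Finset.sum_eq_single j (fun i _ hij => by
        rw [hg.orth N j i (fun h => hij (Fin.ext h.symm)), map_zero, mul_zero])
        (fun h => (h (Finset.mem_univ _)).elim), (hg.proj N j).isIdempotentElem.eq,
        hg.tr N j (Nat.lt_succ_iff.1 j.2)] at h1
      have h2 : (1 : ℂ) / ((N : ℂ) + 1) ≠ 0 := one_div_ne_zero (Nat.cast_add_one_ne_zero N)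
      exact (mul_eq_zero.1 h1).resolve_right h2
    have := hli.fintype_card_le_finrank
    rw [Fintype.card_fin, ← hN] at this
    omega
  · by_contra hcon
    push Not at hcon
    obtain ⟨hbot, htop⟩ := hcon
    obtain ⟨y, hyI, hy⟩ : ∃ y ∈ I, y ≠ 0 := by
      by_contra h
      push Not at h
      exact hbot (eq_bot_iff.2 fun y hy => (TwoSidedIdeal.mem_bot _).2 (h y hy))
    haveI : Nontrivial A := (isState_of_tr hτ).nontrivial
    letI : PartialOrder A := CStarAlgebra.spectralOrder A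
    haveI : StarOrderedRing A := CStarAlgebra.spectralOrderedRing A
    set p := star y * y with hp
    have hp0 : 0 ≤ p := star_mul_self_nonneg y
    have hspec := CStarAlgebra.norm_mem_spectrum_of_nonneg hp0
    set z := algebraMap ℝ A ‖p‖ - p with hz
    have hzsa : star z = z := by
      rw [hz, star_sub, (IsSelfAdjoint.of_nonneg hp0).star_eq,
        (IsSelfAdjoint.algebraMap A (.all ‖p‖)).star_eq]
    have hL2 : Ideal.span {z} ≠ ⊤ := by
      intro h
      obtain ⟨b, hb⟩ := Submodule.mem_span_singleton.1 ((Ideal.eq_top_iff_one _).1 h)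
      rw [smul_eq_mul] at hb
      have hb' : z * star b = 1 := by
        have := congrArg star hb
        rwa [star_mul, hzsa, star_one] at this
      have hbb : b = star b := left_inv_eq_right_inv hb hb'
      exact (spectrum.mem_iff.1 hspec) ⟨⟨z, b, by rw [hbb]; exact hb', hb⟩, rfl⟩
    have hL1 : I.asIdeal ≠ ⊤ := by
      intro h
      apply htop
      rw [← TwoSidedIdeal.one_mem_iff, ← TwoSidedIdeal.mem_asIdeal, h]
      trivial
    obtain ⟨H₁, _, _, _, π₁, ξ₁, a1, a2, a3⟩ := exists_irr _ hL1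
    obtain ⟨H₂, _, _, _, π₂, ξ₂, b1, b2, b3⟩ := exists_irr _ hL2
    obtain ⟨U, hU⟩ := huniq H₁ H₂ π₁ π₂ ξ₁ ξ₂ a1 b1 a2 b2
    have hk1 : π₁ p = 0 := irr_eq_zero_of_orbit a1 (ξ := ξ₁)
      (by intro h; rw [h, norm_zero] at a2; exact zero_ne_one a2) (fun a => by
        rw [← mul_apply_eq_comp, ← map_mul]
        apply a3
        rw [TwoSidedIdeal.mem_asIdeal]
        exact I.mul_mem_right _ _ (I.mul_mem_left _ _ hyI))
    have hk2 : π₂ p ξ₂ = 0 := by
      have := hU p (U.symm ξ₂)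
      rw [hk1, U.apply_symm_apply] at this
      simpa using this.symm
    have hk3 := b3 z (Ideal.subset_span rfl)
    rw [hz, map_sub, sub_apply, hk2, sub_zero, Algebra.algebraMap_eq_smul_one,
      ← Complex.coe_smul, map_smul, map_one, smul_apply, one_apply_eq_self] at hk3
    have hk4 := congrArg norm hk3
    rw [norm_smul, b2, mul_one, norm_zero, Complex.norm_real, norm_norm, hp,
      CStarRing.norm_star_mul_self, mul_self_eq_zero, norm_eq_zero] at hk4
    exact hy hk4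
  · intro H₁ _ _ _ H₂ _ _ _ π₁ π₂ h₁ h₂
    obtain ⟨ρ₁, ξ₁, a1, a2, a3⟩ := irr_upgrade π₁ h₁
    obtain ⟨ρ₂, ξ₂, b1, b2, b3⟩ := irr_upgrade π₂ h₂
    obtain ⟨U, hU⟩ := huniq H₁ H₂ ρ₁ ρ₂ ξ₁ ξ₂ a2 b2 a3 b3
    exact ⟨U, fun a v => by rw [← a1, ← b1]; exact hU a v⟩

end Crest.Agent.R120
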