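import Crest.Agent.R120.Quot

/-! Row 120: the first model. -/

set_option autoImplicit false
set_option linter.style.haveILetI false
set_option linter.unusedSectionVars false

open Filter Topology Crest.OpAlg
open scoped InnerProductSpace

noncomputable section

namespace Crest.Agent.R120

/-- the space of choice sequences -/
abbrev BaseG : Type := ∀ N : ℕ, Fin (N + 1)

/-- the product of the uniform laws -/
def baseMu : MeasureTheory.Measure BaseG :=
  MeasureTheory.Measure.infinitePi fun N => ProbabilityTheory.uniformOn (Set.univ : Set (Fin (N + 1)))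

instance baseMu_prob : MeasureTheory.IsProbabilityMeasure baseMu := by
  unfold baseMu; infer_instance

/-- the indicator of the event that the `N`-th choice is `i` -/
def baseInd (N i : ℕ) : C(BaseG, ℂ) :=
  ⟨fun x => if (x N : ℕ) = i then 1 else 0,
    (continuous_of_discreteTopology (f := fun a : Fin (N + 1) => if (a : ℕ) = i then (1 : ℂ) else 0)).comp
      (continuous_apply N)⟩

theorem baseInd_apply (N i : ℕ) (x : BaseG) :
    baseInd N i x = if (x N : ℕ) = i then 1 else 0 := rfl

theorem base_integrable (f : C(BaseG, ℂ)) : MeasureTheory.Integrable f baseMu :=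
  f.continuous.integrable_of_hasCompactSupport (HasCompactSupport.of_compactSpace _)

/-- integration as a linear functional -/
def baseTr : C(BaseG, ℂ) →ₗ[ℂ] ℂ where
  toFun f := ∫ x, f x ∂baseMu
  map_add' f g := by
    simp only [ContinuousMap.add_apply]
    exact MeasureTheory.integral_add (base_integrable f) (base_integrable g)
  map_smul' c f := by
    simp only [ContinuousMap.smul_apply, RingHom.id_apply]
    exact MeasureTheory.integral_smul c _

theorem baseTr_apply (f : C(BaseG, ℂ)) : baseTr f = ∫ x, f x ∂baseMu := rfl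

theorem baseTr_isState : IsState baseTr := by
  refine ⟨by simp [baseTr_apply], fun a => ?_⟩
  have : baseTr (star a * a) = ((∫ x, ‖a x‖ ^ 2 ∂baseMu : ℝ) : ℂ) := by
    rw [baseTr_apply, ← integral_complex_ofReal]
    refine MeasureTheory.integral_congr_ae (Eventually.of_forall fun x => ?_)
    simp only [ContinuousMap.mul_apply, ContinuousMap.star_apply]
    rw [Complex.star_def, Complex.conj_mul']
    simp
  rw [this]
  exact ⟨Complex.ofReal_im _, by
    rw [Complex.ofReal_re]; exact MeasureTheory.integral_nonneg fun x => by positivity⟩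

theorem baseTr_ind (N i : ℕ) (hi : i ≤ N) : baseTr (baseInd N i) = 1 / ((N : ℂ) + 1) := by
  rw [baseTr_apply]
  have h1 := (measurePreserving_eval_infinitePi
    (fun N => ProbabilityTheory.uniformOn (Set.univ : Set (Fin (N + 1)))) N)
  have h2 : ∫ x, baseInd N i x ∂baseMu =
      ∫ a : Fin (N + 1), (if (a : ℕ) = i then (1 : ℂ) else 0)
        ∂(ProbabilityTheory.uniformOn (Set.univ : Set (Fin (N + 1)))) := by
    rw [← h1.map_eq, MeasureTheory.integral_map h1.measurable.aemeasurable
      (Measurable.of_discrete.aestronglyMeasurable)]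
    rfl
  rw [h2, MeasureTheory.integral_fintype (MeasureTheory.Integrable.of_finite),
    Finset.sum_eq_single (⟨i, Nat.lt_succ_of_le hi⟩ : Fin (N + 1))]
  · have h3 : ((N : ENNReal) + 1).toReal = (N : ℝ) + 1 := by
      rw [ENNReal.toReal_add (by simp) (by simp)]; simp
    simp [MeasureTheory.Measure.real, ProbabilityTheory.uniformOn_univ, h3]
  · intro b _ hb
    have : (b : ℕ) ≠ i := fun h => hb (Fin.ext h)
    simp [this]
  · simp

theorem baseInd_isBase : IsBase baseTr baseInd where
  proj N i := by
    constructor
    · ext x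
      simp only [ContinuousMap.mul_apply, baseInd_apply]
      split_ifs <;> simp
    · ext x
      simp only [ContinuousMap.star_apply, baseInd_apply]
      split_ifs <;> simp
  orth N i j hij := by
    ext x
    simp only [ContinuousMap.mul_apply, baseInd_apply, ContinuousMap.zero_apply]
    by_cases h : (x N : ℕ) = i
    · rw [if_neg (fun h' : (x N : ℕ) = j => hij (h.symm.trans h')), mul_zero]
    · rw [if_neg h, zero_mul]
  sum N := by
    ext x
    simp only [ContinuousMap.coe_sum, Finset.sum_apply, baseInd_apply, ContinuousMap.one_apply]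
    rw [Finset.sum_ite_eq]
    simp [Nat.lt_succ_iff.mp (x N).2]
  tr := baseTr_ind

theorem nonempty_model : Nonempty Model := by
  let R : Set C(BaseG, ℂ) := Set.range fun p : ℕ × ℕ => baseInd p.1 p.2
  let S : StarSubalgebra ℂ C(BaseG, ℂ) := gen R
  haveI hS : IsClosed (S : Set C(BaseG, ℂ)) := isClosed_gen R
  let σ : S →ₗ[ℂ] ℂ := baseTr ∘ₗ S.subtype.toLinearMap
  have hσa : ∀ x : S, σ x = baseTr x := fun x => rfl
  have hσ : IsState σ := ⟨baseTr_isState.1, fun a => baseTr_isState.2 a⟩
  obtain ⟨A, _, τ, q, htr, hq, hdense⟩ := exists_faithful_quot hσ (fun x y => by rw [mul_comm])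
  let g : ℕ → ℕ → S := fun N i => ⟨baseInd N i, subset_gen R ⟨(N, i), rfl⟩⟩
  let U : Code → A := fun γ => match γ with
    | .base N i => q (g N i)
    | .node _ _ => 0
  let I : Set Code := {γ | ∃ N i, γ = .base N i}
  have hgp : ∀ N i, IsStarProjection (g N i) := fun N i =>
    ⟨Subtype.ext (baseInd_isBase.proj N i).isIdempotentElem.eq,
      Subtype.ext (baseInd_isBase.proj N i).isSelfAdjoint.star_eq⟩
  refine ⟨{ I := I, A := A, τ := τ, U := U, tr := htr, cl := ⟨fun N i => ⟨N, i, rfl⟩, ?_⟩,
            gen_top := ?_, sa := ?_, base := ⟨?_, ?_, ?_, ?_⟩, node := ?_ }⟩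
  · rintro ch dat ⟨N, i, h⟩; cases h
  · have hcont : Continuous q :=
      AddMonoidHomClass.continuous_of_bound q 1 fun x => by
        simpa using NonUnitalStarAlgHom.norm_apply_le q x
    have hcl : IsClosed ((alg U I : StarSubalgebra ℂ A) : Set A) := isClosed_gen _
    have hall : ∀ x : S, q x ∈ alg U I := by
      let T : StarSubalgebra ℂ S := (alg U I).comap q
      have hT : IsClosed (T : Set S) := hcl.preimage hcont
      have hT' : IsClosed ((T.map S.subtype : StarSubalgebra ℂ C(BaseG, ℂ)) : Set C(BaseG, ℂ)) :=
        hS.isClosedEmbedding_subtypeVal.isClosedMap _ hT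
      have hle : gen R ≤ T.map S.subtype := by
        refine gen_le hT' ?_
        rintro _ ⟨⟨N, i⟩, rfl⟩
        exact ⟨g N i, subset_gen _ ⟨.base N i, ⟨N, i, rfl⟩, rfl⟩, rfl⟩
      intro x
      obtain ⟨y, hy, hyx⟩ := hle x.2
      have : y = x := Subtype.ext hyx
      rw [← this]; exact hy
    rw [eq_top_iff]
    intro a _
    exact hdense.induction_on a hcl hall
  · rintro γ ⟨N, i, rfl⟩
    change star (q (g N i)) = q (g N i)
    rw [← map_star, (hgp N i).isSelfAdjoint.star_eq]
  · intro N i
    exact (hgp N i).map q
  · intro N i j hij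
    change q (g N i) * q (g N j) = 0
    rw [← map_mul, show g N i * g N j = 0 from Subtype.ext (baseInd_isBase.orth N i j hij), map_zero]
  · intro N
    change ∑ i ∈ Finset.range (N + 1), q (g N i) = 1
    rw [← map_sum, ← map_one q]
    congr 1
    apply Subtype.ext
    rw [AddSubmonoidClass.coe_finsetSum]
    exact baseInd_isBase.sum N
  · intro N i hi
    change τ (q (g N i)) = _
    rw [hq, hσa]
    exact baseInd_isBase.tr N i hi
  · rintro ch dat ⟨N, i, h⟩; cases h

end Crest.Agent.R120
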