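import Crest.Agent.R120.Trace

/-! Row 120: nested sequences and excision. -/

set_option autoImplicit false
set_option linter.style.haveILetI false
set_option linter.unusedSectionVars false

open Filter Topology Crest.OpAlg

noncomputable section

namespace Crest.Agent.R120

variable {A : Type*} [CStarAlgebra A] {τ : A →ₗ[ℂ] ℂ}

theorem hom_continuous {A' : Type*} [CStarAlgebra A'] (ι : A →⋆ₐ[ℂ] A') : Continuous ι :=
  AddMonoidHomClass.continuous_of_bound ι 1
    (fun x => by simpa using NonUnitalStarAlgHom.norm_apply_le ι x)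

theorem nest_mul_of_lt {a : ℕ → A} (h : ∀ n, a n * a (n + 1) = a (n + 1)) {i j : ℕ}
    (hij : i < j) : a i * a j = a j := by
  induction j, hij using Nat.le_induction with
  | base => exact h i
  | succ j _ ih => rw [← h j, ← mul_assoc, ih]

theorem norm_mul3_le (x y z : A) : ‖x * y * z‖ ≤ ‖x‖ * ‖y‖ * ‖z‖ :=
  (norm_mul_le _ _).trans (by gcongr; exact norm_mul_le _ _)

theorem norm_conj_le_of_le_one {x z : A} (y : A) (hx : ‖x‖ ≤ 1) (hz : ‖z‖ ≤ 1) :
    ‖x * y * z‖ ≤ ‖y‖ := by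
  refine (norm_mul3_le _ _ _).trans ?_
  calc ‖x‖ * ‖y‖ * ‖z‖ ≤ 1 * ‖y‖ * 1 := by gcongr
    _ = ‖y‖ := by ring

theorem norm_mul_le_right {x : A} (y : A) (hx : ‖x‖ ≤ 1) : ‖x * y‖ ≤ ‖y‖ :=
  (norm_mul_le _ _).trans (by simpa using mul_le_mul_of_nonneg_right hx (norm_nonneg y))

theorem norm_mul_le_left {x : A} (y : A) (hx : ‖x‖ ≤ 1) : ‖y * x‖ ≤ ‖y‖ :=
  (norm_mul_le _ _).trans (by simpa using mul_le_mul_of_nonneg_left hx (norm_nonneg y))

namespace Nest

variable {a : ℕ → A} (ha : Nest τ a)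
include ha

theorem mul_of_lt {i j : ℕ} (hij : i < j) : a i * a j = a j := nest_mul_of_lt ha.nest hij

theorem mul_of_gt {i j : ℕ} (hij : i < j) : a j * a i = a j := by
  have := congrArg star (ha.mul_of_lt hij)
  rwa [star_mul, ha.sa, ha.sa] at this

theorem eq_zero_of_le {i j : ℕ} (hij : i ≤ j) (h : a i = 0) : a j = 0 := by
  rcases hij.eq_or_lt with rfl | hij
  · exact h
  · rw [← ha.mul_of_lt hij, h, zero_mul]

theorem norm_eq_one (hne : ∀ n, a n ≠ 0) (n : ℕ) : ‖a n‖ = 1 := by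
  refine le_antisymm (ha.norm_le n) ?_
  have h1 : ‖a (n + 1)‖ ≤ ‖a n‖ * ‖a (n + 1)‖ := by
    conv_lhs => rw [← ha.nest n]
    exact norm_mul_le _ _
  have h2 : 0 < ‖a (n + 1)‖ := norm_pos_iff.mpr (hne _)
  by_contra hlt
  push Not at hlt
  nlinarith

theorem norm_sq_eq_one (hne : ∀ n, a n ≠ 0) (n : ℕ) : ‖a n * a n‖ = 1 := by
  have := CStarRing.norm_star_mul_self (x := a n)
  rw [ha.sa, ha.norm_eq_one hne] at this
  simpa using this

theorem norm_sq_le (n : ℕ) : ‖a n * a n‖ ≤ 1 := (norm_mul_le_right _ (ha.norm_le n)).trans (ha.norm_le n)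

theorem antitone_left (y : A) : Antitone fun n => ‖a n * y‖ := by
  refine antitone_nat_of_succ_le (fun n => ?_)
  show ‖a (n + 1) * y‖ ≤ ‖a n * y‖
  rw [← ha.mul_of_gt (Nat.lt_succ_self n), mul_assoc]
  exact norm_mul_le_right _ (ha.norm_le _)

theorem antitone_right (y : A) : Antitone fun n => ‖y * a n‖ := by
  refine antitone_nat_of_succ_le (fun n => ?_)
  show ‖y * a (n + 1)‖ ≤ ‖y * a n‖
  rw [← ha.nest n, ← mul_assoc]
  exact norm_mul_le_left _ (ha.norm_le _)

theorem exc_antitone (x : A) (l : ℂ) :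
    Antitone fun n => ‖a n * x * a n - l • (a n * a n)‖ := by
  refine antitone_nat_of_succ_le (fun n => ?_)
  have e : a (n + 1) * x * a (n + 1) - l • (a (n + 1) * a (n + 1)) =
      a (n + 1) * (a n * x * a n - l • (a n * a n)) * a (n + 1) := by
    have h1 := ha.nest n
    have h2 := ha.mul_of_gt (Nat.lt_succ_self n)
    simp only [mul_sub, sub_mul, mul_smul_comm, smul_mul_assoc]
    congr 1
    · rw [← mul_assoc, ← mul_assoc, h2, mul_assoc _ (a n), h1]
    · congr 1
      rw [← mul_assoc, h2, mul_assoc, h1]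
  show ‖_‖ ≤ ‖_‖
  rw [e]
  exact norm_conj_le_of_le_one _ (ha.norm_le _) (ha.norm_le _)

theorem exc_of_approx {x : A}
    (h : ∀ ε > 0, ∃ n, ∃ l : ℂ, ‖a n * x * a n - l • (a n * a n)‖ ≤ ε) : Exc a x := by
  by_cases hne : ∀ n, a n ≠ 0
  swap
  · push Not at hne
    obtain ⟨n, hn⟩ := hne
    refine ⟨0, tendsto_atTop_of_eventually_const (i₀ := n) (fun m hm => ?_)⟩
    simp [ha.eq_zero_of_le hm hn]
  have key : ∀ {n m : ℕ} {l l' : ℂ} {ε ε' : ℝ}, ‖a n * x * a n - l • (a n * a n)‖ ≤ ε →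
      ‖a m * x * a m - l' • (a m * a m)‖ ≤ ε' → ‖l - l'‖ ≤ ε + ε' := by
    intro n m l l' ε ε' h1 h2
    have k1 := (ha.exc_antitone x l (le_max_left n m)).trans h1
    have k2 := (ha.exc_antitone x l' (le_max_right n m)).trans h2
    set k := max n m
    have e : (l - l') • (a k * a k) = (a k * x * a k - l' • (a k * a k)) -
        (a k * x * a k - l • (a k * a k)) := by rw [sub_smul]; abel
    have : ‖(l - l') • (a k * a k)‖ ≤ ε' + ε := by
      rw [e]; exact (norm_sub_le _ _).trans (add_le_add k2 k1)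
    rw [norm_smul, ha.norm_sq_eq_one hne, mul_one] at this
    linarith
  choose N L hL using fun k : ℕ => h (1 / ((k : ℝ) + 1)) Nat.one_div_pos_of_nat
  have hc : CauchySeq L := by
    refine Metric.cauchySeq_iff'.mpr (fun ε hε => ?_)
    obtain ⟨k, hk⟩ := exists_nat_one_div_lt (half_pos hε)
    refine ⟨k, fun n hn => ?_⟩
    have h1 := key (hL n) (hL k)
    have h2 : 1 / ((n : ℝ) + 1) ≤ 1 / ((k : ℝ) + 1) := Nat.one_div_le_one_div hn
    rw [dist_eq_norm]; linarith
  obtain ⟨l, hl⟩ := cauchySeq_tendsto_of_complete hc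
  refine ⟨l, ?_⟩
  rw [tendsto_zero_iff_norm_tendsto_zero, Metric.tendsto_atTop]
  intro ε hε
  obtain ⟨k, hk⟩ := exists_nat_one_div_lt (half_pos hε)
  obtain ⟨k', hk'⟩ := Metric.tendsto_atTop.mp hl (ε / 2) (half_pos hε)
  set j := max k k'
  refine ⟨N j, fun n hn => ?_⟩
  have h1 := (ha.exc_antitone x (L j) hn).trans (hL j)
  have h2 : 1 / ((j : ℝ) + 1) ≤ 1 / ((k : ℝ) + 1) := Nat.one_div_le_one_div (le_max_left _ _)
  have h3 := hk' j (le_max_right _ _)
  rw [dist_eq_norm] at h3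
  rw [Real.dist_eq, sub_zero, abs_of_nonneg (norm_nonneg _)]
  have e : a n * x * a n - l • (a n * a n) = (a n * x * a n - L j • (a n * a n)) +
      (L j - l) • (a n * a n) := by rw [sub_smul]; abel
  rw [e]
  refine (norm_add_le _ _).trans_lt ?_
  have h4 : ‖(L j - l) • (a n * a n)‖ ≤ ‖L j - l‖ := by
    rw [norm_smul]
    simpa using mul_le_mul_of_nonneg_left (ha.norm_sq_le n) (norm_nonneg (L j - l))
  have h5 : ‖a n * x * a n - L j • (a n * a n)‖ ≤ 1 / ((j : ℝ) + 1) := h1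
  linarith

theorem exc_of_mem_closure {s : Set A} (hs : ∀ x ∈ s, Exc a x) {x : A} (hx : x ∈ closure s) :
    Exc a x := by
  refine ha.exc_of_approx (fun ε hε => ?_)
  obtain ⟨y, hy, hxy⟩ := Metric.mem_closure_iff.mp hx (ε / 2) (half_pos hε)
  obtain ⟨l, hl⟩ := hs y hy
  rw [tendsto_zero_iff_norm_tendsto_zero] at hl
  obtain ⟨n, hn⟩ := (hl.eventually (gt_mem_nhds (half_pos hε))).exists
  refine ⟨n, l, ?_⟩
  have e : a n * x * a n - l • (a n * a n) = (a n * y * a n - l • (a n * a n)) +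
      a n * (x - y) * a n := by noncomm_ring
  rw [e]
  refine (norm_add_le _ _).trans ?_
  have := norm_conj_le_of_le_one (x - y) (ha.norm_le n) (ha.norm_le n)
  rw [dist_eq_norm] at hxy
  linarith

theorem isClosed_exc : IsClosed {x | Exc a x} :=
  isClosed_of_closure_subset fun _ hx => ha.exc_of_mem_closure (fun _ h => h) hx

theorem exc_star {x : A} (h : Exc a x) : Exc a (star x) := by
  obtain ⟨l, hl⟩ := h
  refine ⟨star l, ?_⟩
  have := hl.star
  simpa [star_sub, star_mul, ha.sa, mul_assoc] using this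

end Nest

theorem Exc.add {a : ℕ → A} {x y : A} (hx : Exc a x) (hy : Exc a y) : Exc a (x + y) := by
  obtain ⟨l, hl⟩ := hx
  obtain ⟨l', hl'⟩ := hy
  refine ⟨l + l', ?_⟩
  have := hl.add hl'
  rw [add_zero] at this
  refine this.congr (fun n => ?_)
  rw [add_smul]; noncomm_ring

theorem Exc.smul {a : ℕ → A} {x : A} (c : ℂ) (hx : Exc a x) : Exc a (c • x) := by
  obtain ⟨l, hl⟩ := hx
  refine ⟨c * l, ?_⟩
  have := hl.const_smul c
  rw [smul_zero] at this
  refine this.congr (fun n => ?_)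
  simp [smul_sub, mul_smul]

theorem exc_zero (a : ℕ → A) : Exc a 0 := ⟨0, by simp⟩

theorem exc_of_tendsto_zero {a : ℕ → A} {x : A}
    (h : Tendsto (fun n => a n * x * a n) atTop (𝓝 0)) : Exc a x := ⟨0, by simpa using h⟩

/-- the elements excised by `a` form a submodule -/
def excSub (a : ℕ → A) : Submodule ℂ A where
  carrier := {x | Exc a x}
  add_mem' := Exc.add
  zero_mem' := exc_zero a
  smul_mem' := fun c _ h => h.smul c

theorem Exc.map {A' : Type*} [CStarAlgebra A'] (ι : A →⋆ₐ[ℂ] A') {a : ℕ → A} {x : A}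
    (h : Exc a x) : Exc (fun n => ι (a n)) (ι x) := by
  obtain ⟨l, hl⟩ := h
  refine ⟨l, ?_⟩
  have := ((hom_continuous ι).tendsto 0).comp hl
  rw [map_zero] at this
  refine this.congr (fun n => ?_)
  simp

theorem Cross.map {A' : Type*} [CStarAlgebra A'] (ι : A →⋆ₐ[ℂ] A') {e f : ℕ → A} {x : A}
    (h : Cross e f x) : Cross (fun n => ι (e n)) (fun n => ι (f n)) (ι x) := by
  have := ((hom_continuous ι).tendsto 0).comp h
  rw [map_zero] at this
  refine this.congr (fun n => ?_)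
  simp

theorem Nest.map {A' : Type*} [CStarAlgebra A'] {τ' : A' →ₗ[ℂ] ℂ} (ι : A →⋆ₐ[ℂ] A')
    (hι : ∀ a, τ' (ι a) = τ a) {a : ℕ → A} (ha : Nest τ a) : Nest τ' (fun n => ι (a n)) where
  sa n := by rw [← map_star, ha.sa]
  norm_le n := (NonUnitalStarAlgHom.norm_apply_le ι _).trans (ha.norm_le n)
  nest n := by rw [← map_mul, ha.nest]
  small := by simpa only [n2_map ι hι] using ha.small

theorem proj_mul_of_le {e : ℕ → A} (hp : ∀ n, IsStarProjection (e n))
    (h : ∀ n, e n * e (n + 1) = e (n + 1)) {i j : ℕ} (hij : i ≤ j) : e i * e j = e j := by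
  rcases hij.eq_or_lt with rfl | hij
  · exact (hp i).isIdempotentElem.eq
  · exact nest_mul_of_lt h hij

theorem proj_mul_of_ge {e : ℕ → A} (hp : ∀ n, IsStarProjection (e n))
    (h : ∀ n, e n * e (n + 1) = e (n + 1)) {i j : ℕ} (hij : i ≤ j) : e j * e i = e j := by
  have := congrArg star (proj_mul_of_le hp h hij)
  rwa [star_mul, (hp i).isSelfAdjoint.star_eq, (hp j).isSelfAdjoint.star_eq] at this

theorem nest_of_proj {e : ℕ → A} (hp : ∀ n, IsStarProjection (e n))
    (h : ∀ n, e n * e (n + 1) = e (n + 1)) (hl : Tendsto (fun n => τ (e n)) atTop (𝓝 0)) :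
    Nest τ e where
  sa n := (hp n).isSelfAdjoint.star_eq
  norm_le n := IsStarProjection.norm_le _ (hp n)
  nest := h
  small := by
    have h1 : Tendsto (fun n => Real.sqrt (τ (e n)).re) atTop (𝓝 (Real.sqrt (0 : ℂ).re)) :=
      (Real.continuous_sqrt.tendsto _).comp ((Complex.continuous_re.tendsto _).comp hl)
    simp only [Complex.zero_re, Real.sqrt_zero] at h1
    refine h1.congr (fun n => ?_)
    rw [n2, (hp n).isSelfAdjoint.star_eq, (hp n).isIdempotentElem.eq]

namespace Data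

variable {e f : ℕ → A} (hd : Data τ e f)
include hd

theorem symm : Data τ f e where
  e_proj := hd.f_proj
  f_proj := hd.e_proj
  e_nest := hd.f_nest
  f_nest := hd.e_nest
  orth := by
    have := congrArg star hd.orth
    rwa [star_mul, (hd.e_proj 0).isSelfAdjoint.star_eq, (hd.f_proj 0).isSelfAdjoint.star_eq,
      star_zero] at this
  tr_eq n := (hd.tr_eq n).symm
  tr_lim := by simpa only [hd.tr_eq] using hd.tr_lim

theorem e_sa (n : ℕ) : star (e n) = e n := (hd.e_proj n).isSelfAdjoint.star_eq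
theorem f_sa (n : ℕ) : star (f n) = f n := (hd.f_proj n).isSelfAdjoint.star_eq
theorem e_sq (n : ℕ) : e n * e n = e n := (hd.e_proj n).isIdempotentElem.eq
theorem f_sq (n : ℕ) : f n * f n = f n := (hd.f_proj n).isIdempotentElem.eq

theorem ee_le {i j : ℕ} (h : i ≤ j) : e i * e j = e j := proj_mul_of_le hd.e_proj hd.e_nest h
theorem ee_ge {i j : ℕ} (h : i ≤ j) : e j * e i = e j := proj_mul_of_ge hd.e_proj hd.e_nest h
theorem ff_le {i j : ℕ} (h : i ≤ j) : f i * f j = f j := hd.symm.ee_le h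
theorem ff_ge {i j : ℕ} (h : i ≤ j) : f j * f i = f j := hd.symm.ee_ge h

theorem ee (i j : ℕ) : e i * e j = e (max i j) := by
  rcases le_total i j with h | h
  · rw [max_eq_right h, hd.ee_le h]
  · rw [max_eq_left h, hd.ee_ge h]

theorem ff (i j : ℕ) : f i * f j = f (max i j) := hd.symm.ee i j

theorem ef (i j : ℕ) : e i * f j = 0 := by
  rw [← hd.ee_ge (Nat.zero_le i), ← hd.ff_le (Nat.zero_le j), mul_assoc, ← mul_assoc (e 0),
    hd.orth]
  simp

theorem fe (i j : ℕ) : f i * e j = 0 := hd.symm.ef i j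

theorem nest_e : Nest τ e := nest_of_proj hd.e_proj hd.e_nest hd.tr_lim

theorem nest_f : Nest τ f := hd.symm.nest_e

theorem R_proj (n : ℕ) : IsStarProjection (e n + f n) :=
  (hd.e_proj n).add (hd.f_proj n) (hd.ef n n)

theorem map {A' : Type*} [CStarAlgebra A'] {τ' : A' →ₗ[ℂ] ℂ} (ι : A →⋆ₐ[ℂ] A')
    (hι : ∀ a, τ' (ι a) = τ a) : Data τ' (fun n => ι (e n)) (fun n => ι (f n)) where
  e_proj n := (hd.e_proj n).map ι
  f_proj n := (hd.f_proj n).map ι
  e_nest n := by rw [← map_mul, hd.e_nest]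
  f_nest n := by rw [← map_mul, hd.f_nest]
  orth := by rw [← map_mul, hd.orth, map_zero]
  tr_eq n := by rw [hι, hι, hd.tr_eq]
  tr_lim := by simpa only [hι] using hd.tr_lim

end Data

theorem data_zero (τ : A →ₗ[ℂ] ℂ) : Data τ (fun _ => 0) (fun _ => 0) where
  e_proj _ := IsStarProjection.zero A
  f_proj _ := IsStarProjection.zero A
  e_nest _ := by simp
  f_nest _ := by simp
  orth := by simp
  tr_eq _ := rfl
  tr_lim := by simp

end Crest.Agent.R120
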