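import Crest.Agent.R120.Excise
import Crest.Agent.R120.Nest

/-! Row 120: nested excising sequences with countable support. -/

set_option autoImplicit false
set_option linter.style.haveILetI false
set_option linter.unusedSectionVars false

open Filter Topology Crest.OpAlg
open scoped InnerProductSpace

noncomputable section

namespace Crest.Agent.R120

section CloseAux

variable {A : Type*} [CStarAlgebra A]

theorem close_alg_mono (U : Code → A) {S T : Set Code} (h : S ⊆ T) : alg U S ≤ alg U T :=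
  gen_mono (Set.image_mono h)

theorem close_isCl_iUnion {S : ℕ → Set Code} (h : ∀ n, IsCl (S n)) : IsCl (⋃ n, S n) where
  base N i := Set.mem_iUnion.2 ⟨0, (h 0).base N i⟩
  node ch dat hm k := by
    obtain ⟨n, hn⟩ := Set.mem_iUnion.1 hm
    exact Set.mem_iUnion.2 ⟨n, (h n).node ch dat hn k⟩

theorem close_isCl_union {S T : Set Code} (hS : IsCl S) (hT : IsCl T) : IsCl (S ∪ T) where
  base N i := Or.inl (hS.base N i)
  node ch dat hm k := hm.elim (fun h => Or.inl (hS.node ch dat h k))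
    (fun h => Or.inr (hT.node ch dat h k))

theorem close_base_hull {I : Set Code} (hI : IsCl I) :
    ∃ S : Set Code, S.Countable ∧ IsCl S ∧ S ⊆ I := by
  refine ⟨Set.range (fun p : ℕ × ℕ => Code.base p.1 p.2), Set.countable_range _,
    ⟨fun N i => ⟨(N, i), rfl⟩, ?_⟩, ?_⟩
  · rintro ch dat ⟨p, hp⟩
    cases hp
  · rintro _ ⟨p, rfl⟩
    exact hI.base _ _

theorem close_code_hull {I : Set Code} (hI : IsCl I) (γ : Code) (hγ : γ ∈ I) :
    ∃ S : Set Code, S.Countable ∧ IsCl S ∧ S ⊆ I ∧ γ ∈ S := by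
  induction γ with
  | base N i =>
    obtain ⟨S, h1, h2, h3⟩ := close_base_hull hI
    exact ⟨S, h1, h2, h3, h2.base N i⟩
  | node ch dat ih =>
    choose S h1 h2 h3 h4 using fun k => ih k (hI.node ch dat hγ k)
    refine ⟨insert (Code.node ch dat) (⋃ k, S k), (Set.countable_iUnion h1).insert _,
      ⟨fun N i => Or.inr ((close_isCl_iUnion h2).base N i), ?_⟩,
      Set.insert_subset hγ (Set.iUnion_subset h3), Set.mem_insert _ _⟩
    intro ch' dat' hm k
    rcases hm with hm | hm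
    · cases hm
      exact Or.inr (Set.mem_iUnion.2 ⟨k, h4 k⟩)
    · exact Or.inr ((close_isCl_iUnion h2).node ch' dat' hm k)

theorem close_support (U : Code → A) {I : Set Code} (hI : IsCl I) {x : A} (hx : x ∈ alg U I) :
    ∃ S : Set Code, S.Countable ∧ IsCl S ∧ S ⊆ I ∧ x ∈ alg U S := by
  have key : ∀ y ∈ StarAlgebra.adjoin ℂ (U '' I),
      ∃ S : Set Code, S.Countable ∧ IsCl S ∧ S ⊆ I ∧ y ∈ alg U S := by
    intro y hy
    induction hy using StarAlgebra.adjoin_induction with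
    | mem y h =>
      obtain ⟨γ, hγ, rfl⟩ := h
      obtain ⟨S, h1, h2, h3, h4⟩ := close_code_hull hI γ hγ
      exact ⟨S, h1, h2, h3, subset_gen _ ⟨γ, h4, rfl⟩⟩
    | algebraMap r =>
      obtain ⟨S, h1, h2, h3⟩ := close_base_hull hI
      exact ⟨S, h1, h2, h3, algebraMap_mem _ r⟩
    | add y z _ _ hy hz =>
      obtain ⟨S, h1, h2, h3, h4⟩ := hy
      obtain ⟨T, k1, k2, k3, k4⟩ := hz
      exact ⟨S ∪ T, h1.union k1, close_isCl_union h2 k2, Set.union_subset h3 k3,
        add_mem (close_alg_mono U Set.subset_union_left h4)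
          (close_alg_mono U Set.subset_union_right k4)⟩
    | mul y z _ _ hy hz =>
      obtain ⟨S, h1, h2, h3, h4⟩ := hy
      obtain ⟨T, k1, k2, k3, k4⟩ := hz
      exact ⟨S ∪ T, h1.union k1, close_isCl_union h2 k2, Set.union_subset h3 k3,
        mul_mem (close_alg_mono U Set.subset_union_left h4)
          (close_alg_mono U Set.subset_union_right k4)⟩
    | star y _ hy =>
      obtain ⟨S, h1, h2, h3, h4⟩ := hy
      exact ⟨S, h1, h2, h3, star_mem h4⟩
  have hx' : x ∈ closure (StarAlgebra.adjoin ℂ (U '' I) : Set A) := hx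
  obtain ⟨y, hy, hlim⟩ := mem_closure_iff_seq_limit.1 hx'
  choose S h1 h2 h3 h4 using fun n => key (y n) (hy n)
  refine ⟨⋃ n, S n, Set.countable_iUnion h1, close_isCl_iUnion h2, Set.iUnion_subset h3, ?_⟩
  exact (isClosed_gen _).mem_of_tendsto hlim
    (Eventually.of_forall fun n => close_alg_mono U (Set.subset_iUnion S n) (h4 n))

theorem close_dense_seq (U : Code → A) {S : Set Code} (hS : S.Countable) :
    ∃ y : ℕ → A, (alg U S : Set A) ⊆ closure (Set.range y) := by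
  have h1 : (U '' S ∪ star (U '' S)).Countable := by
    refine (hS.image U).union ?_
    rw [← Set.image_star]
    exact (hS.image U).image _
  set s := U '' S ∪ star (U '' S) with hs
  have h2 : (Submonoid.closure s : Set A).Countable := by
    have := h1.to_subtype
    refine (Set.countable_range (fun l : List s => (l.map Subtype.val).prod)).mono ?_
    intro x hx
    obtain ⟨l, hl, rfl⟩ := Submonoid.exists_list_of_mem_closure hx
    refine ⟨l.attach.map (fun z => ⟨z.1, hl z.1 z.2⟩), ?_⟩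
    simp [List.map_map, Function.comp_def]
  have h3 : TopologicalSpace.IsSeparable (alg U S : Set A) := by
    have h4 := (h2.isSeparable.span (R := ℂ)).closure
    rw [← StarAlgebra.adjoin_eq_span] at h4
    exact h4
  obtain ⟨c, hc, hsub⟩ := h3
  obtain ⟨y, hy⟩ := (hc.insert 0).exists_eq_range (Set.insert_nonempty _ _)
  exact ⟨y, hsub.trans (closure_mono (hy ▸ Set.subset_insert _ _))⟩

theorem close_mem_closure_iUnion (U : Code → A) {S : ℕ → Set Code} (hS : Monotone S) :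
    (alg U (⋃ n, S n) : Set A) ⊆ closure (⋃ n, (alg U (S n) : Set A)) := by
  change closure (StarAlgebra.adjoin ℂ (U '' ⋃ n, S n) : Set A) ⊆ _
  refine closure_mono fun y hy => ?_
  rw [Set.mem_iUnion]
  induction hy using StarAlgebra.adjoin_induction with
  | mem y h =>
    obtain ⟨γ, hγ, rfl⟩ := h
    obtain ⟨n, hn⟩ := Set.mem_iUnion.1 hγ
    exact ⟨n, subset_gen _ ⟨γ, hn, rfl⟩⟩
  | algebraMap r => exact ⟨0, algebraMap_mem (alg U (S 0)) r⟩
  | add y z _ _ hy hz =>
    obtain ⟨n, hn⟩ := hy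
    obtain ⟨m, hm⟩ := hz
    exact ⟨max n m, add_mem (close_alg_mono U (hS (le_max_left _ _)) hn)
      (close_alg_mono U (hS (le_max_right _ _)) hm)⟩
  | mul y z _ _ hy hz =>
    obtain ⟨n, hn⟩ := hy
    obtain ⟨m, hm⟩ := hz
    exact ⟨max n m, mul_mem (close_alg_mono U (hS (le_max_left _ _)) hn)
      (close_alg_mono U (hS (le_max_right _ _)) hm)⟩
  | star y _ hy =>
    obtain ⟨n, hn⟩ := hy
    exact ⟨n, star_mem (S := StarSubalgebra ℂ A) hn⟩

variable {H : Type*} [NormedAddCommGroup H] [InnerProductSpace ℂ H] [CompleteSpace H]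

theorem close_cfc_fix (π : A →⋆ₐ[ℂ] (H →L[ℂ] H)) {ξ : H} {b : A} (hb : IsSelfAdjoint b)
    (hbξ : π b ξ = ξ) {f : ℝ → ℝ} (hf : Continuous f) (h1 : ∀ t, 3 / 4 ≤ t → f t = 1) :
    π (cfc f b) ξ = ξ := by
  let j : ℝ → ℝ := fun t => (1 - f t) / max (1 - t) (1 / 4)
  have hj : Continuous j := by
    refine (continuous_const.sub hf).div (by fun_prop) fun t => ?_
    exact (lt_of_lt_of_le (by norm_num) (le_max_right _ _)).ne'
  have e : (fun t => 1 - f t) = fun t => j t * (1 - t) := by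
    funext t
    by_cases ht : 3 / 4 ≤ t
    · simp [j, h1 t ht]
    · have : 1 / 4 ≤ 1 - t := by linarith
      have h0 : 1 - t ≠ 0 := by linarith
      simp only [j]
      rw [max_eq_left this]
      field_simp
  have e2 : 1 - cfc f b = cfc j b * (1 - b) := by
    have a1 : cfc (fun t => 1 - f t) b = 1 - cfc f b := by
      rw [cfc_sub _ _ b (by fun_prop) hf.continuousOn, cfc_const_one ℝ b]
    have a2 : cfc (fun t : ℝ => 1 - t) b = 1 - b := by
      rw [cfc_sub _ _ b (by fun_prop) (by fun_prop), cfc_const_one ℝ b, cfc_id' ℝ b]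
    rw [← a1, e, cfc_mul _ _ b hj.continuousOn (by fun_prop), a2]
  have e3 := congrArg (fun z => π z ξ) e2
  simp only [map_sub, map_mul, map_one, mul_apply_eq_comp, sub_apply, hbξ,
    one_apply_eq_self, sub_self, map_zero] at e3
  exact (sub_eq_zero.1 e3).symm

theorem close_step (π : A →⋆ₐ[ℂ] (H →L[ℂ] H)) (hπ : Irr π) {ξ : H} (hξ : ‖ξ‖ = 1) {c : A}
    (hc : star c = c) (hc1 : ‖c‖ ≤ 1) (hcξ : π c ξ = ξ) (F : Finset A) {ε : ℝ} (hε : 0 < ε) :
    ∃ a c' : A, star a = a ∧ ‖a‖ ≤ 1 ∧ π a ξ = ξ ∧ star c' = c' ∧ ‖c'‖ ≤ 1 ∧ π c' ξ = ξ ∧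
      a * c' = c' ∧ (∀ d, d * c = c → d * a = a) ∧
      ∀ x ∈ F, ‖a * x * a - ⟪ξ, π x ξ⟫_ℂ • (a * a)‖ ≤ ε := by
  classical
  have hadj : ∀ η : H, ⟪ξ, π c η⟫_ℂ = ⟪ξ, η⟫_ℂ := fun η => by
    rw [← ContinuousLinearMap.adjoint_inner_left, ← ContinuousLinearMap.star_eq_adjoint,
      ← map_star, hc, hcξ]
  obtain ⟨h, hh, hh1, hhξ, hF⟩ := exists_excise π hπ hξ
    (F.image fun x => c * (x - ⟪ξ, π x ξ⟫_ℂ • (1 : A)) * c) (by
      intro y hy
      obtain ⟨x, -, rfl⟩ := Finset.mem_image.1 hy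
      simp only [map_mul, mul_apply_eq_comp, hcξ, hadj, map_sub, map_smul, map_one,
        sub_apply, smul_apply, one_apply_eq_self, inner_sub_right, inner_smul_right,
        inner_self_eq_norm_sq_to_K, hξ]
      simp) (ε := ε / 16) (by positivity)
  set b := c * h * h * c with hbdef
  have hb : IsSelfAdjoint b := by
    change star b = b
    simp [hbdef, star_mul, hc, hh, mul_assoc]
  have hbξ : π b ξ = ξ := by
    simp only [hbdef, map_mul, mul_apply_eq_comp, hcξ, hhξ]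
  let f : ℝ → ℝ := fun t => max 0 (min 1 (4 * t - 1))
  let g : ℝ → ℝ := fun t => max 0 (min 1 (4 * t - 2))
  let k : ℝ → ℝ := fun t => f t / max t (1 / 4)
  have hf : Continuous f := by fun_prop
  have hg : Continuous g := by fun_prop
  have hk : Continuous k := by
    refine hf.div (by fun_prop) fun t => ?_
    exact (lt_of_lt_of_le (by norm_num) (le_max_right _ _)).ne'
  have f01 : ∀ t, ‖f t‖ ≤ 1 := fun t => by
    rw [Real.norm_eq_abs, abs_of_nonneg (le_max_left _ _)]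
    exact max_le zero_le_one (min_le_left _ _)
  have g01 : ∀ t, ‖g t‖ ≤ 1 := fun t => by
    rw [Real.norm_eq_abs, abs_of_nonneg (le_max_left _ _)]
    exact max_le zero_le_one (min_le_left _ _)
  have k4 : ∀ t, ‖k t‖ ≤ 4 := fun t => by
    have h1 : (1 : ℝ) / 4 ≤ max t (1 / 4) := le_max_right _ _
    have h2 := f01 t
    have h3 : (0 : ℝ) < max t (1 / 4) := by linarith
    change ‖f t / max t (1 / 4)‖ ≤ 4
    rw [norm_div, Real.norm_eq_abs (max t (1 / 4)), abs_of_pos h3, div_le_iff₀ h3]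
    linarith
  have f1 : ∀ t, 1 / 2 ≤ t → f t = 1 := fun t ht => by
    simp only [f]; rw [min_eq_left (by linarith), max_eq_right zero_le_one]
  have g1 : ∀ t, 3 / 4 ≤ t → g t = 1 := fun t ht => by
    simp only [g]; rw [min_eq_left (by linarith), max_eq_right zero_le_one]
  have fg : (fun t => f t * g t) = g := by
    funext t
    by_cases ht : 1 / 2 ≤ t
    · rw [f1 t ht, one_mul]
    · have : g t = 0 := by
        simp only [g]; exact max_eq_left ((min_le_right _ _).trans (by linarith))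
      rw [this, mul_zero]
  have fk : f = fun t => t * k t := by
    funext t
    by_cases ht : 1 / 4 ≤ t
    · have h0 : t ≠ 0 := by linarith
      simp only [k]; rw [max_eq_left ht]; field_simp
    · have : f t = 0 := by
        simp only [f]; exact max_eq_left ((min_le_right _ _).trans (by linarith))
      simp only [k, this, zero_div, mul_zero]
  have a1 : cfc f b = b * cfc k b := by
    rw [fk, cfc_mul _ _ b (by fun_prop) hk.continuousOn, cfc_id' ℝ b]
  have a2 : cfc f b = cfc k b * b := by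
    have : f = fun t => k t * t := by rw [fk]; funext t; ring
    rw [this, cfc_mul _ _ b hk.continuousOn (by fun_prop), cfc_id' ℝ b]
  have nk : ‖cfc k b‖ ≤ 4 := norm_cfc_le (by norm_num) fun t _ => k4 t
  refine ⟨cfc f b, cfc g b, (cfc_predicate f b : IsSelfAdjoint _).star_eq,
    norm_cfc_le zero_le_one fun t _ => f01 t,
    close_cfc_fix π hb hbξ hf fun t ht => f1 t (by linarith),
    (cfc_predicate g b : IsSelfAdjoint _).star_eq, norm_cfc_le zero_le_one fun t _ => g01 t,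
    close_cfc_fix π hb hbξ hg g1, ?_, fun d hd => ?_, fun x hx => ?_⟩
  · rw [← cfc_mul _ _ b hf.continuousOn hg.continuousOn, fg]
  · rw [a1, hbdef]
    simp only [← mul_assoc, hd]
  · have h1 := hF _ (Finset.mem_image_of_mem _ hx)
    set y := h * (c * (x - ⟪ξ, π x ξ⟫_ℂ • (1 : A)) * c) * h with hy
    have e : cfc f b * x * cfc f b - ⟪ξ, π x ξ⟫_ℂ • (cfc f b * cfc f b)
        = cfc k b * ((c * h) * y * (h * c)) * cfc k b := by
      have : cfc f b * x * cfc f b - ⟪ξ, π x ξ⟫_ℂ • (cfc f b * cfc f b)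
          = cfc f b * (x - ⟪ξ, π x ξ⟫_ℂ • (1 : A)) * cfc f b := by
        simp [mul_sub, sub_mul]
      rw [this]
      conv_lhs => rw [a2]
      conv_lhs => enter [2]; rw [← a2, a1]
      simp only [hy, hbdef, mul_assoc]
    rw [e]
    have n1 : ‖c * h‖ ≤ 1 := (norm_mul_le _ _).trans (by nlinarith [norm_nonneg c, norm_nonneg h])
    have n2 : ‖h * c‖ ≤ 1 := (norm_mul_le _ _).trans (by nlinarith [norm_nonneg c, norm_nonneg h])
    have n3 := (norm_conj_le_of_le_one y n1 n2).trans h1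
    refine (norm_mul3_le _ _ _).trans ?_
    calc ‖cfc k b‖ * ‖c * h * y * (h * c)‖ * ‖cfc k b‖ ≤ 4 * (ε / 16) * 4 := by gcongr
      _ = ε := by ring

end CloseAux

theorem Model.exists_nest (M : Model) {H : Type*} [NormedAddCommGroup H]
    [InnerProductSpace ℂ H] [CompleteSpace H] (π : M.A →⋆ₐ[ℂ] (H →L[ℂ] H)) (hπ : Irr π) {ξ : H}
    (hξ : ‖ξ‖ = 1) :
    ∃ (S : Set Code) (a : ℕ → M.A), S.Countable ∧ IsCl S ∧ S ⊆ M.I ∧ Nest M.τ a ∧
      (∀ n, a n ∈ alg M.U S) ∧ (∀ n, π (a n) ξ = ξ) ∧ ∀ x ∈ alg M.U S, Exc a x := by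
  classical
  have hs := isState_of_tr M.tr
  have hd : ∀ S : Set Code, ∃ y : ℕ → M.A, S.Countable →
      (alg M.U S : Set M.A) ⊆ closure (Set.range y) := fun S => by
    by_cases hS : S.Countable
    · obtain ⟨y, hy⟩ := close_dense_seq M.U hS
      exact ⟨y, fun _ => hy⟩
    · exact ⟨fun _ => 0, fun h => absurd h hS⟩
  choose dns hdns using hd
  let St : Type := {p : Set Code × M.A × (ℕ → Finset M.A) // p.1.Countable ∧ IsCl p.1 ∧
    p.1 ⊆ M.I ∧ star p.2.1 = p.2.1 ∧ ‖p.2.1‖ ≤ 1 ∧ π p.2.1 ξ = ξ}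
  have step : ∀ (n : ℕ) (s : St), ∃ (s' : St) (a : M.A), s.1.1 ⊆ s'.1.1 ∧ a ∈ alg M.U s'.1.1 ∧
      star a = a ∧ ‖a‖ ≤ 1 ∧ π a ξ = ξ ∧ a * s'.1.2.1 = s'.1.2.1 ∧
      (∀ d, d * s.1.2.1 = s.1.2.1 → d * a = a) ∧
      (∀ x ∈ s.1.2.2 n, ‖a * x * a - ⟪ξ, π x ξ⟫_ℂ • (a * a)‖ ≤ 1 / ((n : ℝ) + 1)) ∧
      (∀ k, s.1.2.2 k ⊆ s'.1.2.2 k) ∧ ∀ j k, j ≤ k → dns s.1.1 j ∈ s'.1.2.2 k := by
    rintro n ⟨⟨S, c, F⟩, h1, h2, h3, h4, h5, h6⟩
    obtain ⟨a, c', b1, b2, b3, b4, b5, b6, b7, b8, b9⟩ :=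
      close_step π hπ hξ h4 h5 h6 (F n) (ε := 1 / ((n : ℝ) + 1)) (by positivity)
    obtain ⟨T, t1, t2, t3, t4⟩ := close_support M.U M.cl (x := a) (by rw [M.gen_top]; trivial)
    refine ⟨⟨⟨S ∪ T, c', fun k => F k ∪ (Finset.range (k + 1)).image (dns S)⟩,
      h1.union t1, close_isCl_union h2 t2, Set.union_subset h3 t3, b4, b5, b6⟩, a,
      Set.subset_union_left, close_alg_mono M.U Set.subset_union_right t4, b1, b2, b3, b7, b8, b9,
      fun k => Finset.subset_union_left, fun j k hjk => Finset.mem_union_right _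
        (Finset.mem_image_of_mem _ (Finset.mem_range.2 (Nat.lt_succ_of_le hjk)))⟩
  choose nx av p1 p2 p3 p4 p5 p6 p7 p8 p9 p10 using step
  obtain ⟨S0, s1, s2, s3⟩ := close_base_hull M.cl
  have := hs.nontrivial
  let s0 : St := ⟨⟨S0, 1, fun _ => ∅⟩, s1, s2, s3, star_one _, norm_one.le, by simp⟩
  let s : ℕ → St := fun n => Nat.rec s0 (fun n t => nx n t) n
  have hsucc : ∀ n, s (n + 1) = nx n (s n) := fun n => rfl
  let a : ℕ → M.A := fun n => av n (s n)
  have hmono : Monotone fun n => (s n).1.1 := monotone_nat_of_le_succ fun n => p1 n (s n)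
  have hFmono : ∀ k, Monotone fun n => (s n).1.2.2 k :=
    fun k => monotone_nat_of_le_succ fun n => p9 n (s n) k
  have ha1 : ∀ n, ‖a n‖ ≤ 1 := fun n => p4 n (s n)
  have hasa : ∀ n, star (a n) = a n := fun n => p3 n (s n)
  have haa : ∀ n, ‖a n * a n‖ ≤ 1 := fun n => (norm_mul_le_right _ (ha1 n)).trans (ha1 n)
  have hφ : ∀ x : M.A, ‖⟪ξ, π x ξ⟫_ℂ‖ ≤ ‖x‖ := fun x => by
    refine (norm_inner_le_norm _ _).trans ?_
    have h1 := (π x).le_opNorm ξ
    have h2 := NonUnitalStarAlgHom.norm_apply_le π x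
    rw [hξ] at h1 ⊢
    linarith
  have hexc : ∀ x ∈ alg M.U (⋃ n, (s n).1.1),
      Tendsto (fun n => a n * x * a n - ⟪ξ, π x ξ⟫_ℂ • (a n * a n)) atTop (𝓝 0) := by
    intro x hx
    have hx1 := close_mem_closure_iUnion M.U hmono hx
    rw [NormedAddGroup.tendsto_nhds_zero]
    intro ε hε
    obtain ⟨z, hz, hxz⟩ := Metric.mem_closure_iff.1 hx1 (ε / 8) (by positivity)
    obtain ⟨m, hm⟩ := Set.mem_iUnion.1 hz
    obtain ⟨_, ⟨j, rfl⟩, hzy⟩ := Metric.mem_closure_iff.1 (hdns _ (s m).2.1 hm) (ε / 8)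
      (by positivity)
    set y := dns (s m).1.1 j with hy
    have hxy : ‖x - y‖ ≤ ε / 4 := by
      have := dist_triangle x z y
      rw [← dist_eq_norm]; linarith
    have ev : ∀ᶠ n : ℕ in atTop, 1 / ((n : ℝ) + 1) < ε / 2 :=
      tendsto_one_div_add_atTop_nhds_zero_nat.eventually (gt_mem_nhds (by positivity))
    filter_upwards [ev, eventually_ge_atTop (m + 1), eventually_ge_atTop j] with n h1 h2 h3
    have hyF : y ∈ (s n).1.2.2 n := hFmono n h2 (p10 m (s m) j n h3)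
    have b1 := p8 n (s n) y hyF
    have e : a n * x * a n - ⟪ξ, π x ξ⟫_ℂ • (a n * a n)
        = (a n * y * a n - ⟪ξ, π y ξ⟫_ℂ • (a n * a n)) + a n * (x - y) * a n
          - ⟪ξ, π (x - y) ξ⟫_ℂ • (a n * a n) := by
      simp only [map_sub, sub_apply, inner_sub_right, mul_sub, sub_mul, sub_smul]
      abel
    rw [e]
    have b2 := norm_conj_le_of_le_one (x - y) (ha1 n) (ha1 n)
    have b3 : ‖⟪ξ, π (x - y) ξ⟫_ℂ • (a n * a n)‖ ≤ ε / 4 := by
      rw [norm_smul]
      calc _ ≤ ‖x - y‖ * 1 := by gcongr; exacts [hφ _, haa n]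
        _ ≤ ε / 4 := by linarith
    have b4 := norm_sub_le ((a n * y * a n - ⟪ξ, π y ξ⟫_ℂ • (a n * a n)) + a n * (x - y) * a n)
      (⟪ξ, π (x - y) ξ⟫_ℂ • (a n * a n))
    have b5 := norm_add_le (a n * y * a n - ⟪ξ, π y ξ⟫_ℂ • (a n * a n)) (a n * (x - y) * a n)
    change ‖a n * y * a n - ⟪ξ, π y ξ⟫_ℂ • (a n * a n)‖ ≤ _ at b1
    linarith
  have hcl : IsCl (⋃ n, (s n).1.1) := close_isCl_iUnion fun n => (s n).2.2.1
  refine ⟨⋃ n, (s n).1.1, a, Set.countable_iUnion fun n => (s n).2.1, hcl,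
    Set.iUnion_subset fun n => (s n).2.2.2.1,
    ⟨hasa, ha1, fun n => p7 (n + 1) (s (n + 1)) _ (p6 n (s n)), ?_⟩,
    fun n => close_alg_mono M.U (Set.subset_iUnion (fun n => (s n).1.1) (n + 1)) (p2 n (s n)),
    fun n => p5 n (s n), fun x hx => ⟨_, hexc x hx⟩⟩
  have hsq : Tendsto (fun n => n2 M.τ (a n) ^ 2) atTop (𝓝 0) := by
    rw [NormedAddGroup.tendsto_nhds_zero]
    intro ε hε
    obtain ⟨N, hN⟩ := exists_nat_one_div_lt (show 0 < ε / 2 by positivity)
    obtain ⟨i, hi, hne⟩ : ∃ i ∈ Finset.range (N + 1), ⟪ξ, π (M.U (.base N i)) ξ⟫_ℂ ≠ 0 := by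
      apply Finset.exists_ne_zero_of_sum_ne_zero
      have h1 := congrArg (fun z => ⟪ξ, π z ξ⟫_ℂ) (M.base.sum N)
      simp only [map_sum, map_one, sum_apply, inner_sum,
        one_apply_eq_self, inner_self_eq_norm_sq_to_K, hξ] at h1
      rw [h1]; simp
    set g := M.U (.base N i) with hg
    set l := ⟪ξ, π g ξ⟫_ℂ with hl
    have hgp : IsStarProjection g := M.base.proj N i
    have hgsa : star g = g := hgp.isSelfAdjoint.star_eq
    have hgg : g * g = g := hgp.isIdempotentElem.eq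
    have hτg : n2 M.τ g ^ 2 = 1 / ((N : ℝ) + 1) := by
      have h1 := hs.n2_sq_proj hgp
      rw [M.base.tr N i (Nat.lt_succ_iff.1 (Finset.mem_range.1 hi))] at h1
      apply Complex.ofReal_injective
      rw [← h1]; push_cast; rfl
    have ht : 0 < ‖l‖ := norm_pos_iff.2 hne
    have hlim := hexc g (subset_gen _ ⟨_, hcl.base N i, rfl⟩)
    rw [NormedAddGroup.tendsto_nhds_zero] at hlim
    filter_upwards [hlim (‖l‖ * ε / 4) (by positivity)] with n hn
    rw [Real.norm_eq_abs, abs_of_nonneg (sq_nonneg _)]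
    have b1 : ‖a n * g * a n‖ ≤ ‖l‖ + ‖l‖ * ε / 4 := by
      have h1 := norm_add_le (a n * g * a n - l • (a n * a n)) (l • (a n * a n))
      rw [sub_add_cancel, norm_smul] at h1
      have h2 : ‖l‖ * ‖a n * a n‖ ≤ ‖l‖ * 1 := by gcongr; exact haa n
      linarith
    have b2 : ‖g * a n * a n * g‖ = ‖a n * g * a n‖ := by
      have h1 := CStarRing.norm_star_mul_self (x := a n * g)
      have h2 := CStarRing.norm_self_mul_star (x := a n * g)
      rw [star_mul, hgsa, hasa] at h1 h2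
      have e1 : g * a n * (a n * g) = g * a n * a n * g := by simp only [mul_assoc]
      have e2 : a n * g * (g * a n) = a n * g * a n := by
        rw [mul_assoc, ← mul_assoc g, hgg, mul_assoc]
      rw [← e1, ← e2, h1, h2]
    have b3 : ‖M.τ (a n * g * a n)‖ ≤ ‖a n * g * a n‖ * (1 / ((N : ℝ) + 1)) := by
      have h1 := hs.norm_conj_le g (g * a n * a n * g)
      rw [hτg, b2, hgsa] at h1
      have e1 : g * (g * a n * a n * g) * g = (g * a n) * (a n * g) := by
        simp only [← mul_assoc, hgg]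
        rw [mul_assoc _ g g, hgg]
      have e2 : (a n * g) * (g * a n) = a n * g * a n := by
        rw [mul_assoc, ← mul_assoc g, hgg, mul_assoc]
      rwa [e1, tr_comm M.tr, e2] at h1
    have b4 : ‖l‖ * n2 M.τ (a n) ^ 2 ≤ ‖M.τ (a n * g * a n)‖ + ‖l‖ * ε / 4 := by
      have h1 := hs.apply_star_mul_self (a n)
      rw [hasa] at h1
      have h2 : ‖M.τ (l • (a n * a n))‖ = ‖l‖ * n2 M.τ (a n) ^ 2 := by
        rw [map_smul, smul_eq_mul, norm_mul, h1, Complex.norm_real, Real.norm_eq_abs,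
          abs_of_nonneg (sq_nonneg _)]
      have h3 := hs.norm_apply_le (a n * g * a n - l • (a n * a n))
      have h4 := norm_sub_le (M.τ (a n * g * a n)) (M.τ (a n * g * a n - l • (a n * a n)))
      rw [← map_sub, sub_sub_cancel, h2] at h4
      linarith
    have hN1 : 1 / ((N : ℝ) + 1) ≤ 1 := by
      rw [div_le_one (by positivity)]; linarith [Nat.cast_nonneg (α := ℝ) N]
    have hN0 : 0 ≤ 1 / ((N : ℝ) + 1) := by positivity
    have b5 : ‖a n * g * a n‖ * (1 / ((N : ℝ) + 1))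
        ≤ (‖l‖ + ‖l‖ * ε / 4) * (1 / ((N : ℝ) + 1)) := by gcongr
    have b6 : ‖l‖ * ε / 4 * (1 / ((N : ℝ) + 1)) ≤ ‖l‖ * ε / 4 * 1 := by gcongr
    have b7 : ‖l‖ * (1 / ((N : ℝ) + 1)) < ‖l‖ * (ε / 2) := by gcongr
    have b8 : ‖l‖ * n2 M.τ (a n) ^ 2 < ‖l‖ * ε := by nlinarith
    exact lt_of_mul_lt_mul_left b8 ht.le
  have h2 := (Real.continuous_sqrt.tendsto 0).comp hsq
  rw [Real.sqrt_zero] at h2
  refine h2.congr fun n => ?_
  exact Real.sqrt_sq (n2_nonneg _ _)

end Crest.Agent.R120
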