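import Crest.Agent.R120.OneStep

/-! Row 120: commutation of two free steps, freeness over directed unions, transfer along
trace-preserving homomorphisms. -/

set_option autoImplicit false
set_option linter.style.haveILetI false
set_option linter.unusedSectionVars false

open Filter Topology Crest.OpAlg

noncomputable section

namespace Crest.Agent.R120

variable {A : Type*} [CStarAlgebra A] {τ : A →ₗ[ℂ] ℂ}

theorem Free.mono {e f : ℕ → A} {B B' : StarSubalgebra ℂ A} {u : A} (h : Free τ e f B' u)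
    (hB : B ≤ B') : Free τ e f B u :=
  fun w hw => h w (hw.mono hB (Set.inter_subset_inter_left _ hB))

/-- an element of the kernel close to `b + y` with `y` in the kernel is close to `b° + y` -/
theorem exists_ker_approx (hτ : IsFaithfulTracialState τ) {e f : ℕ → A} (hd : Data τ e f)
    (he : ∀ x, Exc e x) (hf : ∀ x, Exc f x) {B : StarSubalgebra ℂ A} (hB : IsClosed (B : Set A))
    (heB : ∀ n, e n ∈ B) (hfB : ∀ n, f n ∈ B) {x b y : A} (hx : x ∈ Ker τ e f) (hb : b ∈ B)
    (hy : y ∈ Ker τ e f) :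
    ∃ k ∈ KB τ e f B, ‖x - (k + y)‖ ≤ 6 * ‖x - (b + y)‖ := by
  obtain ⟨d, hdD, hk, hn⟩ := exists_decomp hτ hd (he (x - (b + y))) (hf (x - (b + y)))
  refine ⟨b + d, ⟨add_mem hb (Dalg_mem_sub hB heB hfB hdD), ?_⟩, ?_⟩
  · have : b + d = x - y - (x - (b + y) - d) := by abel
    rw [this]
    exact Submodule.sub_mem _ (Submodule.sub_mem _ hx hy) hk
  · have : x - (b + d + y) = x - (b + y) - d := by abel
    rw [this]
    have := norm_sub_le (x - (b + y)) d
    linarith

theorem mul_mem_closure_span {s t : Set A} {V : Submodule ℂ A} (hV : IsClosed (V : Set A)) {c : A}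
    (h : ∀ x ∈ s, ∀ z ∈ t, c * x * z ∈ V) {x z : A}
    (hx : x ∈ closure (Submodule.span ℂ s : Set A)) (hz : z ∈ closure (Submodule.span ℂ t : Set A)) :
    c * x * z ∈ V := by
  have h1 : ∀ x ∈ Submodule.span ℂ s, ∀ z ∈ Submodule.span ℂ t, c * x * z ∈ V := by
    intro x hx z hz
    refine span_mul_mem (fun z hz => ?_) hz
    exact span_map_mem (LinearMap.mulRight ℂ z ∘ₗ LinearMap.mulLeft ℂ c) (fun x hx => h x hx z hz) hx
  have h2 : ∀ x ∈ Submodule.span ℂ s, c * x * z ∈ V := by
    intro x hx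
    have : IsClosed {z : A | c * x * z ∈ V} := hV.preimage (by fun_prop)
    exact this.closure_subset_iff.mpr (h1 x hx) hz
  have : IsClosed {x : A | c * x * z ∈ V} := hV.preimage (by fun_prop)
  exact this.closure_subset_iff.mpr h2 hx

/-- commutation of two free steps -/
theorem free_comm {e f e' f' : ℕ → A} {B C : StarSubalgebra ℂ A} {u u' : A}
    (hs : Step τ e f B u) (he : ∀ x, Exc e x) (hf : ∀ x, Exc f x) (hs' : Step τ e' f' B u')
    (hBC : B ≤ C) (huC : u ∈ C) (hfree : Free τ e' f' C u') :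
    Free τ e f (gen (insert u' (B : Set A))) u := by
  have hτ := hs.tr
  have hst := hs.state
  have hp := hs.preStep
  have hp' := hs'.preStep
  have hKK : KB τ e' f' B ⊆ KB τ e' f' C := Set.inter_subset_inter_left _ hBC
  -- a `u`-word over `B`, multiplied by an element of `B`, is a letter for `u'` over `C`
  have letter : ∀ c, Neg B (KB τ e f B) u c → ∀ b ∈ (B : Set A), b * c ∈ KB τ e' f' C := by
    intro c hc b hb
    refine ⟨mul_mem (hBC hb) (hc.mem hBC (hp.K_le.trans hBC) huC), hs.hfree b hb c hc,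
      fun n => ?_, fun n => ?_⟩
    · rw [← mul_assoc]; exact hs.hfree _ (mul_mem (hs'.e_mem n) hb) c hc
    · rw [← mul_assoc]; exact hs.hfree _ (mul_mem (hs'.f_mem n) hb) c hc
  set words' : Set A := {x | ∃ a ∈ (B : Set A), ∃ w, Neg (B : Set A) (KB τ e' f' B) u' w ∧
    x = a * w} with hwords
  set Zs : Set A := {c | Neg B (KB τ e f B) u c} ∪
    {x | ∃ c, Neg B (KB τ e f B) u c ∧ ∃ w, Neg C (KB τ e' f' C) u' w ∧ x = c * w} with hZs
  set Z : Submodule ℂ A := (Submodule.span ℂ Zs).topologicalClosure with hZ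
  have hZc : IsClosed (Z : Set A) := Submodule.isClosed_topologicalClosure _
  have memZ : ∀ x ∈ Zs, x ∈ Z := fun x hx =>
    Submodule.le_topologicalClosure _ (Submodule.subset_span hx)
  have words_ker : ∀ y ∈ Submodule.span ℂ words', y ∈ Ker τ e f := by
    refine fun y hy => (Submodule.span_le.mpr ?_) hy
    rintro _ ⟨a, ha, w, hw, rfl⟩
    refine ⟨hs'.hfree a ha w hw, fun n => ?_, fun n => ?_⟩
    · rw [← mul_assoc]; exact hs'.hfree _ (mul_mem (hs.e_mem n) ha) w hw
    · rw [← mul_assoc]; exact hs'.hfree _ (mul_mem (hs.f_mem n) ha) w hw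
  have approx : ∀ x ∈ KB τ e f (gen (insert u' (B : Set A))),
      x ∈ closure (Submodule.span ℂ (KB τ e f B ∪ words') : Set A) := by
    intro x hx
    refine Metric.mem_closure_iff.mpr fun ε hε => ?_
    obtain ⟨y, hy, hxy⟩ := Metric.mem_closure_iff.mp (hp'.gen_subset_closure hx.1) (ε / 6)
      (by positivity)
    have hy0 : y ∈ Submodule.span ℂ (B : Set A) ⊔ Submodule.span ℂ words' := by
      rw [← Submodule.span_union]; exact hy
    obtain ⟨b, hb, y', hy', rfl⟩ := Submodule.mem_sup.mp hy0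
    have hb' : b ∈ B :=
      (Submodule.span_le (p := Subalgebra.toSubmodule B.toSubalgebra)).mpr (fun _ h => h) hb
    obtain ⟨k, hk, hn⟩ := exists_ker_approx hτ hs.data he hf hs.closed hs.e_mem hs.f_mem hx.2 hb'
      (words_ker y' hy')
    refine ⟨k + y', Submodule.add_mem _ (Submodule.subset_span (Or.inl hk))
      (Submodule.span_mono Set.subset_union_right hy'), ?_⟩
    rw [dist_eq_norm] at hxy ⊢
    linarith
  have main : ∀ w, Neg (gen (insert u' (B : Set A))) (KB τ e f (gen (insert u' (B : Set A)))) u w →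
      w ∈ Z := by
    intro w hw
    induction hw with
    | @base x hx =>
      have := mul_mem_closure_span (s := (B : Set A) ∪ words') (t := {1}) hZc (c := u) ?_
        (hp'.gen_subset_closure hx) (subset_closure (Submodule.subset_span rfl))
      · simpa using this
      · rintro x (hx | ⟨a, ha, w, hw, rfl⟩) z rfl
        · rw [mul_one]; exact memZ _ (Or.inl (Neg.base hx))
        · rw [mul_one, ← mul_assoc]
          exact memZ _ (Or.inr ⟨_, .base ha, w, hw.mono hBC hKK, rfl⟩)
    | @step x z hx _ ih =>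
      refine mul_mem_closure_span hZc ?_ (approx x hx) ih
      rintro x (hx | ⟨a, ha, w, hw, rfl⟩) z (hz | ⟨c, hc, v, hv, rfl⟩)
      · exact memZ _ (Or.inl (Neg.step hx hz))
      · rw [← mul_assoc]
        exact memZ _ (Or.inr ⟨_, .step hx hc, v, hv, rfl⟩)
      · refine memZ _ (Or.inr ⟨u * a, .base ha, w * z, ?_, by noncomm_ring⟩)
        exact hw.mul_right' (fun b hb => (letter z hz b hb).1) hKK
      · refine memZ _ (Or.inr ⟨u * a, .base ha, w * c * v, ?_, by noncomm_ring⟩)
        exact hw.concat (letter c hc) hKK hv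
  have vanish : ∀ z ∈ Z, τ z = 0 := by
    have h1 : Z ≤ LinearMap.ker τ := by
      refine Submodule.topologicalClosure_minimal _ (Submodule.span_le.mpr ?_)
        (isClosed_eq hst.continuous continuous_const)
      rintro _ (hc | ⟨c, hc, w, hw, rfl⟩)
      · exact hs.free _ hc
      · show τ (c * w) = 0
        rw [tr_comm hτ]
        exact hfree _ (hw.mul_right' (fun b hb => mul_mem hb
          (hc.mem hBC (hp.K_le.trans hBC) huC)) subset_rfl)
    exact fun z hz => h1 hz
  exact fun w hw => vanish w (main w hw)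

/-- freeness over the closure of a directed union -/
theorem free_of_directed (hτ : IsFaithfulTracialState τ) {e f : ℕ → A} (hd : Data τ e f)
    (he : ∀ x, Exc e x) (hf : ∀ x, Exc f x) {ι : Type*} {Bi : ι → StarSubalgebra ℂ A}
    (hcl : ∀ i, IsClosed (Bi i : Set A)) (hdir : Directed (· ≤ ·) Bi) (heB : ∀ i n, e n ∈ Bi i)
    (hfB : ∀ i n, f n ∈ Bi i) {u : A} (hfree : ∀ i, Free τ e f (Bi i) u)
    {B : StarSubalgebra ℂ A} (hB : ∀ x ∈ B, x ∈ closure (⋃ i, (Bi i : Set A))) :
    Free τ e f B u := by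
  set Y : Set A := {w | ∃ i, Neg (Bi i) (KB τ e f (Bi i)) u w} with hY
  have approx : ∀ x ∈ KB τ e f B, x ∈ closure (⋃ i, KB τ e f (Bi i)) := by
    intro x hx
    refine Metric.mem_closure_iff.mpr fun ε hε => ?_
    obtain ⟨y, hy, hxy⟩ := Metric.mem_closure_iff.mp (hB x hx.1) (ε / 6) (by positivity)
    obtain ⟨i, hi⟩ := Set.mem_iUnion.mp hy
    obtain ⟨k, hk, hn⟩ := exists_ker_approx hτ hd he hf (hcl i) (heB i) (hfB i) hx.2 hi
      (Submodule.zero_mem _)
    refine ⟨k, Set.mem_iUnion.mpr ⟨i, hk⟩, ?_⟩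
    rw [dist_eq_norm] at hxy ⊢
    simp only [add_zero] at hn
    linarith
  have main : ∀ w, Neg B (KB τ e f B) u w → w ∈ closure Y := by
    intro w hw
    induction hw with
    | @base x hx =>
      refine map_mem_closure (f := fun x => u * x) (by fun_prop) (hB x hx) ?_
      intro y hy
      obtain ⟨i, hi⟩ := Set.mem_iUnion.mp hy
      exact ⟨i, .base hi⟩
    | @step x z hx _ ih =>
      refine map_mem_closure₂ (f := fun x z => u * x * z) (by fun_prop) (approx x hx) ih ?_
      rintro k hk w ⟨j, hw⟩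
      obtain ⟨i, hi⟩ := Set.mem_iUnion.mp hk
      obtain ⟨l, hil, hjl⟩ := hdir i j
      exact ⟨l, .step ⟨hil hi.1, hi.2⟩ (hw.mono hjl (Set.inter_subset_inter_left _ hjl))⟩
  intro w hw
  have : IsClosed {x | τ x = 0} := isClosed_eq (isState_of_tr hτ).continuous continuous_const
  refine this.closure_subset_iff.mpr ?_ (main w hw)
  rintro y ⟨i, hi⟩
  exact hfree i y hi

section Transfer

variable {A' : Type*} [CStarAlgebra A'] {τ' : A' →ₗ[ℂ] ℂ} (ι : A →⋆ₐ[ℂ] A')
  (hι : ∀ a, τ' (ι a) = τ a)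
include hι

theorem map_mem_Ker_iff {e f : ℕ → A} {x : A} :
    ι x ∈ Ker τ' (fun n => ι (e n)) (fun n => ι (f n)) ↔ x ∈ Ker τ e f := by
  simp only [mem_Ker, ← map_mul, hι]

theorem Free.map {e f : ℕ → A} {B : StarSubalgebra ℂ A} {u : A} (h : Free τ e f B u) :
    Free τ' (fun n => ι (e n)) (fun n => ι (f n)) (B.map ι) (ι u) := by
  intro w hw
  obtain ⟨v, hv, rfl⟩ := hw.lift (B := B) (K := KB τ e f B) ι
    (by rintro _ ⟨a, ha, rfl⟩; exact ⟨a, ha, rfl⟩)
    (by rintro _ ⟨⟨a, ha, rfl⟩, hk⟩; exact ⟨a, ⟨ha, (map_mem_Ker_iff ι hι).mp hk⟩, rfl⟩)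
  rw [hι]; exact h v hv

theorem map_gen (hτ : IsFaithfulTracialState τ) (S : Set A) : (gen S).map ι = gen (ι '' S) := by
  have hiso := isometry_of_tr hτ ι hι
  unfold gen
  rw [← StarSubalgebra.topologicalClosure_map _ ι hiso.isClosedEmbedding.isClosedMap
    hiso.continuous, StarAlgHom.map_adjoin]

theorem isClosed_range (hτ : IsFaithfulTracialState τ) : IsClosed (ι.range : Set A') :=
  (isometry_of_tr hτ ι hι).isClosedEmbedding.isClosed_range

end Transfer

theorem gen_insert (u : A) (S : Set A) : gen (insert u (gen S : Set A)) = gen (insert u S) := by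
  refine le_antisymm (gen_le (isClosed_gen _) ?_)
    (gen_mono (Set.insert_subset_insert (subset_gen S)))
  rintro x (rfl | hx)
  · exact subset_gen _ (Set.mem_insert _ _)
  · exact gen_mono (Set.subset_insert _ _) hx

/-- the algebra generated by a directed union -/
theorem mem_closure_iUnion_gen {ι : Type*} [Nonempty ι] {S : ι → Set A}
    (hdir : Directed (· ⊆ ·) S) {x : A} (hx : x ∈ gen (⋃ i, S i)) :
    x ∈ closure (⋃ i, (gen (S i) : Set A)) := by
  have hd : Directed (· ≤ ·) (fun i => gen (S i)) := fun i j => by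
    obtain ⟨k, h1, h2⟩ := hdir i j
    exact ⟨k, gen_mono h1, gen_mono h2⟩
  refine closure_mono ?_ hx
  intro y hy
  induction hy using StarAlgebra.adjoin_induction with
  | mem y hy =>
    obtain ⟨i, hi⟩ := Set.mem_iUnion.mp hy
    exact Set.mem_iUnion.mpr ⟨i, subset_gen _ hi⟩
  | algebraMap r => exact Set.mem_iUnion.mpr ⟨Classical.arbitrary ι, algebraMap_mem _ r⟩
  | add y z _ _ hy hz =>
    obtain ⟨i, hi⟩ := Set.mem_iUnion.mp hy
    obtain ⟨j, hj⟩ := Set.mem_iUnion.mp hz
    obtain ⟨k, h1, h2⟩ := hd i j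
    exact Set.mem_iUnion.mpr ⟨k, add_mem (h1 hi) (h2 hj)⟩
  | mul y z _ _ hy hz =>
    obtain ⟨i, hi⟩ := Set.mem_iUnion.mp hy
    obtain ⟨j, hj⟩ := Set.mem_iUnion.mp hz
    obtain ⟨k, h1, h2⟩ := hd i j
    exact Set.mem_iUnion.mpr ⟨k, mul_mem (h1 hi) (h2 hj)⟩
  | star y _ hy =>
    obtain ⟨i, hi⟩ := Set.mem_iUnion.mp hy
    exact Set.mem_iUnion.mpr ⟨i, star_mem hi⟩

end Crest.Agent.R120
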