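import Crest.Agent.R120.Nest

/-! Row 120: the conditional expectation onto the abelian algebra of a step. -/

set_option autoImplicit false
set_option linter.style.haveILetI false
set_option linter.unusedSectionVars false

open Filter Topology Crest.OpAlg

noncomputable section

namespace Crest.Agent.R120

variable {A : Type*} [CStarAlgebra A] {τ : A →ₗ[ℂ] ℂ} {e f : ℕ → A}

theorem mem_Ker {x : A} :
    x ∈ Ker τ e f ↔ τ x = 0 ∧ (∀ n, τ (e n * x) = 0) ∧ ∀ n, τ (f n * x) = 0 := Iff.rfl

theorem Ker_symm : Ker τ e f = Ker τ f e := by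
  ext x; simp only [mem_Ker]; tauto

theorem Dalg_symm : Dalg e f = Dalg f e := by
  unfold Dalg; rw [Set.union_comm]

theorem isClosed_Ker (hτ : IsState τ) : IsClosed (Ker τ e f : Set A) := by
  have hc := hτ.continuous
  have : (Ker τ e f : Set A) = {x | τ x = 0} ∩ ((⋂ n, {x | τ (e n * x) = 0}) ∩
      ⋂ n, {x | τ (f n * x) = 0}) := by
    ext x; simp [mem_Ker]
  rw [this]
  refine (isClosed_eq hc continuous_const).inter (IsClosed.inter ?_ ?_) <;>
    exact isClosed_iInter fun n => isClosed_eq (by fun_prop) continuous_const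

theorem isClosed_Dalg : IsClosed (Dalg e f : Set A) := Submodule.isClosed_topologicalClosure _

theorem one_mem_Dalg : (1 : A) ∈ Dalg e f :=
  Submodule.le_topologicalClosure _ (Submodule.subset_span (Set.mem_insert _ _))

theorem e_mem_Dalg (n : ℕ) : e n ∈ Dalg e f :=
  Submodule.le_topologicalClosure _
    (Submodule.subset_span (Set.mem_insert_of_mem _ (Or.inl ⟨n, rfl⟩)))

theorem f_mem_Dalg (n : ℕ) : f n ∈ Dalg e f :=
  Submodule.le_topologicalClosure _
    (Submodule.subset_span (Set.mem_insert_of_mem _ (Or.inr ⟨n, rfl⟩)))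

theorem Dalg_le {V : Submodule ℂ A} (hV : IsClosed (V : Set A)) (h1 : (1 : A) ∈ V)
    (he : ∀ n, e n ∈ V) (hf : ∀ n, f n ∈ V) : Dalg e f ≤ V := by
  refine Submodule.topologicalClosure_minimal _ (Submodule.span_le.mpr ?_) hV
  rintro x (rfl | ⟨n, rfl⟩ | ⟨n, rfl⟩)
  exacts [h1, he n, hf n]

/-- induction principle: a continuous linear map sending the generators into a closed subspace -/
theorem Dalg_map_mem {A' : Type*} [NormedAddCommGroup A'] [NormedSpace ℂ A'] (T : A →ₗ[ℂ] A')
    (hT : Continuous T) {V : Submodule ℂ A'} (hV : IsClosed (V : Set A')) (h1 : T 1 ∈ V)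
    (he : ∀ n, T (e n) ∈ V) (hf : ∀ n, T (f n) ∈ V) {d : A} (hd : d ∈ Dalg e f) : T d ∈ V :=
  Dalg_le (V := V.comap T) (hV.preimage hT) h1 he hf hd

theorem Dalg_mem_sub {B : StarSubalgebra ℂ A} (hB : IsClosed (B : Set A)) (he : ∀ n, e n ∈ B)
    (hf : ∀ n, f n ∈ B) {d : A} (hd : d ∈ Dalg e f) : d ∈ B :=
  Dalg_le (V := Subalgebra.toSubmodule B.toSubalgebra) hB (one_mem B) he hf hd

theorem tr_Dalg_mul_Ker (hτ : IsState τ) {d k : A} (hd : d ∈ Dalg e f) (hk : k ∈ Ker τ e f) :
    τ (d * k) = 0 := by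
  have hc := hτ.continuous
  refine Dalg_map_mem (τ ∘ₗ LinearMap.mulRight ℂ k) (V := ⊥) ?_ (by simp) ?_ ?_ ?_ hd
  · show Continuous fun x => τ (x * k)
    fun_prop
  · simpa using hk.1
  · intro n; simpa using hk.2.1 n
  · intro n; simpa using hk.2.2 n

theorem star_mem_Ker (hτ : IsFaithfulTracialState τ) (hd : Data τ e f) {k : A}
    (hk : k ∈ Ker τ e f) : star k ∈ Ker τ e f := by
  have hs := isState_of_tr hτ
  refine ⟨by rw [hs.map_star, hk.1, star_zero], fun n => ?_, fun n => ?_⟩
  · rw [← hd.e_sa n, ← star_mul, hs.map_star, tr_comm hτ, hk.2.1, star_zero]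
  · rw [← hd.f_sa n, ← star_mul, hs.map_star, tr_comm hτ, hk.2.2, star_zero]

namespace Data

variable (hd : Data τ e f)
include hd

theorem e_mul_mem_Dalg (n : ℕ) {d : A} (h : d ∈ Dalg e f) : e n * d ∈ Dalg e f := by
  refine Dalg_map_mem (LinearMap.mulLeft ℂ (e n)) (continuous_const.mul continuous_id)
    isClosed_Dalg ?_ ?_ ?_ h
  · simpa using e_mem_Dalg n
  · intro m; simpa [hd.ee] using e_mem_Dalg _
  · intro m; simp [hd.ef]

theorem mul_mem_Dalg {d d' : A} (h : d ∈ Dalg e f) (h' : d' ∈ Dalg e f) : d * d' ∈ Dalg e f := by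
  refine Dalg_map_mem (LinearMap.mulRight ℂ d') (continuous_id.mul continuous_const)
    isClosed_Dalg ?_ ?_ ?_ h
  · simpa using h'
  · intro m; simpa using hd.e_mul_mem_Dalg m h'
  · intro m
    have := hd.symm.e_mul_mem_Dalg m (Dalg_symm (e := e) ▸ h')
    simpa [Dalg_symm (e := f)] using this

theorem star_mem_Dalg {d : A} (h : d ∈ Dalg e f) : star d ∈ Dalg e f := by
  let V : Submodule ℂ A :=
    { carrier := {x | star x ∈ Dalg e f}
      add_mem' := fun {x y} hx hy => by
        simpa only [Set.mem_ofPred_eq, star_add] using Submodule.add_mem _ hx hy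
      zero_mem' := by simp
      smul_mem' := fun c x hx => by
        simpa only [Set.mem_ofPred_eq, star_smul] using Submodule.smul_mem _ _ hx }
  refine Dalg_le (V := V) (isClosed_Dalg.preimage continuous_star) ?_ ?_ ?_ h
  · show star (1 : A) ∈ Dalg e f
    simpa using one_mem_Dalg
  · intro n
    show star (e n) ∈ Dalg e f
    rw [hd.e_sa]; exact e_mem_Dalg n
  · intro n
    show star (f n) ∈ Dalg e f
    rw [hd.f_sa]; exact f_mem_Dalg n

theorem Dalg_mul_mem_Ker (hτ : IsState τ) {d k : A} (h : d ∈ Dalg e f) (hk : k ∈ Ker τ e f) :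
    d * k ∈ Ker τ e f := by
  refine ⟨tr_Dalg_mul_Ker hτ h hk, fun n => ?_, fun n => ?_⟩
  · rw [← mul_assoc]; exact tr_Dalg_mul_Ker hτ (hd.mul_mem_Dalg (e_mem_Dalg n) h) hk
  · rw [← mul_assoc]; exact tr_Dalg_mul_Ker hτ (hd.mul_mem_Dalg (f_mem_Dalg n) h) hk

theorem Ker_mul_mem_Ker (hτ : IsFaithfulTracialState τ) {d k : A} (h : d ∈ Dalg e f)
    (hk : k ∈ Ker τ e f) : k * d ∈ Ker τ e f := by
  have := star_mem_Ker hτ hd (hd.Dalg_mul_mem_Ker (isState_of_tr hτ) (hd.star_mem_Dalg h)
    (star_mem_Ker hτ hd hk))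
  simpa using this

theorem eq_zero_of_mem_Dalg_Ker (hτ : IsFaithfulTracialState τ) {d : A} (h : d ∈ Dalg e f)
    (hk : d ∈ Ker τ e f) : d = 0 :=
  hτ.2.2.1 d (tr_Dalg_mul_Ker (isState_of_tr hτ) (hd.star_mem_Dalg h) hk)

end Data

section Conj

variable {u : A} (hu : u * u = 1) (hc : ∀ n, u * e n * u = f n)
include hu hc

theorem conj_f (n : ℕ) : u * f n * u = e n := by
  rw [← hc n]
  calc u * (u * e n * u) * u = (u * u) * e n * (u * u) := by noncomm_ring
    _ = e n := by rw [hu]; simp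

theorem conj_mem_Dalg {d : A} (h : d ∈ Dalg e f) : u * d * u ∈ Dalg e f := by
  refine Dalg_map_mem (LinearMap.mulRight ℂ u ∘ₗ LinearMap.mulLeft ℂ u) ?_ isClosed_Dalg ?_ ?_ ?_ h
  · show Continuous fun x => u * x * u
    fun_prop
  · simpa [hu] using one_mem_Dalg
  · intro n; simpa [hc n] using f_mem_Dalg n
  · intro n; simpa [conj_f hu hc n] using e_mem_Dalg n

theorem tr_conj_Dalg (hτ : IsState τ) (htr : ∀ n, τ (e n) = τ (f n)) {d : A}
    (h : d ∈ Dalg e f) : τ (u * d * u) = τ d := by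
  have hcont := hτ.continuous
  have := Dalg_map_mem (τ ∘ₗ LinearMap.mulRight ℂ u ∘ₗ LinearMap.mulLeft ℂ u - τ) (V := ⊥) ?_
    (by simp) ?_ ?_ ?_ h
  · simpa [sub_eq_zero] using this
  · show Continuous fun x => τ (u * x * u) - τ x
    fun_prop
  · simp [hu]
  · intro n; simp [hc n, htr n]
  · intro n; simp [conj_f hu hc n, htr n]

theorem u_mul_R (n : ℕ) : u * (e n + f n) = (e n + f n) * u := by
  have h1 : u * (e n + f n) * u = e n + f n := by
    rw [mul_add, add_mul, hc, conj_f hu hc, add_comm]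
  calc u * (e n + f n) = u * (e n + f n) * (u * u) := by rw [hu, mul_one]
    _ = (e n + f n) * u := by rw [← mul_assoc, h1]

end Conj

theorem norm_add_le_of_orth {x y : A} {C : ℝ} (h1 : star x * y = 0) (h2 : x * star y = 0)
    (hx : ‖x‖ ≤ C) (hy : ‖y‖ ≤ C) : ‖x + y‖ ≤ C := by
  have hC : 0 ≤ C := (norm_nonneg x).trans hx
  have h1' : star y * x = 0 := by simpa using congrArg star h1
  have e1 : star (x + y) * (x + y) = star x * x + star y * y := by
    rw [star_add, add_mul, mul_add, mul_add, h1, h1']; simp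
  have e2 : ‖star x * x + star y * y‖ = max ‖star x * x‖ ‖star y * y‖ :=
    IsSelfAdjoint.norm_add_eq_max (IsSelfAdjoint.star_mul_self x) (IsSelfAdjoint.star_mul_self y)
      (by rw [mul_assoc, ← mul_assoc x, h2]; simp)
  rw [← e1, CStarRing.norm_star_mul_self, CStarRing.norm_star_mul_self,
    CStarRing.norm_star_mul_self] at e2
  have : ‖x + y‖ * ‖x + y‖ ≤ C * C := by
    rw [e2]; exact max_le (by gcongr) (by gcongr)
  exact (mul_self_le_mul_self_iff (norm_nonneg _) hC).mpr this

theorem norm_sum_orth_le {p : ℕ → A} (hp : ∀ n, IsStarProjection (p n))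
    (horth : ∀ i j, i ≠ j → p i * p j = 0) (t : ℕ → ℂ) {C : ℝ} (hC : 0 ≤ C) (s : Finset ℕ)
    (h : ∀ i ∈ s, ‖t i • p i‖ ≤ C) : ‖∑ i ∈ s, t i • p i‖ ≤ C := by
  induction s using Finset.induction_on with
  | empty => simpa using hC
  | insert j s hj ih =>
    rw [Finset.sum_insert hj]
    refine norm_add_le_of_orth ?_ ?_ (h j (Finset.mem_insert_self _ _))
      (ih fun i hi => h i (Finset.mem_insert_of_mem hi))
    · rw [Finset.mul_sum]
      refine Finset.sum_eq_zero fun i hi => ?_
      have : j ≠ i := fun h => hj (h ▸ hi)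
      simp [star_smul, (hp j).isSelfAdjoint.star_eq, horth j i this]
    · rw [star_sum, Finset.mul_sum]
      refine Finset.sum_eq_zero fun i hi => ?_
      have : j ≠ i := fun h => hj (h ▸ hi)
      simp [star_smul, (hp i).isSelfAdjoint.star_eq, horth j i this]

/-- the coefficient of the expectation onto a projection is bounded by the norm -/
theorem norm_coef_smul_le (hτ : IsFaithfulTracialState τ) {p : A} (hp : IsStarProjection p)
    (y : A) : ‖(τ (p * y) / τ p) • p‖ ≤ ‖y‖ := by
  have hs := isState_of_tr hτ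
  by_cases h0 : τ p = 0
  · simp [h0]
  have h1 : ‖τ (p * y)‖ ≤ ‖y‖ * ‖τ p‖ := by
    have e1 : τ (p * y) = τ (star p * y * p) := by
      rw [hp.isSelfAdjoint.star_eq, tr_comm hτ (p * y) p, ← mul_assoc, hp.isIdempotentElem.eq]
    rw [e1, hs.n2_sq_proj hp, Complex.norm_real, Real.norm_eq_abs, abs_of_nonneg (sq_nonneg _)]
    exact hs.norm_conj_le p y
  rw [norm_smul, norm_div]
  have h2 : 0 < ‖τ p‖ := norm_pos_iff.mpr h0
  have h3 := IsStarProjection.norm_le _ hp
  calc ‖τ (p * y)‖ / ‖τ p‖ * ‖p‖ ≤ ‖y‖ * 1 := by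
        gcongr
        rwa [div_le_iff₀ h2]
    _ = ‖y‖ := mul_one _

theorem coef_mul_tr (hτ : IsFaithfulTracialState τ) {p : A} (hp : IsStarProjection p) (y : A) :
    τ (p * y) / τ p * τ p = τ (p * y) := by
  by_cases h0 : τ p = 0
  · rw [proj_eq_zero_of_tr hτ hp h0]; simp
  · field_simp

/-- one half of the conditional expectation -/
theorem exists_half (hτ : IsFaithfulTracialState τ) (hd : Data τ e f) {x : A} (hx : Exc e x) :
    ∃ d ∈ Dalg e f, e 0 * d = d ∧ (∀ n, τ (e n * d) = τ (e n * x)) ∧ ‖d‖ ≤ 2 * ‖x‖ := by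
  have hs := isState_of_tr hτ
  obtain ⟨l, hl⟩ := hx
  simp only [hd.e_sq] at hl
  set p : ℕ → A := fun n => e n - e (n + 1) with hp
  have pproj : ∀ n, IsStarProjection (p n) := fun n =>
    (hd.e_proj (n + 1)).sub_of_mul_eq_right (hd.e_proj n) (hd.e_nest n)
  have ep : ∀ i n, e i * p n = if i ≤ n then p n else 0 := by
    intro i n
    simp only [hp, mul_sub, hd.ee]
    split_ifs with h
    · rw [max_eq_right h, max_eq_right (by omega)]
    · rw [max_eq_left (by omega), max_eq_left (by omega), sub_self]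
  have pe : ∀ n, p n * e n = p n := by
    intro n
    simp only [hp, sub_mul, hd.ee]
    rw [max_self, max_eq_left (by omega)]
  have porth : ∀ i j, i ≠ j → p i * p j = 0 := by
    intro i j hij
    show (e i - e (i + 1)) * p j = 0
    rw [sub_mul, ep, ep]
    by_cases h : i ≤ j
    · rw [if_pos h, if_pos (by omega), sub_self]
    · rw [if_neg h, if_neg (by omega), sub_self]
  set c : ℕ → ℂ := fun n => τ (p n * x) / τ (p n) with hc
  set δ : ℕ → ℝ := fun n => ‖e n * x * e n - l • e n‖ with hδ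
  have hδ0 : Tendsto δ atTop (𝓝 0) := tendsto_zero_iff_norm_tendsto_zero.mp hl
  have hanti : Antitone δ := by
    have := hd.nest_e.exc_antitone x l
    simpa only [hd.e_sq] using this
  have hcl : ∀ n, ‖(c n - l) • p n‖ ≤ δ n := by
    intro n
    by_cases h0 : τ (p n) = 0
    · rw [proj_eq_zero_of_tr hτ (pproj n) h0]; simp [hδ]
    have e1 : c n - l = τ (p n * (e n * x * e n - l • e n)) / τ (p n) := by
      have e2 : τ (p n * (e n * x * e n)) = τ (p n * x) := by
        rw [← mul_assoc, ← mul_assoc, pe, tr_comm hτ, ← mul_assoc, ep, if_pos le_rfl]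
      rw [mul_sub, map_sub, e2, mul_smul_comm, pe, map_smul, smul_eq_mul, hc]
      field_simp
    rw [e1]
    exact norm_coef_smul_le hτ (pproj n) _
  set s : ℕ → A := fun m => l • e 0 + ∑ n ∈ Finset.range m, (c n - l) • p n with hsdef
  have s_eq : ∀ m, s m = l • e m + ∑ n ∈ Finset.range m, c n • p n := by
    intro m
    induction m with
    | zero => simp [hsdef]
    | succ m ih =>
      have : s (m + 1) = s m + (c m - l) • p m := by
        simp only [hsdef, Finset.sum_range_succ]; abel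
      rw [this, ih, Finset.sum_range_succ, sub_smul]
      simp only [hp, smul_sub]; abel
  have hcauchy : CauchySeq s := by
    refine Metric.cauchySeq_iff'.mpr (fun ε hε => ?_)
    obtain ⟨k, hk⟩ := (hδ0.eventually (gt_mem_nhds hε)).exists
    refine ⟨k, fun m hm => ?_⟩
    have e1 : s m - s k = ∑ n ∈ Finset.Ico k m, (c n - l) • p n := by
      simp only [hsdef]
      rw [add_sub_add_left_eq_sub, Finset.sum_Ico_eq_sub _ hm]
    rw [dist_eq_norm, e1]
    refine lt_of_le_of_lt (norm_sum_orth_le pproj porth _ (norm_nonneg _) _ (fun i hi => ?_)) hk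
    exact (hcl i).trans (hanti (Finset.mem_Ico.mp hi).1)
  obtain ⟨d, hdl⟩ := cauchySeq_tendsto_of_complete hcauchy
  have hsD : ∀ m, s m ∈ Dalg e f := fun m =>
    Submodule.add_mem _ (Submodule.smul_mem _ _ (e_mem_Dalg 0))
      (Submodule.sum_mem _ fun n _ => Submodule.smul_mem _ _
        (Submodule.sub_mem _ (e_mem_Dalg n) (e_mem_Dalg (n + 1))))
  refine ⟨d, isClosed_Dalg.mem_of_tendsto hdl (Eventually.of_forall hsD), ?_, fun i => ?_, ?_⟩
  · have h1 : Tendsto (fun m => e 0 * s m) atTop (𝓝 (e 0 * d)) := hdl.const_mul _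
    have h2 : ∀ m, e 0 * s m = s m := by
      intro m
      simp only [hsdef, mul_add, Finset.mul_sum, mul_smul_comm, ep, Nat.zero_le, if_true, hd.e_sq]
    simp only [h2] at h1
    exact tendsto_nhds_unique h1 hdl
  · have h1 : Tendsto (fun m => τ (e i * s m)) atTop (𝓝 (τ (e i * d))) :=
      (hs.continuous.tendsto _).comp (hdl.const_mul _)
    have h2 : ∀ m, i ≤ m → τ (e i * s m) = l * τ (e m) + (τ (e i * x) - τ (e m * x)) := by
      intro m hm
      induction m, hm using Nat.le_induction with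
      | base =>
        rw [s_eq, mul_add, Finset.mul_sum, Finset.sum_eq_zero]
        · simp [hd.e_sq]
        · intro n hn
          rw [mul_smul_comm, ep, if_neg (by simpa using hn), smul_zero]
      | succ m hm ih =>
        have : s (m + 1) = s m + (c m - l) • p m := by
          simp only [hsdef, Finset.sum_range_succ]; abel
        rw [this, mul_add, map_add, ih, mul_smul_comm, ep, if_pos hm, map_smul, smul_eq_mul,
          sub_mul, hc]
        simp only
        rw [coef_mul_tr hτ (pproj m)]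
        simp only [hp, sub_mul, map_sub]
        ring
    have h3 : Tendsto (fun m => τ (e m * x)) atTop (𝓝 0) := by
      have h4 : Tendsto (fun m => n2 τ (e m) * n2 τ x) atTop (𝓝 0) := by
        simpa using hd.nest_e.small.mul_const (n2 τ x)
      refine squeeze_zero_norm (fun m => ?_) h4
      have := hs.norm_star_mul_le (e m) x
      rwa [hd.e_sa] at this
    have h5 : Tendsto (fun m => l * τ (e m) + (τ (e i * x) - τ (e m * x))) atTop
        (𝓝 (l * 0 + (τ (e i * x) - 0))) :=
      (hd.tr_lim.const_mul l).add (tendsto_const_nhds.sub h3)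
    have h6 := tendsto_nhds_unique h1 (h5.congr' (by
      filter_upwards [eventually_ge_atTop i] with m hm using (h2 m hm).symm))
    simpa using h6
  · have h1 : ∀ m, ‖s m‖ ≤ 2 * ‖x‖ + δ m := by
      intro m
      rw [s_eq]
      have k1 : ‖l • e m‖ ≤ ‖x‖ + δ m := by
        have : l • e m = e m * x * e m - (e m * x * e m - l • e m) := by abel
        rw [this]
        refine (norm_sub_le _ _).trans (add_le_add ?_ le_rfl)
        exact norm_conj_le_of_le_one _ (hd.nest_e.norm_le m) (hd.nest_e.norm_le m)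
      have k2 : ‖∑ n ∈ Finset.range m, c n • p n‖ ≤ ‖x‖ :=
        norm_sum_orth_le pproj porth _ (norm_nonneg _) _
          (fun n _ => norm_coef_smul_le hτ (pproj n) x)
      have := norm_add_le (l • e m) (∑ n ∈ Finset.range m, c n • p n)
      linarith
    have h2 : Tendsto (fun m => 2 * ‖x‖ + δ m) atTop (𝓝 (2 * ‖x‖ + 0)) :=
      tendsto_const_nhds.add hδ0
    simpa using le_of_tendsto_of_tendsto' hdl.norm h2 h1

theorem Data.r0_proj (hd : Data τ e f) (m : ℕ) : IsStarProjection (1 - (e m + f m)) :=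
  (hd.R_proj m).one_sub

/-- the conditional expectation onto `Dalg e f` -/
theorem exists_decomp (hτ : IsFaithfulTracialState τ) (hd : Data τ e f) {x : A} (he : Exc e x)
    (hf : Exc f x) : ∃ d ∈ Dalg e f, x - d ∈ Ker τ e f ∧ ‖d‖ ≤ 5 * ‖x‖ := by
  obtain ⟨d₁, h₁, a₁, b₁, c₁⟩ := exists_half hτ hd he
  obtain ⟨d₂, h₂, a₂, b₂, c₂⟩ := exists_half hτ hd.symm hf
  rw [Dalg_symm] at h₂
  set r : A := 1 - (e 0 + f 0) with hr
  have rp : IsStarProjection r := hd.r0_proj 0
  have er : ∀ n, e n * r = 0 := fun n => by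
    rw [hr, mul_sub, mul_add, hd.ee_ge (Nat.zero_le n), hd.ef]; simp
  have fr : ∀ n, f n * r = 0 := fun n => by
    rw [hr, mul_sub, mul_add, hd.ff_ge (Nat.zero_le n), hd.fe]; simp
  refine ⟨d₁ + d₂ + (τ (r * x) / τ r) • r, ?_, ⟨?_, fun n => ?_, fun n => ?_⟩, ?_⟩
  · exact Submodule.add_mem _ (Submodule.add_mem _ h₁ h₂) (Submodule.smul_mem _ _
      (Submodule.sub_mem _ one_mem_Dalg (Submodule.add_mem _ (e_mem_Dalg 0) (f_mem_Dalg 0))))
  · have k1 : τ d₁ = τ (e 0 * x) := by rw [← b₁, a₁]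
    have k2 : τ d₂ = τ (f 0 * x) := by rw [← b₂, a₂]
    rw [map_sub, map_add, map_add, map_smul, smul_eq_mul, coef_mul_tr hτ rp, k1, k2, hr]
    simp only [sub_mul, add_mul, one_mul, map_sub, map_add]
    ring
  · have k : e n * d₂ = 0 := by rw [← a₂, ← mul_assoc, hd.ef, zero_mul]
    rw [mul_sub, mul_add, mul_add, k, mul_smul_comm, er]
    simp [b₁]
  · have k : f n * d₁ = 0 := by rw [← a₁, ← mul_assoc, hd.fe, zero_mul]
    rw [mul_sub, mul_add, mul_add, k, mul_smul_comm, fr]
    simp [b₂]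
  · have k := norm_coef_smul_le hτ rp x
    have := norm_add₃_le (a := d₁) (b := d₂) (c := (τ (r * x) / τ r) • r)
    linarith

theorem tendsto_conj_of_tr (hτ : IsFaithfulTracialState τ) (hd : Data τ e f) {x : A}
    (he : Exc e x) (h0 : ∀ n, τ (e n * x) = 0) :
    Tendsto (fun n => e n * x * e n) atTop (𝓝 0) := by
  obtain ⟨l, hl⟩ := he
  simp only [hd.e_sq] at hl
  have h1 : ∀ n, ‖l • e n‖ ≤ ‖e n * x * e n - l • e n‖ := by
    intro n
    by_cases h : τ (e n) = 0
    · rw [proj_eq_zero_of_tr hτ (hd.e_proj n) h]; simp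
    have e1 : -l = τ (e n * (e n * x * e n - l • e n)) / τ (e n) := by
      have e2 : τ (e n * (e n * x * e n)) = 0 := by
        rw [← mul_assoc, ← mul_assoc, hd.e_sq, tr_comm hτ, ← mul_assoc, hd.e_sq, h0]
      rw [mul_sub, map_sub, e2, mul_smul_comm, hd.e_sq, map_smul, smul_eq_mul]
      field_simp
      ring
    have := norm_coef_smul_le hτ (hd.e_proj n) (e n * x * e n - l • e n)
    rwa [← e1, neg_smul, norm_neg] at this
  have h2 : Tendsto (fun n => l • e n) atTop (𝓝 0) :=
    squeeze_zero_norm h1 (tendsto_zero_iff_norm_tendsto_zero.mp hl)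
  simpa using hl.add h2

theorem Cross.symm_star (hd : Data τ e f) {x : A} (h : Cross e f (star x)) : Cross f e x := by
  have := Tendsto.star h
  simpa [Cross, star_mul, hd.e_sa, hd.f_sa, mul_assoc] using this

/-- elements of the kernel are asymptotically killed by compression with `e n + f n` -/
theorem tendsto_R_conj (hτ : IsFaithfulTracialState τ) (hd : Data τ e f) {x : A}
    (hk : x ∈ Ker τ e f) (he : Exc e x) (hf : Exc f x) (h1 : Cross e f x)
    (h2 : Cross e f (star x)) :
    Tendsto (fun n => (e n + f n) * x * (e n + f n)) atTop (𝓝 0) := by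
  have k1 := tendsto_conj_of_tr hτ hd he hk.2.1
  have k2 := tendsto_conj_of_tr hτ hd.symm hf hk.2.2
  have := ((k1.add h1).add (h2.symm_star hd)).add k2
  simp only [add_zero] at this
  refine this.congr (fun n => ?_)
  noncomm_ring

/-- compression by a minimal projection is scalar modulo the kernel -/
theorem min_conj_sub_mem_Ker (hτ : IsFaithfulTracialState τ) {r : A} (hr : IsStarProjection r)
    (he : ∀ n, e n * r = r ∨ e n * r = 0) (hf : ∀ n, f n * r = r ∨ f n * r = 0) (y : A) :
    r * y * r - (τ (r * y) / τ r) • r ∈ Ker τ e f := by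
  have k : τ (r * y * r - (τ (r * y) / τ r) • r) = 0 := by
    rw [map_sub, map_smul, smul_eq_mul, coef_mul_tr hτ hr, tr_comm hτ, ← mul_assoc,
      hr.isIdempotentElem.eq, sub_self]
  have k' : ∀ g : A, g * r = r ∨ g * r = 0 →
      τ (g * (r * y * r - (τ (r * y) / τ r) • r)) = 0 := by
    intro g hg
    rw [mul_sub, mul_smul_comm, ← mul_assoc, ← mul_assoc]
    rcases hg with hg | hg
    · rw [hg, k]
    · rw [hg]; simp
  exact ⟨k, fun n => k' _ (he n), fun n => k' _ (hf n)⟩

end Crest.Agent.R120
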