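import Mathlib
import Crest.Prelude.Def_CStarRep

/-! Row 120 (S0160): definitions for the construction of a simple tracial C⋆-algebra with a unique
irreducible representation up to unitary equivalence. -/

set_option autoImplicit false

open Filter Topology Crest.OpAlg

noncomputable section

namespace Crest.Agent.R120

section Basic

variable {A : Type*} [CStarAlgebra A]

/-- the 2-seminorm of a positive functional -/
def n2 (τ : A →ₗ[ℂ] ℂ) (x : A) : ℝ := Real.sqrt (τ (star x * x)).re

/-- a (not necessarily faithful, not necessarily tracial) state, in order-free form -/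
def IsState (φ : A →ₗ[ℂ] ℂ) : Prop :=
  φ 1 = 1 ∧ ∀ a : A, (φ (star a * a)).im = 0 ∧ 0 ≤ (φ (star a * a)).re

/-- the closed ⋆-subalgebra generated by a set -/
def gen (S : Set A) : StarSubalgebra ℂ A := (StarAlgebra.adjoin ℂ S).topologicalClosure

/-- a nested sequence of self-adjoint contractions whose 2-norms tend to zero -/
structure Nest (τ : A →ₗ[ℂ] ℂ) (a : ℕ → A) : Prop where
  sa : ∀ n, star (a n) = a n
  norm_le : ∀ n, ‖a n‖ ≤ 1
  nest : ∀ n, a n * a (n + 1) = a (n + 1)
  small : Tendsto (fun n => n2 τ (a n)) atTop (𝓝 0)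

/-- the sequence `a` excises `x` -/
def Exc (a : ℕ → A) (x : A) : Prop :=
  ∃ l : ℂ, Tendsto (fun n => a n * x * a n - l • (a n * a n)) atTop (𝓝 0)

/-- the two sequences are asymptotically orthogonal across `x` -/
def Cross (e f : ℕ → A) (x : A) : Prop :=
  Tendsto (fun n => e n * x * f n) atTop (𝓝 0)

/-- the data of one step: two orthogonal decreasing sequences of projections with equal traces
tending to zero -/
structure Data (τ : A →ₗ[ℂ] ℂ) (e f : ℕ → A) : Prop where
  e_proj : ∀ n, IsStarProjection (e n)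
  f_proj : ∀ n, IsStarProjection (f n)
  e_nest : ∀ n, e n * e (n + 1) = e (n + 1)
  f_nest : ∀ n, f n * f (n + 1) = f (n + 1)
  orth : e 0 * f 0 = 0
  tr_eq : ∀ n, τ (e n) = τ (f n)
  tr_lim : Tendsto (fun n => τ (e n)) atTop (𝓝 0)

/-- kernel of the conditional expectation onto `Dalg e f` -/
def Ker (τ : A →ₗ[ℂ] ℂ) (e f : ℕ → A) : Submodule ℂ A where
  carrier := {x | τ x = 0 ∧ (∀ n, τ (e n * x) = 0) ∧ ∀ n, τ (f n * x) = 0}
  add_mem' := by
    rintro x y ⟨h1, h2, h3⟩ ⟨k1, k2, k3⟩
    refine ⟨by simp [h1, k1], fun n => by simp [mul_add, h2, k2], fun n => by simp [mul_add, h3, k3]⟩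
  zero_mem' := by simp
  smul_mem' := by
    rintro c x ⟨h1, h2, h3⟩
    refine ⟨by simp [h1], fun n => by simp [h2], fun n => by simp [h3]⟩

/-- the closed span of `1`, the `e n` and the `f n` -/
def Dalg (e f : ℕ → A) : Submodule ℂ A :=
  (Submodule.span ℂ (insert (1 : A) (Set.range e ∪ Set.range f))).topologicalClosure

/-- reduced words `u a₁ u a₂ ⋯ u aₖ` starting with `u`, with `a₁, …, aₖ₋₁ ∈ K` and `aₖ ∈ B` -/
inductive Neg (B K : Set A) (u : A) : A → Prop
  | base {a : A} (ha : a ∈ B) : Neg B K u (u * a)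
  | step {a w : A} (ha : a ∈ K) (hw : Neg B K u w) : Neg B K u (u * a * w)

/-- reduced words `u a₁ u a₂ ⋯ aₖ₋₁ u` starting and ending with `u`, with all `aᵢ ∈ K` -/
inductive Core (K : Set A) (u : A) : A → Prop
  | base : Core K u u
  | step {a w : A} (ha : a ∈ K) (hw : Core K u w) : Core K u (u * a * w)

/-- `u` is free over `B` with amalgamation over `Dalg e f` -/
def Free (τ : A →ₗ[ℂ] ℂ) (e f : ℕ → A) (B : StarSubalgebra ℂ A) (u : A) : Prop :=
  ∀ w, Neg (B : Set A) ((B : Set A) ∩ Ker τ e f) u w → τ w = 0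

/-- one elementary step, inside an ambient tracial algebra -/
structure Step (τ : A →ₗ[ℂ] ℂ) (e f : ℕ → A) (B : StarSubalgebra ℂ A) (u : A) : Prop where
  tr : IsFaithfulTracialState τ
  closed : IsClosed (B : Set A)
  data : Data τ e f
  e_mem : ∀ n, e n ∈ B
  f_mem : ∀ n, f n ∈ B
  u_sa : star u = u
  u_sq : u * u = 1
  conj : ∀ n, u * e n * u = f n
  free : Free τ e f B u
  exc_e : ∀ x ∈ B, Exc e x
  exc_f : ∀ x ∈ B, Exc f x
  cross : ∀ x ∈ B, Cross e f x

/-- for each `N` a partition of unity into `N + 1` projections of equal trace -/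
structure IsBase (τ : A →ₗ[ℂ] ℂ) (g : ℕ → ℕ → A) : Prop where
  proj : ∀ N i, IsStarProjection (g N i)
  orth : ∀ N i j, i ≠ j → g N i * g N j = 0
  sum : ∀ N, ∑ i ∈ Finset.range (N + 1), g N i = 1
  tr : ∀ N i, i ≤ N → τ (g N i) = 1 / ((N : ℂ) + 1)

/-- no nontrivial closed invariant subspace -/
def Irr {H : Type*} [NormedAddCommGroup H] [InnerProductSpace ℂ H] [CompleteSpace H]
    (π : A →⋆ₐ[ℂ] (H →L[ℂ] H)) : Prop :=
  ∀ V : Submodule ℂ H, IsClosed (V : Set H) → (∀ a : A, ∀ v ∈ V, π a v ∈ V) → V = ⊥ ∨ V = ⊤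

end Basic

/-- data of a code: two doubly indexed families of noncommutative polynomials -/
abbrev Dat : Type := Bool → ℕ → ℕ → FreeAlgebra ℂ ℕ

/-- codes for the generators -/
inductive Code : Type
  | base (N i : ℕ) : Code
  | node (ch : ℕ → Code) (dat : Dat) : Code

/-- closed sets of codes -/
structure IsCl (T : Set Code) : Prop where
  base : ∀ N i, Code.base N i ∈ T
  node : ∀ ch dat, Code.node ch dat ∈ T → ∀ k, ch k ∈ T

section Codes

variable {A : Type*} [CStarAlgebra A]

/-- evaluation of a polynomial at the generators named by `ch` -/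
def ev (U : Code → A) (ch : ℕ → Code) : FreeAlgebra ℂ ℕ →ₐ[ℂ] A :=
  FreeAlgebra.lift ℂ (fun k => U (ch k))

/-- `e` and `f` are the limits described by `dat` -/
def Coded (U : Code → A) (ch : ℕ → Code) (dat : Dat) (e f : ℕ → A) : Prop :=
  (∀ n, Tendsto (fun k => ev U ch (dat true n k)) atTop (𝓝 (e n))) ∧
    ∀ n, Tendsto (fun k => ev U ch (dat false n k)) atTop (𝓝 (f n))

/-- the closed subalgebra generated by the generators with code in `T` -/
def alg (U : Code → A) (T : Set Code) : StarSubalgebra ℂ A := gen (U '' T)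

/-- the conditions on a node of a model -/
structure NodeOK (τ : A →ₗ[ℂ] ℂ) (U : Code → A) (I : Set Code) (ch : ℕ → Code) (dat : Dat)
    (e f : ℕ → A) : Prop where
  coded : Coded U ch dat e f
  data : Data τ e f
  u_sq : U (.node ch dat) * U (.node ch dat) = 1
  conj : ∀ n, U (.node ch dat) * e n * U (.node ch dat) = f n
  exc : ∀ x, Exc e x
  free : ∀ T, IsCl T → T ⊆ I → (∀ k, ch k ∈ T) → Code.node ch dat ∉ T →
    Free τ e f (alg U T) (U (.node ch dat))

end Codes

/-- a stage of the construction -/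
structure Model : Type 1 where
  I : Set Code
  A : Type
  [inst : CStarAlgebra A]
  τ : A →ₗ[ℂ] ℂ
  U : Code → A
  tr : IsFaithfulTracialState τ
  cl : IsCl I
  gen_top : alg U I = ⊤
  sa : ∀ γ ∈ I, star (U γ) = U γ
  base : IsBase τ (fun N i => U (.base N i))
  node : ∀ ch dat, Code.node ch dat ∈ I → ∃ e f, NodeOK τ U I ch dat e f

attribute [instance] Model.inst

/-- `M'` extends `M` -/
def Model.Le (M M' : Model) : Prop :=
  M.I ⊆ M'.I ∧ ∃ ι : M.A →⋆ₐ[ℂ] M'.A, (∀ a, M'.τ (ι a) = M.τ a) ∧ ∀ γ ∈ M.I, ι (M.U γ) = M'.U γ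

end Crest.Agent.R120
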