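import Crest.Agent.R120.Trace

/-! Row 120: two irreducible representations with non-orthogonal excising projections are equivalent. -/

set_option autoImplicit false
set_option linter.style.haveILetI false
set_option linter.unusedSectionVars false
set_option linter.deprecated false

open Filter Topology Crest.OpAlg
open scoped InnerProductSpace

noncomputable section

namespace Crest.Agent.R120

theorem eqv_nest {A : Type*} [CStarAlgebra A] {e : ℕ → A} (e_proj : ∀ n, IsStarProjection (e n))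
    (e_nest : ∀ n, e n * e (n + 1) = e (n + 1)) {n m : ℕ} (h : n ≤ m) : e n * e m = e m := by
  induction m, h using Nat.le_induction with
  | base => exact (e_proj n).isIdempotentElem
  | succ m _ ih => rw [← e_nest m, ← mul_assoc, ih]

theorem eqv_nest' {A : Type*} [CStarAlgebra A] {e : ℕ → A} (e_proj : ∀ n, IsStarProjection (e n))
    (e_nest : ∀ n, e n * e (n + 1) = e (n + 1)) {n m : ℕ} (h : n ≤ m) : e m * e n = e m := by
  have := congrArg star (eqv_nest e_proj e_nest h)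
  rwa [star_mul, (e_proj n).isSelfAdjoint.star_eq, (e_proj m).isSelfAdjoint.star_eq] at this

/-- the orbit map of a vector -/
def eqvOrb {A : Type*} [CStarAlgebra A]
    {H : Type*} [NormedAddCommGroup H] [InnerProductSpace ℂ H] [CompleteSpace H]
    (π : A →⋆ₐ[ℂ] (H →L[ℂ] H)) (ξ : H) : A →ₗ[ℂ] H where
  toFun a := π a ξ
  map_add' a b := by simp
  map_smul' c a := by simp

theorem eqv_dense {A : Type*} [CStarAlgebra A]
    {H : Type*} [NormedAddCommGroup H] [InnerProductSpace ℂ H] [CompleteSpace H]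
    (π : A →⋆ₐ[ℂ] (H →L[ℂ] H)) (h : Irr π) {ξ : H} (hξ : ξ ≠ 0) : DenseRange (eqvOrb π ξ) := by
  have hinv : ∀ a : A, ∀ v ∈ (LinearMap.range (eqvOrb π ξ)).topologicalClosure,
      π a v ∈ (LinearMap.range (eqvOrb π ξ)).topologicalClosure := by
    intro a v hv
    have hmaps : Set.MapsTo (π a) (LinearMap.range (eqvOrb π ξ) : Set H)
        (LinearMap.range (eqvOrb π ξ) : Set H) := by
      rintro _ ⟨b, rfl⟩
      exact ⟨a * b, by simp [eqvOrb]⟩
    exact hmaps.closure (π a).continuous hv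
  rcases h _ (Submodule.isClosed_topologicalClosure _) hinv with h0 | h0
  · exfalso
    have : ξ ∈ (LinearMap.range (eqvOrb π ξ)).topologicalClosure :=
      Submodule.le_topologicalClosure _ ⟨1, by simp [eqvOrb]⟩
    rw [h0] at this
    exact hξ this
  · have := (Submodule.dense_iff_topologicalClosure_eq_top).2 h0
    rw [LinearMap.coe_range] at this
    exact this

theorem eqv_inner_star {A : Type*} [CStarAlgebra A]
    {H : Type*} [NormedAddCommGroup H] [InnerProductSpace ℂ H] [CompleteSpace H]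
    (π : A →⋆ₐ[ℂ] (H →L[ℂ] H)) (x : A) (v w : H) : ⟪v, π (star x) w⟫_ℂ = ⟪π x v, w⟫_ℂ := by
  rw [map_star, ContinuousLinearMap.star_eq_adjoint, ContinuousLinearMap.adjoint_inner_right]

theorem eqv_exc_val {A : Type*} [CStarAlgebra A]
    {H : Type*} [NormedAddCommGroup H] [InnerProductSpace ℂ H] [CompleteSpace H]
    (π : A →⋆ₐ[ℂ] (H →L[ℂ] H)) {ξ : H} {e : ℕ → A} (e_proj : ∀ n, IsStarProjection (e n))
    (e_fix : ∀ n, π (e n) ξ = ξ) {x : A} {l : ℂ}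
    (hl : Tendsto (fun n => e n * x * e n - l • (e n * e n)) atTop (𝓝 0)) :
    ⟪ξ, π x ξ⟫_ℂ = l * ⟪ξ, ξ⟫_ℂ := by
  have hc : Continuous (fun y : A => ⟪ξ, π y ξ⟫_ℂ) := by
    have h1 : Continuous π :=
      AddMonoidHomClass.continuous_of_bound π 1 (by simpa using NonUnitalStarAlgHom.norm_apply_le π)
    exact continuous_const.inner (((ContinuousLinearMap.apply ℂ H ξ).continuous).comp h1)
  have h2 := (hc.tendsto 0).comp hl
  have h3 : ((fun y : A => ⟪ξ, π y ξ⟫_ℂ) ∘ fun n => e n * x * e n - l • (e n * e n)) =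
      fun _ => ⟪ξ, π x ξ⟫_ℂ - l * ⟪ξ, ξ⟫_ℂ := by
    funext n
    have hs : ∀ w, ⟪ξ, π (e n) w⟫_ℂ = ⟪ξ, w⟫_ℂ := by
      intro w
      have := eqv_inner_star π (e n) ξ w
      rwa [(e_proj n).isSelfAdjoint.star_eq, e_fix] at this
    simp only [Function.comp, map_sub, map_mul, map_smul, ContinuousLinearMap.sub_apply,
      ContinuousLinearMap.smul_apply, ContinuousLinearMap.mul_apply, e_fix, inner_sub_right,
      inner_smul_right, hs]
  rw [h3] at h2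
  have h4 := tendsto_nhds_unique h2 tendsto_const_nhds
  simp only [map_zero, ContinuousLinearMap.zero_apply, inner_zero_right] at h4
  exact sub_eq_zero.1 h4.symm

theorem eqv_norm_sq {A : Type*} [CStarAlgebra A]
    {H : Type*} [NormedAddCommGroup H] [InnerProductSpace ℂ H] [CompleteSpace H]
    (π : A →⋆ₐ[ℂ] (H →L[ℂ] H)) (x : A) (v : H) :
    ⟪v, π (star x * x) v⟫_ℂ = ((‖π x v‖ ^ 2 : ℝ) : ℂ) := by
  rw [map_mul, ContinuousLinearMap.mul_apply, eqv_inner_star, inner_self_eq_norm_sq_to_K]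
  simp

theorem eqv_delta {A : Type*} [CStarAlgebra A] {e f : ℕ → A}
    (e_proj : ∀ n, IsStarProjection (e n)) (f_proj : ∀ n, IsStarProjection (f n))
    (e_nest : ∀ n, e n * e (n + 1) = e (n + 1)) (f_nest : ∀ n, f n * f (n + 1) = f (n + 1))
    {a : A} (ha : ¬ Cross e f a) : ∃ δ : ℝ, 0 < δ ∧ ∀ n m, δ ≤ ‖e n * a * f m‖ := by
  have anti : ∀ {n m n' m' : ℕ}, n ≤ n' → m ≤ m' → ‖e n' * a * f m'‖ ≤ ‖e n * a * f m‖ := by
    intro n m n' m' hn hm
    have h1 : e n' * a * f m' = e n' * (e n * a * f m) * f m' := by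
      conv_lhs => rw [← eqv_nest' e_proj e_nest hn, ← eqv_nest f_proj f_nest hm]
      simp only [mul_assoc]
    rw [h1]
    calc ‖e n' * (e n * a * f m) * f m'‖ ≤ ‖e n'‖ * ‖e n * a * f m‖ * ‖f m'‖ :=
          (norm_mul_le _ _).trans (by gcongr; exact norm_mul_le _ _)
      _ ≤ 1 * ‖e n * a * f m‖ * 1 := by
          gcongr
          · exact (e_proj n').norm_le
          · exact (f_proj m').norm_le
      _ = _ := by ring
  by_contra hcon
  push Not at hcon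
  apply ha
  rw [Cross, Metric.tendsto_atTop]
  intro ε hε
  obtain ⟨n, m, h⟩ := hcon ε hε
  refine ⟨max n m, fun k hk => ?_⟩
  rw [dist_zero_right]
  exact (anti (le_trans (le_max_left _ _) hk) (le_trans (le_max_right _ _) hk)).trans_lt h

theorem eqv_lower {A : Type*} [CStarAlgebra A]
    {H : Type*} [NormedAddCommGroup H] [InnerProductSpace ℂ H] [CompleteSpace H]
    (π : A →⋆ₐ[ℂ] (H →L[ℂ] H)) {ξ : H} (hξ : ‖ξ‖ = 1) {f : ℕ → A}
    (f_proj : ∀ n, IsStarProjection (f n)) (f_fix : ∀ n, π (f n) ξ = ξ) (f_exc : ∀ x, Exc f x)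
    {y : A} {δ : ℝ} (hδ : 0 < δ) (h : ∀ m, δ ≤ ‖y * f m‖) : δ ≤ ‖π y ξ‖ := by
  obtain ⟨l, hl⟩ := f_exc (star y * y)
  have h1 := eqv_exc_val π f_proj f_fix hl
  rw [eqv_norm_sq, inner_self_eq_norm_sq_to_K, hξ] at h1
  have hl' : ‖l‖ = ‖π y ξ‖ ^ 2 := by
    have : l = ((‖π y ξ‖ ^ 2 : ℝ) : ℂ) := by rw [h1]; simp
    rw [this, Complex.norm_real, Real.norm_of_nonneg (by positivity)]
  have h2 : ∀ m, δ ^ 2 ≤ ‖f m * (star y * y) * f m - l • (f m * f m)‖ + ‖l‖ := by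
    intro m
    have h3 : ‖y * f m‖ ^ 2 = ‖f m * (star y * y) * f m‖ := by
      rw [sq, ← CStarRing.norm_star_mul_self, star_mul, (f_proj m).isSelfAdjoint.star_eq]
      simp only [mul_assoc]
    have h4 : ‖l • (f m * f m)‖ ≤ ‖l‖ := by
      rw [(f_proj m).isIdempotentElem, norm_smul]
      exact mul_le_of_le_one_right (norm_nonneg _) (f_proj m).norm_le
    calc δ ^ 2 ≤ ‖y * f m‖ ^ 2 := by gcongr; exact h m
      _ = ‖(f m * (star y * y) * f m - l • (f m * f m)) + l • (f m * f m)‖ := by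
          rw [h3, sub_add_cancel]
      _ ≤ _ := (norm_add_le _ _).trans (by gcongr)
  have h5 : Tendsto (fun m => ‖f m * (star y * y) * f m - l • (f m * f m)‖ + ‖l‖) atTop
      (𝓝 (‖(0 : A)‖ + ‖l‖)) := hl.norm.add_const _
  have h6 := ge_of_tendsto' h5 h2
  rw [norm_zero, zero_add, hl'] at h6
  exact (pow_le_pow_iff_left₀ hδ.le (norm_nonneg _) two_ne_zero).1 h6

theorem eqv_fixed {A : Type*} [CStarAlgebra A]
    {H : Type*} [NormedAddCommGroup H] [InnerProductSpace ℂ H] [CompleteSpace H]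
    (π : A →⋆ₐ[ℂ] (H →L[ℂ] H)) {e : ℕ → A} (e_proj : ∀ n, IsStarProjection (e n))
    (e_nest : ∀ n, e n * e (n + 1) = e (n + 1)) {v : H} {δ : ℝ} (hδ : 0 < δ)
    (h : ∀ n, δ ≤ ‖π (e n) v‖) : ∃ η : H, η ≠ 0 ∧ ∀ n, π (e n) η = η := by
  have hdiff : ∀ {n m : ℕ}, n ≤ m →
      ‖π (e m) v - π (e n) v‖ ^ 2 = ‖π (e n) v‖ ^ 2 - ‖π (e m) v‖ ^ 2 := by
    intro n m hnm
    have h1 : ⟪π (e m) v, π (e n) v⟫_ℂ = ((‖π (e m) v‖ ^ 2 : ℝ) : ℂ) := by
      rw [← eqv_norm_sq, ← eqv_inner_star, ← ContinuousLinearMap.mul_apply, ← map_mul,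
        (e_proj m).isSelfAdjoint.star_eq, eqv_nest' e_proj e_nest hnm,
        (e_proj m).isIdempotentElem]
    rw [@norm_sub_sq ℂ, h1]
    simp only [RCLike.re_to_complex, Complex.ofReal_re]
    ring
  have hanti : Antitone (fun n => ‖π (e n) v‖ ^ 2) := by
    intro n m hnm
    have := hdiff hnm
    have h0 := sq_nonneg ‖π (e m) v - π (e n) v‖
    simp only
    linarith
  have hbdd : BddBelow (Set.range (fun n => ‖π (e n) v‖ ^ 2)) :=
    ⟨0, by rintro _ ⟨n, rfl⟩; positivity⟩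
  have hlim := tendsto_atTop_ciInf hanti hbdd
  have hcau : CauchySeq (fun n => π (e n) v) := by
    rw [Metric.cauchySeq_iff']
    intro ε hε
    obtain ⟨N, hN⟩ := (Metric.tendsto_atTop.1 hlim) (ε ^ 2) (by positivity)
    refine ⟨N, fun n hn => ?_⟩
    have h1 := hN N le_rfl
    have h2 : ⨅ i, ‖π (e i) v‖ ^ 2 ≤ ‖π (e n) v‖ ^ 2 := ciInf_le hbdd n
    rw [Real.dist_eq] at h1
    have h3 := (abs_lt.1 h1).2
    rw [dist_eq_norm]
    have h4 : ‖π (e n) v - π (e N) v‖ ^ 2 < ε ^ 2 := by rw [hdiff hn]; linarith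
    exact lt_of_pow_lt_pow_left₀ 2 hε.le h4
  obtain ⟨η, hη⟩ := cauchySeq_tendsto_of_complete hcau
  refine ⟨η, ?_, fun k => ?_⟩
  · have := ge_of_tendsto' hη.norm h
    intro h0
    rw [h0, norm_zero] at this
    linarith
  · have h1 := ((π (e k)).continuous.tendsto η).comp hη
    refine tendsto_nhds_unique h1 (hη.congr' ?_)
    filter_upwards [eventually_ge_atTop k] with n hn
    simp only [Function.comp]
    rw [← ContinuousLinearMap.mul_apply, ← map_mul, eqv_nest e_proj e_nest hn]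

theorem equiv_of_not_cross {A : Type*} [CStarAlgebra A]
    {H₁ : Type*} [NormedAddCommGroup H₁] [InnerProductSpace ℂ H₁] [CompleteSpace H₁]
    {H₂ : Type*} [NormedAddCommGroup H₂] [InnerProductSpace ℂ H₂] [CompleteSpace H₂]
    (π₁ : A →⋆ₐ[ℂ] (H₁ →L[ℂ] H₁)) (π₂ : A →⋆ₐ[ℂ] (H₂ →L[ℂ] H₂)) (h₁ : Irr π₁) (h₂ : Irr π₂)
    {ξ₁ : H₁} {ξ₂ : H₂} (hξ₁ : ‖ξ₁‖ = 1) (hξ₂ : ‖ξ₂‖ = 1) {e f : ℕ → A}
    (e_proj : ∀ n, IsStarProjection (e n)) (f_proj : ∀ n, IsStarProjection (f n))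
    (e_nest : ∀ n, e n * e (n + 1) = e (n + 1)) (f_nest : ∀ n, f n * f (n + 1) = f (n + 1))
    (e_fix : ∀ n, π₁ (e n) ξ₁ = ξ₁) (f_fix : ∀ n, π₂ (f n) ξ₂ = ξ₂)
    (e_exc : ∀ x, Exc e x) (f_exc : ∀ x, Exc f x) {a : A} (ha : ¬ Cross e f a) :
    ∃ U : H₁ ≃ₗᵢ[ℂ] H₂, ∀ x v, U (π₁ x v) = π₂ x (U v) := by
  obtain ⟨δ, hδ, hlow⟩ := eqv_delta e_proj f_proj e_nest f_nest ha
  have hv : ∀ n, δ ≤ ‖π₂ (e n) (π₂ a ξ₂)‖ := by
    intro n
    have := eqv_lower π₂ hξ₂ f_proj f_fix f_exc hδ (hlow n)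
    rwa [map_mul, ContinuousLinearMap.mul_apply] at this
  obtain ⟨η₀, hη₀, hfix₀⟩ := eqv_fixed π₂ e_proj e_nest hδ hv
  set η : H₂ := ((‖η₀‖⁻¹ : ℝ) : ℂ) • η₀ with hηdef
  have hn0 : ‖η₀‖ ≠ 0 := norm_ne_zero_iff.2 hη₀
  have hη : ‖η‖ = 1 := by
    rw [hηdef, norm_smul, Complex.norm_real, norm_inv, norm_norm, inv_mul_cancel₀ hn0]
  have hfix : ∀ n, π₂ (e n) η = η := by
    intro n
    rw [hηdef, map_smul, hfix₀]
  have hξ0 : ξ₁ ≠ 0 := by intro h; rw [h, norm_zero] at hξ₁; exact zero_ne_one hξ₁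
  have hη0 : η ≠ 0 := by intro h; rw [h, norm_zero] at hη; exact zero_ne_one hη
  have d₁ := eqv_dense π₁ h₁ hξ0
  have d₂ := eqv_dense π₂ h₂ hη0
  have hnorm : ∀ x : A, ‖eqvOrb π₂ η (LinearEquiv.refl ℂ A x)‖ = ‖eqvOrb π₁ ξ₁ x‖ := by
    intro x
    obtain ⟨l, hl⟩ := e_exc (star x * x)
    have k₁ := eqv_exc_val π₁ e_proj e_fix hl
    have k₂ := eqv_exc_val π₂ e_proj hfix hl
    rw [eqv_norm_sq, inner_self_eq_norm_sq_to_K, hξ₁] at k₁
    rw [eqv_norm_sq, inner_self_eq_norm_sq_to_K, hη] at k₂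
    have k₃ : ‖π₂ x η‖ ^ 2 = ‖π₁ x ξ₁‖ ^ 2 := by exact_mod_cast k₂.trans k₁.symm
    exact (sq_eq_sq₀ (norm_nonneg _) (norm_nonneg _)).1 k₃
  set U := (LinearEquiv.refl ℂ A).extendOfIsometry (eqvOrb π₁ ξ₁) (eqvOrb π₂ η) d₁ d₂ hnorm
    with hU
  have hUe : ∀ y : A, U (π₁ y ξ₁) = π₂ y η := fun y =>
    (LinearEquiv.refl ℂ A).extendOfIsometry_eq (eqvOrb π₁ ξ₁) (eqvOrb π₂ η) d₁ d₂ hnorm y
  refine ⟨U, fun x v => ?_⟩
  refine d₁.induction_on v ?_ ?_
  · exact isClosed_eq (U.continuous.comp (π₁ x).continuous) ((π₂ x).continuous.comp U.continuous)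
  · intro y
    change U (π₁ x (π₁ y ξ₁)) = π₂ x (U (π₁ y ξ₁))
    rw [hUe, ← ContinuousLinearMap.mul_apply, ← map_mul, hUe, map_mul,
      ContinuousLinearMap.mul_apply]

end Crest.Agent.R120
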