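import Crest.Agent.R120.Words

/-! Row 120: norm estimates for reduced words. -/

set_option autoImplicit false
set_option linter.style.haveILetI false
set_option linter.unusedSectionVars false

open Filter Topology Crest.OpAlg

noncomputable section

namespace Crest.Agent.R120

variable {A : Type*} [CStarAlgebra A] {τ : A →ₗ[ℂ] ℂ} {e f : ℕ → A} {B : StarSubalgebra ℂ A}
  {u : A}

/-- the letters of the reduced words of a step -/
abbrev KB (τ : A →ₗ[ℂ] ℂ) (e f : ℕ → A) (B : StarSubalgebra ℂ A) : Set A :=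
  (B : Set A) ∩ Ker τ e f

theorem n2_le_of_orth (hs : IsState τ) {x y : A} (h : τ (star x * y) = 0) :
    n2 τ y ≤ n2 τ (x + y) := by
  have := hs.n2_add_sq_of_orth h
  have h1 := n2_nonneg τ (x + y)
  have h2 := n2_nonneg τ y
  have h3 := sq_nonneg (n2 τ x)
  exact (pow_le_pow_iff_left₀ h2 h1 two_ne_zero).mp (by linarith)

theorem n2_le_of_orth' (hs : IsState τ) {x y : A} (h : τ (star x * y) = 0) :
    n2 τ x ≤ n2 τ (x + y) := by
  have := hs.n2_add_sq_of_orth h
  have h1 := n2_nonneg τ (x + y)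
  have h2 := n2_nonneg τ x
  have h3 := sq_nonneg (n2 τ y)
  exact (pow_le_pow_iff_left₀ h2 h1 two_ne_zero).mp (by linarith)

theorem le_of_sq_le_mul {x C : ℝ} (hx : 0 ≤ x) (hC : 0 ≤ C) (h : x ^ 2 ≤ C * x) : x ≤ C := by
  rcases hx.eq_or_lt with h0 | h0
  · rw [← h0]; exact hC
  · nlinarith

namespace Step

variable (hs : Step τ e f B u)
include hs

theorem state : IsState τ := isState_of_tr hs.tr

theorem preStep : PreStep B (Dalg e f) (KB τ e f B) u where
  D_le := fun _ hd => Dalg_mem_sub hs.closed hs.e_mem hs.f_mem hd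
  K_le := Set.inter_subset_left
  decomp b hb := by
    obtain ⟨d, hd, hk, -⟩ := exists_decomp hs.tr hs.data (hs.exc_e b hb) (hs.exc_f b hb)
    exact ⟨d, hd, sub_mem hb (Dalg_mem_sub hs.closed hs.e_mem hs.f_mem hd), hk⟩
  u_sa := hs.u_sa
  u_sq := hs.u_sq
  conj _ hd := conj_mem_Dalg hs.u_sq hs.conj hd
  mul_K _ hd _ hk := ⟨mul_mem (Dalg_mem_sub hs.closed hs.e_mem hs.f_mem hd) hk.1,
    hs.data.Dalg_mul_mem_Ker hs.state hd hk.2⟩
  K_mul _ hd _ hk := ⟨mul_mem hk.1 (Dalg_mem_sub hs.closed hs.e_mem hs.f_mem hd),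
    hs.data.Ker_mul_mem_Ker hs.tr hd hk.2⟩
  star_K _ hk := ⟨star_mem hk.1, star_mem_Ker hs.tr hs.data hk.2⟩

theorem hfree : ∀ b ∈ B, ∀ w, Neg B (KB τ e f B) u w → τ (b * w) = 0 := by
  intro b hb w hw
  rw [tr_comm hs.tr]
  exact hs.free _ (hs.preStep.neg_mul_right hw hb)

theorem orth {x y : A} (hx : x ∈ Wp B (KB τ e f B) u) (hy : y ∈ Wm B (KB τ e f B) u) :
    τ (star x * y) = 0 := hs.preStep.orth hs.hfree hx hy

theorem orth' {x y : A} (hx : x ∈ Wp B (KB τ e f B) u) (hy : y ∈ Wm B (KB τ e f B) u) :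
    τ (star y * x) = 0 := by
  have := hs.state.map_star (star x * y)
  rw [hs.orth hx hy, star_mul, star_star, star_zero] at this
  exact this

theorem norm_u_le : ‖u‖ ≤ 1 := by
  haveI := hs.state.nontrivial
  have := CStarRing.norm_star_mul_self (x := u)
  rw [hs.u_sa, hs.u_sq, norm_one] at this
  nlinarith [norm_nonneg u]

theorem n2_u_mul (y : A) : n2 τ (u * y) = n2 τ y := by
  simp only [n2, star_mul, hs.u_sa]
  rw [mul_assoc, ← mul_assoc u u, hs.u_sq, one_mul]

theorem le_gen : B ≤ gen (insert u (B : Set A)) := fun _ hx =>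
  subset_gen _ (Set.mem_insert_of_mem _ hx)

theorem u_mem_gen : u ∈ gen (insert u (B : Set A)) := subset_gen _ (Set.mem_insert _ _)

theorem quad_eq {x z : A} {c : ℂ} {r : A} (hx : x - c • r ∈ KB τ e f B)
    (hz : z ∈ Wm B (KB τ e f B) u) : τ (star z * x * z) = c * τ (star z * r * z) := by
  have h1 := hs.orth' (K_mul_Wm hx hz) hz
  have e1 : star z * ((x - c • r) * z) = star z * x * z - c • (star z * r * z) := by
    simp [mul_sub, sub_mul, mul_assoc]
  rw [e1, map_sub, map_smul, smul_eq_mul, sub_eq_zero] at h1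
  exact h1

/-- on the span of the words starting with `u`, left multiplication by `b r` for a minimal
projection `r` is controlled by the 2-norm of `b` -/
theorem bound_min {r : A} (hr : IsStarProjection r) (hrB : r ∈ B)
    (he : ∀ n, e n * r = r ∨ e n * r = 0) (hf : ∀ n, f n * r = r ∨ f n * r = 0) :
    ∃ C : ℝ, 0 ≤ C ∧ ∀ b ∈ B, ∀ z ∈ Wm B (KB τ e f B) u,
      n2 τ (b * r * z) ≤ C * n2 τ b * n2 τ z := by
  by_cases h0 : r = 0
  · exact ⟨0, le_rfl, fun b _ z _ => by simp [h0]⟩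
  have hst := hs.state
  have hpos := n2_pos hs.tr h0
  refine ⟨(n2 τ r)⁻¹, by positivity, fun b hb z hz => ?_⟩
  have hk : r * (star b * b) * r - (τ (r * (star b * b)) / τ r) • r ∈ KB τ e f B :=
    ⟨sub_mem (mul_mem (mul_mem hrB (mul_mem (star_mem hb) hb)) hrB)
      (SMulMemClass.smul_mem _ hrB), min_conj_sub_mem_Ker hs.tr hr he hf _⟩
  have h1 := hs.quad_eq hk hz
  have e1 : star z * (r * (star b * b) * r) * z = star (b * r * z) * (b * r * z) := by
    simp [star_mul, hr.isSelfAdjoint.star_eq, mul_assoc]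
  have e2 : star z * r * z = star (r * z) * (r * z) := by
    rw [star_mul, hr.isSelfAdjoint.star_eq, mul_assoc (star z) r (r * z), ← mul_assoc r r,
      hr.isIdempotentElem.eq, mul_assoc]
  have e3 : τ (r * (star b * b)) = τ (star (b * r) * (b * r)) := by
    rw [star_mul, hr.isSelfAdjoint.star_eq, ← mul_assoc (r * star b), tr_comm hs.tr _ r,
      ← mul_assoc r (r * star b), ← mul_assoc r r, hr.isIdempotentElem.eq, mul_assoc]
  rw [e1, e2, e3, hst.apply_star_mul_self, hst.apply_star_mul_self, hst.apply_star_mul_self,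
    hst.n2_sq_proj hr, ← Complex.ofReal_div, ← Complex.ofReal_mul, Complex.ofReal_inj] at h1
  have k1 : n2 τ (b * r) ≤ n2 τ b := by
    have := n2_mul_le_right hs.tr b r
    have h2 := IsStarProjection.norm_le _ hr
    have h3 := n2_nonneg τ b
    nlinarith
  have k2 : n2 τ (r * z) ≤ n2 τ z := by
    have := hst.n2_mul_le r z
    have h2 := IsStarProjection.norm_le _ hr
    have h3 := n2_nonneg τ z
    nlinarith
  have k3 : n2 τ (b * r * z) = (n2 τ r)⁻¹ * n2 τ (b * r) * n2 τ (r * z) := by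
    have a1 := n2_nonneg τ (b * r * z)
    have a2 := n2_nonneg τ (b * r)
    have a3 := n2_nonneg τ (r * z)
    refine (pow_left_inj₀ a1 (by positivity) two_ne_zero).mp ?_
    rw [h1]; field_simp
  rw [k3]
  have a2 := n2_nonneg τ (b * r)
  have a3 := n2_nonneg τ (r * z)
  have a4 := n2_nonneg τ b
  gcongr

theorem bound_dm (m : ℕ) : ∃ C : ℝ, 0 ≤ C ∧ ∀ b ∈ B, ∀ z ∈ Wm B (KB τ e f B) u,
    n2 τ (b * (1 - (e m + f m)) * z) ≤ C * n2 τ b * n2 τ z := by
  have hd := hs.data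
  induction m with
  | zero =>
    refine hs.bound_min (hd.r0_proj 0) (sub_mem (one_mem B) (add_mem (hs.e_mem 0) (hs.f_mem 0)))
      (fun n => Or.inr ?_) (fun n => Or.inr ?_)
    · rw [mul_sub, mul_add, hd.ee_ge (Nat.zero_le n), hd.ef]; simp
    · rw [mul_sub, mul_add, hd.ff_ge (Nat.zero_le n), hd.fe]; simp
  | succ m ih =>
    obtain ⟨C₀, h0, b0⟩ := ih
    obtain ⟨C₁, h1, b1⟩ := hs.bound_min (r := e m - e (m + 1))
      ((hd.e_proj (m + 1)).sub_of_mul_eq_right (hd.e_proj m) (hd.e_nest m))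
      (sub_mem (hs.e_mem _) (hs.e_mem _)) (fun n => by
        simp only [mul_sub, hd.ee]
        rcases le_or_gt n m with h | h
        · left; rw [max_eq_right h, max_eq_right (by omega)]
        · right; rw [max_eq_left h.le, max_eq_left (by omega), sub_self])
      (fun n => Or.inr (by simp [mul_sub, hd.fe]))
    obtain ⟨C₂, h2, b2⟩ := hs.bound_min (r := f m - f (m + 1))
      ((hd.f_proj (m + 1)).sub_of_mul_eq_right (hd.f_proj m) (hd.f_nest m))
      (sub_mem (hs.f_mem _) (hs.f_mem _)) (fun n => Or.inr (by simp [mul_sub, hd.ef]))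
      (fun n => by
        simp only [mul_sub, hd.ff]
        rcases le_or_gt n m with h | h
        · left; rw [max_eq_right h, max_eq_right (by omega)]
        · right; rw [max_eq_left h.le, max_eq_left (by omega), sub_self])
    refine ⟨C₀ + C₁ + C₂, by positivity, fun b hb z hz => ?_⟩
    have e1 : b * (1 - (e (m + 1) + f (m + 1))) * z = b * (1 - (e m + f m)) * z +
        b * (e m - e (m + 1)) * z + b * (f m - f (m + 1)) * z := by noncomm_ring
    rw [e1]
    have k1 := hs.state.n2_add_le (b * (1 - (e m + f m)) * z + b * (e m - e (m + 1)) * z)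
      (b * (f m - f (m + 1)) * z)
    have k2 := hs.state.n2_add_le (b * (1 - (e m + f m)) * z) (b * (e m - e (m + 1)) * z)
    have := b0 b hb z hz
    have := b1 b hb z hz
    have := b2 b hb z hz
    nlinarith

/-- the component in `Wm` of `c y` is small if `star c` is small on `Wm` -/
theorem n2_minus_le {c y p m : A} {C : ℝ} (hC : 0 ≤ C)
    (hc : ∀ z ∈ Wm B (KB τ e f B) u, n2 τ (star c * z) ≤ C * n2 τ z)
    (hp : p ∈ Wp B (KB τ e f B) u) (hm : m ∈ Wm B (KB τ e f B) u) (h : p + m = c * y) :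
    n2 τ m ≤ C * n2 τ y := by
  have hst := hs.state
  have e1 : τ (star m * m) = τ (star (star c * m) * y) := by
    rw [star_mul, star_star, mul_assoc, ← h, mul_add, map_add, hs.orth' hp hm, zero_add]
  have k1 := hst.norm_star_mul_le (star c * m) y
  rw [← e1, hst.apply_star_mul_self, Complex.norm_real, Real.norm_eq_abs,
    abs_of_nonneg (sq_nonneg _)] at k1
  have k2 := hc m hm
  have a1 := n2_nonneg τ y
  have a2 := n2_nonneg τ m
  refine le_of_sq_le_mul a2 (by positivity) (k1.trans ?_)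
  nlinarith

theorem norm_le_of_Wall {x : A} (hx : x ∈ gen (insert u (B : Set A))) {C : ℝ} (hC : 0 ≤ C)
    (h : ∀ y ∈ Wall B (KB τ e f B) u, n2 τ (x * y) ≤ C * n2 τ y) : ‖x‖ ≤ C := by
  refine norm_le_of_n2 hs.tr (isClosed_gen _) hx hC (fun z hz => ?_)
  have hc := hs.state.continuous_n2
  have h2 : IsClosed {y : A | n2 τ (x * y) ≤ C * n2 τ y} := isClosed_le (by fun_prop) (by fun_prop)
  exact h2.closure_subset_iff.mpr h (hs.preStep.gen_subset_closure hz)

/-- the basic estimate -/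
theorem norm_word_le {w b b' : A} (hw : Core (KB τ e f B) u w) (hb : b ∈ B) (hb' : b' ∈ B)
    {C C' : ℝ} (hC : 0 ≤ C) (hC' : 0 ≤ C')
    (h1 : ∀ z ∈ Wm B (KB τ e f B) u, n2 τ (b * z) ≤ C * n2 τ z)
    (h2 : ∀ z ∈ Wm B (KB τ e f B) u, n2 τ (star b' * z) ≤ C' * n2 τ z) :
    ‖b * w * b'‖ ≤ ‖w‖ * (C * ‖b'‖ + ‖b‖ * C') := by
  have hst := hs.state
  have hp := hs.preStep
  refine hs.norm_le_of_Wall (mul_mem (mul_mem (hs.le_gen hb)
    (hw.mem (hp.K_le.trans hs.le_gen) hs.u_mem_gen)) (hs.le_gen hb')) (by positivity)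
    (fun y hy => ?_)
  obtain ⟨p, hpp, m, hm, e1⟩ := hp.Wall_decomp (hp.B_mul_Wall hb' hy)
  have k1 : n2 τ m ≤ C' * n2 τ y := hs.n2_minus_le hC' h2 hpp hm e1
  have k2 : n2 τ p ≤ ‖b'‖ * n2 τ y := by
    refine (n2_le_of_orth' hst (hs.orth hpp hm)).trans ?_
    rw [e1]; exact hst.n2_mul_le _ _
  have e2 : b * w * b' * y = b * (w * p) + b * (w * m) := by
    rw [mul_assoc (b * w), ← e1]; noncomm_ring
  rw [e2]
  refine (hst.n2_add_le _ _).trans ?_
  have k3 := h1 _ (hw.mul_Wp hpp)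
  have k4 := hst.n2_mul_le w p
  have k5 := hst.n2_mul_le b (w * m)
  have k6 := hst.n2_mul_le w m
  have a1 := n2_nonneg τ y
  have k7 : n2 τ (b * (w * p)) ≤ C * (‖w‖ * (‖b'‖ * n2 τ y)) :=
    k3.trans (by gcongr; exact k4.trans (by gcongr))
  have k8 : n2 τ (b * (w * m)) ≤ ‖b‖ * (‖w‖ * (C' * n2 τ y)) :=
    k5.trans (by gcongr; exact k6.trans (by gcongr))
  nlinarith

theorem norm_dd_le (m : ℕ) : ∃ C : ℝ, 0 ≤ C ∧ ∀ w, Core (KB τ e f B) u w → ∀ b ∈ B, ∀ b' ∈ B,
    ‖b * (1 - (e m + f m)) * w * ((1 - (e m + f m)) * b')‖ ≤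
      C * ‖w‖ * (n2 τ b * ‖b'‖ + ‖b‖ * n2 τ b') := by
  obtain ⟨C, hC, h⟩ := hs.bound_dm m
  refine ⟨C, hC, fun w hw b hb b' hb' => ?_⟩
  have hd : 1 - (e m + f m) ∈ B := sub_mem (one_mem B) (add_mem (hs.e_mem m) (hs.f_mem m))
  have hp := hs.data.r0_proj m
  have hn := IsStarProjection.norm_le _ hp
  have a1 := n2_nonneg τ b
  have a2 := n2_nonneg τ b'
  have := hs.norm_word_le hw (mul_mem hb hd) (mul_mem hd hb') (C := C * n2 τ b)
    (C' := C * n2 τ b') (by positivity) (by positivity) (h b hb) (fun z hz => by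
      rw [star_mul, hp.isSelfAdjoint.star_eq, ← n2_star hs.tr b']
      exact h _ (star_mem hb') z hz)
  refine this.trans ?_
  have k1 := norm_mul_le_right b' hn
  have k2 := norm_mul_le_left b hn
  calc ‖w‖ * (C * n2 τ b * ‖(1 - (e m + f m)) * b'‖ + ‖b * (1 - (e m + f m))‖ * (C * n2 τ b'))
      ≤ ‖w‖ * (C * n2 τ b * ‖b'‖ + ‖b‖ * (C * n2 τ b')) := by gcongr
    _ = _ := by ring

end Step

/-- comparison estimate for a free symmetry with trivial amalgamation -/
theorem Step.cmp (hs : Step τ (fun _ => 0) (fun _ => 0) B u) :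
    ∀ r ∈ B, ∀ s ∈ B, ∀ t ∈ B, star t = t → t * s = s → ∀ z ∈ gen (insert u (B : Set A)),
      (n2 τ r * (1 - n2 τ t) - ‖r‖ * n2 τ t) * n2 τ (s * z) ≤ n2 τ (r * u * s * z) := by
  intro r hr s hsB t ht hts hts' z hz
  have hst := hs.state
  have hp := hs.preStep
  have key : ∀ b ∈ B, ∀ z ∈ Wm B (KB τ (fun _ => 0) (fun _ => 0) B) u,
      n2 τ (b * z) = n2 τ b * n2 τ z := by
    intro b hb z hz
    have hk : star b * b - τ (star b * b) • (1 : A) ∈ KB τ (fun _ => 0) (fun _ => 0) B :=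
      ⟨sub_mem (mul_mem (star_mem hb) hb) (SMulMemClass.smul_mem _ (one_mem B)),
        by simp [hst.1], by simp, by simp⟩
    have h1 := hs.quad_eq hk hz
    have e1 : star z * (star b * b) * z = star (b * z) * (b * z) := by simp [mul_assoc]
    rw [e1, mul_one, hst.apply_star_mul_self, hst.apply_star_mul_self, hst.apply_star_mul_self,
      ← Complex.ofReal_mul, Complex.ofReal_inj, ← mul_pow] at h1
    exact (pow_left_inj₀ (n2_nonneg _ _) (mul_nonneg (n2_nonneg _ _) (n2_nonneg _ _))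
      two_ne_zero).mp h1
  have hc := hst.continuous_n2
  have h2 : IsClosed {z : A | (n2 τ r * (1 - n2 τ t) - ‖r‖ * n2 τ t) * n2 τ (s * z) ≤
      n2 τ (r * u * s * z)} := isClosed_le (by fun_prop) (by fun_prop)
  refine h2.closure_subset_iff.mpr (fun y hy => ?_) (hp.gen_subset_closure hz)
  obtain ⟨p, hpp, m, hm, e1⟩ := hp.Wall_decomp (hp.B_mul_Wall hsB hy)
  have k1 : n2 τ m ≤ n2 τ t * n2 τ (s * y) :=
    hs.n2_minus_le (c := t) (n2_nonneg _ _) (fun z hz => by rw [hts, key t ht z hz]) hpp hm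
      (by rw [e1, ← mul_assoc, hts'])
  have k2 : n2 τ (s * y) ≤ n2 τ p + n2 τ m := by rw [← e1]; exact hst.n2_add_le _ _
  have k3 : n2 τ (r * (u * p)) = n2 τ r * n2 τ p := by
    rw [key r hr _ (u_mul_Wp hpp), hs.n2_u_mul]
  have k4 : n2 τ (r * (u * m)) ≤ ‖r‖ * n2 τ m := by
    rw [← hs.n2_u_mul m]; exact hst.n2_mul_le _ _
  have e2 : r * (u * p) = r * u * s * y - r * (u * m) := by
    rw [mul_assoc (r * u), ← e1]; noncomm_ring
  have k5 := hst.n2_sub_le (r * u * s * y) (r * (u * m))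
  rw [← e2, k3] at k5
  rw [Set.mem_ofPred_eq]
  have a1 := n2_nonneg τ r
  have a2 := norm_nonneg r
  have k6 : n2 τ r * (n2 τ (s * y) - n2 τ t * n2 τ (s * y)) ≤ n2 τ r * n2 τ p := by
    gcongr; linarith
  have k7 : ‖r‖ * n2 τ m ≤ ‖r‖ * (n2 τ t * n2 τ (s * y)) := by gcongr
  nlinarith

end Crest.Agent.R120
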