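import Crest.Agent.R120.Trace

/-! Row 120: Schur's lemma and two-vector density for irreducible representations. -/

set_option autoImplicit false
set_option linter.style.haveILetI false
set_option linter.unusedSectionVars false

open Filter Topology Crest.OpAlg
open scoped InnerProductSpace

noncomputable section

namespace Crest.Agent.R120

variable {A : Type*} [CStarAlgebra A] {H : Type*} [NormedAddCommGroup H]
  [InnerProductSpace ℂ H] [CompleteSpace H]

theorem exc_inner_star (π : A →⋆ₐ[ℂ] (H →L[ℂ] H)) (a : A) (v w : H) :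
    ⟪π (star a) v, w⟫_ℂ = ⟪v, π a w⟫_ℂ := by
  rw [map_star, ContinuousLinearMap.star_eq_adjoint, ContinuousLinearMap.adjoint_inner_left]

theorem exc_norm_apply_le (π : A →⋆ₐ[ℂ] (H →L[ℂ] H)) (a : A) (v : H) : ‖π a v‖ ≤ ‖a‖ * ‖v‖ :=
  ((π a).le_opNorm v).trans
    (mul_le_mul_of_nonneg_right (NonUnitalStarAlgHom.norm_apply_le π a) (norm_nonneg v))

theorem exc_schur_sa (π : A →⋆ₐ[ℂ] (H →L[ℂ] H)) (hπ : Irr π) (T : H →L[ℂ] H)
    (hT : IsSelfAdjoint T) (hc : ∀ a, Commute T (π a)) : ∃ c : ℝ, T = (c : ℂ) • 1 := by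
  have hsub : (spectrum ℝ T).Subsingleton := by
    have key : ∀ s ∈ spectrum ℝ T, ∀ t ∈ spectrum ℝ T, ¬ s < t := by
      intro s hs t ht hst
      set m : ℝ := (s + t) / 2 with hm
      set f : ℝ → ℝ := fun r => max (m - r) 0 with hf
      set g : ℝ → ℝ := fun r => max (r - m) 0 with hg
      have hfc : Continuous f := by fun_prop
      have hgc : Continuous g := by fun_prop
      have hfg : cfc g T * cfc f T = 0 := by
        rw [← cfc_mul g f T hgc.continuousOn hfc.continuousOn]
        have : (fun r => g r * f r) = fun _ => (0 : ℝ) := by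
          ext r
          simp only [hf, hg]
          rcases le_total r m with h | h
          · rw [max_eq_right (by linarith), zero_mul]
          · rw [max_eq_right (a := m - r) (by linarith), mul_zero]
        rw [this, cfc_const_zero]
      have hne : ∀ k : ℝ → ℝ, Continuous k → ∀ r ∈ spectrum ℝ T, k r ≠ 0 → cfc k T ≠ 0 := by
        intro k hk r hr hkr h0
        have h1 : cfc k T = cfc (fun _ => (0 : ℝ)) T := by rw [h0, cfc_const_zero]
        exact hkr (eqOn_of_cfc_eq_cfc h1 hk.continuousOn continuousOn_const hT hr)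
      have hf0 : cfc f T ≠ 0 := hne f hfc s hs (by
        simp only [hf]
        have : 0 < m - s := by linarith
        exact (lt_max_of_lt_left this).ne')
      have hg0 : cfc g T ≠ 0 := hne g hgc t ht (by
        simp only [hg]
        have : 0 < t - m := by linarith
        exact (lt_max_of_lt_left this).ne')
      rcases hπ (cfc g T).ker (cfc g T).isClosed_ker (by
        intro a v hv
        have h1 : cfc g T * π a = π a * cfc g T := (hc a).cfc_real g
        have h2 : cfc g T v = 0 := hv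
        show cfc g T (π a v) = 0
        have h3 := congrArg (fun S : H →L[ℂ] H => S v) h1
        simp only [mul_apply_eq_comp] at h3
        rw [h3, h2, map_zero]) with h | h
      · apply hf0
        ext v
        have h1 : cfc f T v ∈ (cfc g T).ker := by
          show cfc g T (cfc f T v) = 0
          have h3 := congrArg (fun S : H →L[ℂ] H => S v) hfg
          simpa only [mul_apply_eq_comp, zero_apply] using h3
        rw [h] at h1
        simpa using h1
      · apply hg0
        ext v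
        have h1 : v ∈ (cfc g T).ker := by rw [h]; trivial
        exact h1
    intro s hs t ht
    exact le_antisymm (not_lt.1 (key t ht s hs)) (not_lt.1 (key s hs t ht))
  obtain ⟨c, hc⟩ : ∃ c : ℝ, ∀ r ∈ spectrum ℝ T, r = c := by
    rcases hsub.eq_empty_or_singleton with h | ⟨c, h⟩
    · exact ⟨0, by simp [h]⟩
    · exact ⟨c, by simp [h]⟩
  refine ⟨c, ?_⟩
  have h1 : cfc (id : ℝ → ℝ) T = cfc (fun _ => c) T := cfc_congr fun r hr => hc r hr
  rw [cfc_id ℝ T hT, cfc_const c T hT] at h1
  rw [h1, Algebra.algebraMap_eq_smul_one]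
  ext v
  simp

theorem exc_schur (π : A →⋆ₐ[ℂ] (H →L[ℂ] H)) (hπ : Irr π) (T : H →L[ℂ] H)
    (hc : ∀ a, Commute T (π a)) : ∃ c : ℂ, ∀ v, T v = c • v := by
  have hc' : ∀ a, Commute (star T) (π a) := by
    intro a
    have h1 := (hc (star a)).star_star
    rwa [← map_star, star_star] at h1
  obtain ⟨c, h1⟩ := exc_schur_sa π hπ (T + star T) (IsSelfAdjoint.add_star_self T)
    (fun a => (hc a).add_left (hc' a))
  obtain ⟨d, h2⟩ := exc_schur_sa π hπ (Complex.I • (T - star T)) (by
      rw [IsSelfAdjoint, star_smul, star_sub, star_star, Complex.star_def, Complex.conj_I,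
        neg_smul, ← smul_neg, neg_sub])
    (fun a => ((hc a).sub_left (hc' a)).smul_left _)
  refine ⟨(c - Complex.I * d) / 2, fun v => ?_⟩
  have h3 := congrArg (fun S : H →L[ℂ] H => S v) h1
  have h4 := congrArg (fun S : H →L[ℂ] H => (-Complex.I) • S v) h2
  simp only [add_apply, smul_apply,
    one_apply_eq_self, sub_apply, smul_smul, neg_mul,
    Complex.I_mul_I, neg_neg, one_smul] at h3 h4
  have h5 : (2 : ℂ) • T v = (c - Complex.I * d) • v := by
    rw [two_smul, sub_eq_add_neg, add_smul, ← h3, ← h4]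
    abel
  have h6 : T v = (2 : ℂ)⁻¹ • ((2 : ℂ) • T v) := by rw [smul_smul]; norm_num
  rw [h6, h5, smul_smul]
  congr 1
  ring

theorem exc_prod_comm (π : A →⋆ₐ[ℂ] (H →L[ℂ] H)) (hπ : Irr π) (Q : H × H →L[ℂ] H × H)
    (hQ : ∀ a v w, Q (π a v, π a w) = (π a (Q (v, w)).1, π a (Q (v, w)).2)) (T : H →L[ℂ] H)
    (v w : H) : Q (T v, T w) = (T (Q (v, w)).1, T (Q (v, w)).2) := by
  have e1 : ∀ a v, Q (π a v, 0) = (π a (Q (v, 0)).1, π a (Q (v, 0)).2) := fun a v => by
    simpa using hQ a v 0
  have e2 : ∀ a w, Q (0, π a w) = (π a (Q (0, w)).1, π a (Q (0, w)).2) := fun a w => by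
    simpa using hQ a 0 w
  obtain ⟨c11, h11⟩ := exc_schur π hπ
    ((ContinuousLinearMap.fst ℂ H H).comp (Q.comp (ContinuousLinearMap.inl ℂ H H))) (fun a => by
      ext v; simp [e1])
  obtain ⟨c21, h21⟩ := exc_schur π hπ
    ((ContinuousLinearMap.snd ℂ H H).comp (Q.comp (ContinuousLinearMap.inl ℂ H H))) (fun a => by
      ext v; simp [e1])
  obtain ⟨c12, h12⟩ := exc_schur π hπ
    ((ContinuousLinearMap.fst ℂ H H).comp (Q.comp (ContinuousLinearMap.inr ℂ H H))) (fun a => by
      ext v; simp [e2])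
  obtain ⟨c22, h22⟩ := exc_schur π hπ
    ((ContinuousLinearMap.snd ℂ H H).comp (Q.comp (ContinuousLinearMap.inr ℂ H H))) (fun a => by
      ext v; simp [e2])
  simp only [ContinuousLinearMap.comp_apply, ContinuousLinearMap.inl_apply,
    ContinuousLinearMap.inr_apply, ContinuousLinearMap.coe_fst',
    ContinuousLinearMap.coe_snd'] at h11 h21 h12 h22
  have hf : ∀ v w, Q (v, w) = (c11 • v + c12 • w, c21 • v + c22 • w) := by
    intro v w
    have : (v, w) = ((v, 0) : H × H) + (0, w) := by simp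
    rw [this, map_add]
    ext
    · simp [h11, h12]
    · simp [h21, h22]
  rw [hf, hf]
  simp

/-- the two-vector lemma -/
theorem exc_two_vec (π : A →⋆ₐ[ℂ] (H →L[ℂ] H)) (hπ : Irr π) (ξ β α η : H)
    (h : ∀ x, ⟪α, π x ξ⟫_ℂ + ⟪η, π x β⟫_ℂ = 0) (T : H →L[ℂ] H) :
    ⟪α, T ξ⟫_ℂ + ⟪η, T β⟫_ℂ = 0 := by
  set e : WithLp 2 (H × H) ≃L[ℂ] H × H := WithLp.prodContinuousLinearEquiv 2 ℂ H H with he
  have hin : ∀ p q : H × H, ⟪e.symm p, e.symm q⟫_ℂ = ⟪p.1, q.1⟫_ℂ + ⟪p.2, q.2⟫_ℂ := fun p q => rfl
  set L : A →ₗ[ℂ] WithLp 2 (H × H) :=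
    { toFun := fun x => e.symm (π x ξ, π x β)
      map_add' := fun x y => by rw [← map_add]; simp
      map_smul' := fun c x => by rw [← map_smul]; simp } with hL
  have hLa : ∀ x, L x = e.symm (π x ξ, π x β) := fun x => rfl
  set M : Submodule ℂ (WithLp 2 (H × H)) := (LinearMap.range L).topologicalClosure with hM
  haveI : CompleteSpace M := (LinearMap.range L).isClosed_topologicalClosure.completeSpace_coe
  set D : (H →L[ℂ] H) → (WithLp 2 (H × H) →L[ℂ] WithLp 2 (H × H)) := fun S =>
    (e.symm : H × H →L[ℂ] WithLp 2 (H × H)).comp ((S.prodMap S).comp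
      (e : WithLp 2 (H × H) →L[ℂ] H × H)) with hD
  have hDa : ∀ S p, D S (e.symm p) = e.symm (S p.1, S p.2) := fun S p => rfl
  have hinv : ∀ a, ∀ v ∈ M, D (π a) v ∈ M := by
    intro a v hv
    refine map_mem_closure (D (π a)).continuous hv ?_
    rintro _ ⟨x, rfl⟩
    refine ⟨a * x, ?_⟩
    rw [hLa, hLa, hDa]
    simp
  have hinv' : ∀ a, ∀ w ∈ Mᗮ, D (π a) w ∈ Mᗮ := by
    intro a w hw
    rw [Submodule.mem_orthogonal] at hw ⊢
    intro m hm
    rw [← hw _ (hinv (star a) m hm)]
    obtain ⟨p, rfl⟩ := e.symm.surjective m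
    obtain ⟨q, rfl⟩ := e.symm.surjective w
    rw [hDa, hDa, hin, hin, exc_inner_star, exc_inner_star]
  have hcomm : ∀ a v, M.starProjection (D (π a) v) = D (π a) (M.starProjection v) := by
    intro a v
    refine Submodule.eq_starProjection_of_mem_orthogonal
      (hinv a _ (M.starProjection_apply_mem v)) ?_
    rw [← map_sub]
    exact hinv' a _ (M.sub_starProjection_mem_orthogonal v)
  set Q : H × H →L[ℂ] H × H := (e : WithLp 2 (H × H) →L[ℂ] H × H).comp
    (M.starProjection.comp (e.symm : H × H →L[ℂ] WithLp 2 (H × H))) with hQ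
  have hQa : ∀ p, e.symm (Q p) = M.starProjection (e.symm p) := fun p => rfl
  have h1 := exc_prod_comm π hπ Q (fun a v w => by
    apply e.symm.injective
    rw [hQa, ← hDa (π a) (v, w), hcomm, ← hQa, hDa]) T ξ β
  have h2 : e.symm (ξ, β) ∈ M := by
    refine Submodule.le_topologicalClosure _ ⟨1, ?_⟩
    rw [hLa]
    simp
  have h3 : Q (ξ, β) = (ξ, β) := by
    apply e.symm.injective
    rw [hQa]
    exact Submodule.starProjection_eq_self_iff.2 h2
  rw [h3] at h1
  have h4 : e.symm (T ξ, T β) ∈ M := by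
    rw [← Submodule.starProjection_eq_self_iff, ← hQa, h1]
  have h5 : ∀ m ∈ M, ⟪e.symm (α, η), m⟫_ℂ = 0 := by
    intro m hm
    have hcl : IsClosed {m : WithLp 2 (H × H) | ⟪e.symm (α, η), m⟫_ℂ = 0} :=
      isClosed_eq (by fun_prop) continuous_const
    refine closure_minimal (s := (LinearMap.range L : Set (WithLp 2 (H × H)))) ?_ hcl hm
    rintro _ ⟨x, rfl⟩
    exact h x
  exact h5 _ h4

/-- real-linear density: `(T ξ, T⋆ ζ)` is approximated by the pairs `(π x ξ, π x⋆ ζ)` -/
theorem exc_density (π : A →⋆ₐ[ℂ] (H →L[ℂ] H)) (hπ : Irr π) (ξ ζ : H) (T : H →L[ℂ] H)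
    {ε : ℝ} (hε : 0 < ε) :
    ∃ x : A, ‖π x ξ - T ξ‖ < ε ∧ ‖π (star x) ζ - (star T) ζ‖ < ε := by
  set S : Submodule ℝ (H × H) :=
    { carrier := {p | ∃ x : A, p = (π x ξ, π (star x) ζ)}
      add_mem' := by
        rintro _ _ ⟨x, rfl⟩ ⟨y, rfl⟩
        exact ⟨x + y, by simp⟩
      zero_mem' := ⟨0, by simp [Prod.mk_zero_zero]⟩
      smul_mem' := by
        rintro r _ ⟨x, rfl⟩
        refine ⟨(r : ℂ) • x, ?_⟩
        rw [star_smul, Complex.star_def, Complex.conj_ofReal, map_smul, map_smul]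
        rfl } with hS
  have hmem : (T ξ, (star T) ζ) ∈ closure (S : Set (H × H)) := by
    by_contra hnot
    obtain ⟨f, u, h1, h2⟩ := RCLike.geometric_hahn_banach_closed_point (𝕜 := ℂ)
      S.convex.closure isClosed_closure hnot
    have hu : 0 < u := by simpa using h1 0 (subset_closure S.zero_mem)
    have h3 : ∀ p ∈ S, (f p).re = 0 := by
      intro p hp
      by_contra hne
      have h4 := h1 _ (subset_closure (S.smul_mem (u / (f p).re) hp))
      have h5 : f ((u / (f p).re) • p) = ((u / (f p).re : ℝ) : ℂ) * f p := by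
        rw [← smul_eq_mul, ← map_smul]
        rfl
      rw [h5] at h4
      simp only [RCLike.re_to_complex, Complex.re_ofReal_mul] at h4
      rw [div_mul_cancel₀ _ hne] at h4
      exact lt_irrefl _ h4
    set α : H := (InnerProductSpace.toDual ℂ H).symm (f.comp (ContinuousLinearMap.inl ℂ H H))
      with hα
    set β : H := (InnerProductSpace.toDual ℂ H).symm (f.comp (ContinuousLinearMap.inr ℂ H H))
      with hβ
    have hf : ∀ v w, f (v, w) = ⟪α, v⟫_ℂ + ⟪β, w⟫_ℂ := by
      intro v w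
      rw [hα, hβ, InnerProductSpace.toDual_symm_apply, InnerProductSpace.toDual_symm_apply]
      simp only [ContinuousLinearMap.comp_apply, ContinuousLinearMap.inl_apply,
        ContinuousLinearMap.inr_apply]
      rw [← map_add]
      simp
    have h6 : ∀ x : A, (⟪α, π x ξ⟫_ℂ + ⟪ζ, π x β⟫_ℂ).re = 0 := by
      intro x
      have h7 := h3 _ ⟨x, rfl⟩
      rw [hf, ← inner_conj_symm β, exc_inner_star] at h7
      simpa only [Complex.add_re, Complex.conj_re] using h7
    have h8 : ∀ x : A, ⟪α, π x ξ⟫_ℂ + ⟪ζ, π x β⟫_ℂ = 0 := by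
      intro x
      have h9 := h6 (Complex.I • x)
      simp only [map_smul, smul_apply, inner_smul_right, ← mul_add,
        Complex.I_mul_re, neg_eq_zero] at h9
      exact Complex.ext (h6 x) h9
    have h10 := exc_two_vec π hπ ξ β α ζ h8 T
    rw [hf, ← inner_conj_symm β, ContinuousLinearMap.star_eq_adjoint,
      ContinuousLinearMap.adjoint_inner_left] at h2
    have h11 := congrArg Complex.re h10
    simp only [Complex.add_re, Complex.zero_re] at h11
    simp only [RCLike.re_to_complex, Complex.add_re, Complex.conj_re] at h2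
    linarith
  obtain ⟨_, ⟨x, rfl⟩, hx⟩ := Metric.mem_closure_iff.1 hmem ε hε
  rw [Prod.dist_eq, max_lt_iff, dist_comm, dist_eq_norm, dist_comm, dist_eq_norm] at hx
  exact ⟨x, hx⟩

end Crest.Agent.R120
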