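import Crest.Agent.R120.Trace
import Crest.Agent.R120.Excise2

/-! Row 120: excision for vector states of irreducible representations. -/

set_option autoImplicit false
set_option linter.style.haveILetI false
set_option linter.unusedSectionVars false

open Filter Topology Crest.OpAlg
open scoped InnerProductSpace

noncomputable section

namespace Crest.Agent.R120

section Aux

variable {A : Type*} [CStarAlgebra A] {H : Type*} [NormedAddCommGroup H]
  [InnerProductSpace ℂ H] [CompleteSpace H]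

theorem exc_resolvent [PartialOrder A] [StarOrderedRing A] (a : A) (ha : 0 ≤ a) :
    ∃ u : A, star u = u ∧ ‖u‖ ≤ 1 ∧ u * (1 + a) = 1 ∧ ‖u * a * u‖ ≤ 1 / 4 := by
  have hsa : IsSelfAdjoint a := IsSelfAdjoint.of_nonneg ha
  have hsp : ∀ t ∈ spectrum ℝ a, 0 ≤ t := fun t ht => spectrum_nonneg_of_nonneg ha ht
  set g : ℝ → ℝ := fun t => (1 + t)⁻¹ with hg
  have hgc : ContinuousOn g (spectrum ℝ a) := by
    refine ContinuousOn.inv₀ (by fun_prop) fun t ht => ?_
    have := hsp t ht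
    positivity
  refine ⟨cfc g a, (cfc_predicate g a : IsSelfAdjoint (cfc g a)).star_eq, ?_, ?_, ?_⟩
  · refine norm_cfc_le zero_le_one fun t ht => ?_
    have := hsp t ht
    rw [Real.norm_of_nonneg (by positivity)]
    exact inv_le_one_of_one_le₀ (by linarith)
  · have h1 : cfc (fun t : ℝ => 1 + t) a = 1 + a := by
      rw [cfc_add a (fun _ => (1 : ℝ)) (fun t => t), cfc_const_one ℝ a hsa, cfc_id' ℝ a hsa]
    rw [← h1, ← cfc_mul g _ a hgc (by fun_prop), ← cfc_const_one ℝ a hsa]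
    refine cfc_congr fun t ht => ?_
    have := hsp t ht
    simp only [hg]
    exact inv_mul_cancel₀ (by positivity)
  · have h1 : cfc g a * a * cfc g a = cfc (fun t => g t * t * g t) a := by
      rw [cfc_mul (fun t => g t * t) g a (hgc.mul continuousOn_id) hgc,
        cfc_mul g (fun t => t) a hgc continuousOn_id, cfc_id' ℝ a hsa]
    rw [h1]
    refine norm_cfc_le (by norm_num) fun t ht => ?_
    have h2 := hsp t ht
    simp only [hg]
    rw [Real.norm_of_nonneg (by positivity)]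
    have h3 : (1 + t)⁻¹ * t * (1 + t)⁻¹ = t / (1 + t) ^ 2 := by field_simp
    rw [h3, div_le_div_iff₀ (by positivity) (by norm_num)]
    nlinarith [sq_nonneg (1 - t)]

theorem exc_approx_one (π : A →⋆ₐ[ℂ] (H →L[ℂ] H)) (hπ : Irr π) {ξ : H} (hξ : ‖ξ‖ = 1) {η : H}
    (hη : ‖η‖ = 1) : ∃ y : A, ‖y‖ ≤ 1 ∧ ‖η - π y ξ‖ ≤ 1 / 2 := by
  letI : PartialOrder A := CStarAlgebra.spectralOrder A
  haveI : StarOrderedRing A := CStarAlgebra.spectralOrderedRing A
  obtain ⟨x, h1, h2⟩ := exc_density π hπ ξ η (InnerProductSpace.rankOne ℂ η ξ)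
    (ε := 1 / 4) (by norm_num)
  rw [ContinuousLinearMap.star_eq_adjoint, InnerProductSpace.adjoint_rankOne] at h2
  rw [InnerProductSpace.rankOne_apply, inner_self_eq_norm_sq_to_K] at h1 h2
  simp only [hξ, hη, Complex.coe_algebraMap, Complex.ofReal_one, one_pow, one_smul] at h1 h2
  obtain ⟨u, hu1, hu2, hu3, hu4⟩ := exc_resolvent (x * star x) (mul_star_self_nonneg x)
  have hux : ‖u * x‖ ≤ 1 / 2 := by
    have h3 : ‖u * x‖ * ‖u * x‖ ≤ 1 / 4 := by
      rw [← CStarRing.norm_self_mul_star, star_mul, hu1, ← mul_assoc, mul_assoc u]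
      exact hu4
    nlinarith [norm_nonneg (u * x)]
  refine ⟨u * x + u * x, (norm_add_le _ _).trans (by linarith), ?_⟩
  have h4 : η - π (u * x + u * x) ξ = π (u * x) (π (star x) η - ξ) - π u (π x ξ - η) := by
    have h5 : π (u * (1 + x * star x)) η = η := by rw [hu3]; simp
    simp only [map_add, map_mul, map_sub, mul_add, mul_one, add_apply,
      mul_apply_eq_comp] at h5 ⊢
    nth_rewrite 1 [← h5]
    abel
  rw [h4]
  have h6 := exc_norm_apply_le π (u * x) (π (star x) η - ξ)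
  have h7 := exc_norm_apply_le π u (π x ξ - η)
  refine (norm_sub_le _ _).trans ?_
  have h8 : ‖u * x‖ * ‖π (star x) η - ξ‖ ≤ 1 / 2 * (1 / 4) :=
    mul_le_mul hux h2.le (norm_nonneg _) (by norm_num)
  have h9 : ‖u‖ * ‖π x ξ - η‖ ≤ 1 * (1 / 4) :=
    mul_le_mul hu2 h1.le (norm_nonneg _) (by norm_num)
  linarith

theorem exc_surj_of_approx {E : Type*} [NormedAddCommGroup E] [NormedSpace ℂ E] [CompleteSpace E]
    (f : E →L[ℂ] H) (hC : ∀ y, ∃ x, ‖y - f x‖ ≤ 1 / 2 * ‖y‖ ∧ ‖x‖ ≤ ‖y‖) (y : H) :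
    ∃ x, f x = y ∧ ‖x‖ ≤ 2 * ‖y‖ := by
  choose g hg using hC
  let h y := y - f (g y)
  have hle : ∀ y, ‖h y‖ ≤ 1 / 2 * ‖y‖ := fun y => (hg y).1
  have hnle : ∀ n : ℕ, ‖h^[n] y‖ ≤ (1 / 2) ^ n * ‖y‖ := by
    intro n
    induction n with
    | zero => simp
    | succ n IH =>
      rw [Function.iterate_succ']
      apply le_trans (hle _) _
      rw [pow_succ', mul_assoc]
      gcongr
  let u n := g (h^[n] y)
  have ule : ∀ n, ‖u n‖ ≤ (1 / 2) ^ n * ‖y‖ := fun n => le_trans (hg _).2 (hnle n)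
  have sNu : Summable fun n => ‖u n‖ := by
    refine .of_nonneg_of_le (fun n => norm_nonneg _) ule ?_
    exact Summable.mul_right _ (summable_geometric_of_lt_one (by simp) (by norm_num))
  have su : Summable u := sNu.of_norm
  let x := tsum u
  have x_ineq : ‖x‖ ≤ 2 * ‖y‖ :=
    calc
      ‖x‖ ≤ ∑' n, ‖u n‖ := norm_tsum_le_tsum_norm sNu
      _ ≤ ∑' n, (1 / 2) ^ n * ‖y‖ :=
        sNu.tsum_le_tsum ule <| Summable.mul_right _ summable_geometric_two
      _ = (∑' n : ℕ, (1 / 2 : ℝ) ^ n) * ‖y‖ := tsum_mul_right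
      _ = 2 * ‖y‖ := by rw [tsum_geometric_two]
  have fsumeq : ∀ n : ℕ, f (∑ i ∈ Finset.range n, u i) = y - h^[n] y := by
    intro n
    induction n with
    | zero => simp
    | succ n IH => rw [Finset.sum_range_succ, f.map_add, IH, Function.iterate_succ_apply', sub_add]
  have : Tendsto (fun n => ∑ i ∈ Finset.range n, u i) atTop (𝓝 x) := su.hasSum.tendsto_sum_nat
  have L₁ : Tendsto (fun n => f (∑ i ∈ Finset.range n, u i)) atTop (𝓝 (f x)) :=
    (f.continuous.tendsto _).comp this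
  simp only [fsumeq] at L₁
  have L₂ : Tendsto (fun n => y - h^[n] y) atTop (𝓝 (y - 0)) := by
    refine tendsto_const_nhds.sub ?_
    rw [tendsto_iff_norm_sub_tendsto_zero]
    simp only [sub_zero]
    refine squeeze_zero (fun _ => norm_nonneg _) hnle ?_
    rw [← zero_mul ‖y‖]
    refine (tendsto_pow_atTop_nhds_zero_of_lt_one ?_ ?_).mul tendsto_const_nhds <;> norm_num
  have feq : f x = y - 0 := tendsto_nhds_unique L₁ L₂
  rw [sub_zero] at feq
  exact ⟨x, feq, x_ineq⟩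

/-- Kadison transitivity for one vector. -/
theorem exc_kadison (π : A →⋆ₐ[ℂ] (H →L[ℂ] H)) (hπ : Irr π) {ξ : H} (hξ : ‖ξ‖ = 1) (η : H) :
    ∃ y : A, π y ξ = η ∧ ‖y‖ ≤ 2 * ‖η‖ := by
  set f₀ : A →ₗ[ℂ] H :=
    { toFun := fun a => π a ξ
      map_add' := fun a b => by simp
      map_smul' := fun c a => by simp } with hf₀
  set f : A →L[ℂ] H := f₀.mkContinuous 1 (fun a => by
    have := exc_norm_apply_le π a ξ
    rw [hξ, mul_one] at this
    rw [one_mul]
    exact this) with hf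
  refine exc_surj_of_approx f (fun y => ?_) η
  by_cases hy : y = 0
  · exact ⟨0, by simp [hy]⟩
  have hy' : 0 < ‖y‖ := norm_pos_iff.2 hy
  have hn : ‖((‖y‖ : ℝ) : ℂ)‖ = ‖y‖ := by simp
  have hc : ((‖y‖ : ℝ) : ℂ) ≠ 0 := by exact_mod_cast hy'.ne'
  obtain ⟨z, hz1, hz2⟩ := exc_approx_one π hπ hξ (η := ((‖y‖ : ℝ) : ℂ)⁻¹ • y) (by
    rw [norm_smul, norm_inv, hn, inv_mul_cancel₀ hy'.ne'])
  refine ⟨((‖y‖ : ℝ) : ℂ) • z, ?_, ?_⟩
  · have h1 : y - f (((‖y‖ : ℝ) : ℂ) • z) =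
        ((‖y‖ : ℝ) : ℂ) • (((‖y‖ : ℝ) : ℂ)⁻¹ • y - π z ξ) := by
      rw [map_smul, smul_sub, smul_smul, mul_inv_cancel₀ hc, one_smul]
      rfl
    rw [h1, norm_smul, hn, mul_comm]
    exact mul_le_mul_of_nonneg_right hz2 hy'.le
  · rw [norm_smul, hn]
    exact mul_le_of_le_one_right hy'.le hz1

/-- the kernel of a pure state is approximately `L + L⋆` -/
theorem exc_decomp (π : A →⋆ₐ[ℂ] (H →L[ℂ] H)) (hπ : Irr π) {ξ : H} (hξ : ‖ξ‖ = 1) (x : A)
    (hx : ⟪ξ, π x ξ⟫_ℂ = 0) {δ : ℝ} (hδ : 0 < δ) :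
    ∃ l₁ l₂ : A, π l₁ ξ = 0 ∧ π l₂ ξ = 0 ∧ ‖x - l₁ - star l₂‖ ≤ δ := by
  obtain ⟨y, h1, h2⟩ := exc_density π hπ ξ ξ (InnerProductSpace.rankOne ℂ (π x ξ) ξ)
    (ε := δ / 4) (by positivity)
  rw [ContinuousLinearMap.star_eq_adjoint, InnerProductSpace.adjoint_rankOne,
    InnerProductSpace.rankOne_apply, ← inner_conj_symm, hx, map_zero, zero_smul, sub_zero] at h2
  rw [InnerProductSpace.rankOne_apply, inner_self_eq_norm_sq_to_K] at h1
  simp only [hξ, Complex.coe_algebraMap, Complex.ofReal_one, one_pow, one_smul] at h1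
  obtain ⟨k₂, hk2, hk2'⟩ := exc_kadison π hπ hξ (π (star y) ξ)
  obtain ⟨k₁, hk1, hk1'⟩ := exc_kadison π hπ hξ (π x ξ - π y ξ)
  rw [norm_sub_rev] at h1
  refine ⟨x - y - k₁, star y - k₂, ?_, ?_, ?_⟩
  · simp only [map_sub, sub_apply, hk1, sub_self]
  · simp only [map_sub, sub_apply, hk2, sub_self]
  · have h3 : x - (x - y - k₁) - star (star y - k₂) = k₁ + star k₂ := by
      rw [star_sub, star_star]; abel
    rw [h3]
    refine (norm_add_le _ _).trans ?_
    rw [norm_star]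
    linarith

end Aux

/-- Exact excision (Kadison, Akemann–Anderson–Pedersen). -/
theorem exists_excise {A : Type*} [CStarAlgebra A] {H : Type*} [NormedAddCommGroup H]
    [InnerProductSpace ℂ H] [CompleteSpace H] (π : A →⋆ₐ[ℂ] (H →L[ℂ] H)) (hπ : Irr π) {ξ : H}
    (hξ : ‖ξ‖ = 1) (F : Finset A) (hF : ∀ x ∈ F, ⟪ξ, π x ξ⟫_ℂ = 0) {ε : ℝ} (hε : 0 < ε) :
    ∃ h : A, star h = h ∧ ‖h‖ ≤ 1 ∧ π h ξ = ξ ∧ ∀ x ∈ F, ‖h * x * h‖ ≤ ε := by
  letI : PartialOrder A := CStarAlgebra.spectralOrder A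
  haveI : StarOrderedRing A := CStarAlgebra.spectralOrderedRing A
  have hdec : ∀ x : A, ∃ l₁ l₂ : A, x ∈ F →
      π l₁ ξ = 0 ∧ π l₂ ξ = 0 ∧ ‖x - l₁ - star l₂‖ ≤ ε / 3 := by
    intro x
    by_cases hx : x ∈ F
    · obtain ⟨l₁, l₂, h⟩ := exc_decomp π hπ hξ x (hF x hx) (δ := ε / 3) (by positivity)
      exact ⟨l₁, l₂, fun _ => h⟩
    · exact ⟨0, 0, fun h => absurd h hx⟩
  choose l₁ l₂ hl using hdec
  set c : ℂ := ((3 / ε : ℝ) : ℂ) with hc
  have hcn : ‖c‖ = 3 / ε := by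
    rw [hc, Complex.norm_real, Real.norm_of_nonneg (by positivity)]
  set s : A := ∑ x ∈ F, (star (c • l₁ x) * (c • l₁ x) + star (c • l₂ x) * (c • l₂ x)) with hs
  have hterm : ∀ x ∈ F, 0 ≤ star (c • l₁ x) * (c • l₁ x) + star (c • l₂ x) * (c • l₂ x) :=
    fun x _ => add_nonneg (star_mul_self_nonneg _) (star_mul_self_nonneg _)
  have hs0 : 0 ≤ s := Finset.sum_nonneg hterm
  obtain ⟨h, hh1, hh2, hh3, hh4⟩ := exc_resolvent s hs0
  have hsξ : π s ξ = 0 := by
    rw [hs, map_sum, sum_apply]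
    refine Finset.sum_eq_zero fun x hx => ?_
    simp only [map_add, map_mul, map_smul, add_apply, mul_apply_eq_comp, smul_apply,
      (hl x hx).1, (hl x hx).2.1, smul_zero, map_zero, add_zero]
  have hsmall : ∀ l : A, star (c • l) * (c • l) ≤ s → ‖l * h‖ ≤ ε / 3 := by
    intro l hl
    have h1 := star_left_conjugate_le_conjugate hl h
    have h2 : star h * (star (c • l) * (c • l)) * h = star ((c • l) * h) * ((c • l) * h) := by
      rw [star_mul]
      simp only [mul_assoc]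
    rw [h2] at h1
    have h3 := CStarAlgebra.norm_le_norm_of_nonneg_of_le (star_mul_self_nonneg _) h1
    rw [CStarRing.norm_star_mul_self, hh1, smul_mul_assoc, norm_smul, hcn] at h3
    have h4 : 3 / ε * ‖l * h‖ ≤ 1 := by
      by_contra hlt
      push Not at hlt
      nlinarith
    rw [div_mul_eq_mul_div, div_le_one hε] at h4
    linarith
  refine ⟨h, hh1, hh2, ?_, fun x hx => ?_⟩
  · have h5 : π (h * (1 + s)) ξ = ξ := by rw [hh3]; simp
    simpa only [map_add, map_mul, map_one, add_apply, mul_apply_eq_comp, one_apply_eq_self, hsξ,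
      add_zero] using h5
  · have hle := Finset.single_le_sum hterm hx
    have h1 := hsmall (l₁ x) ((le_add_of_nonneg_right (star_mul_self_nonneg _)).trans hle)
    have h2 := hsmall (l₂ x) ((le_add_of_nonneg_left (star_mul_self_nonneg _)).trans hle)
    have h3 := (hl x hx).2.2
    have h4 : h * x * h = h * (l₁ x * h) + star (l₂ x * h) * h
        + h * (x - l₁ x - star (l₂ x)) * h := by
      rw [star_mul, hh1]
      noncomm_ring
    have h5 : ‖h * (l₁ x * h)‖ ≤ ε / 3 :=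
      (norm_mul_le _ _).trans ((mul_le_of_le_one_left (norm_nonneg _) hh2).trans h1)
    have h6 : ‖star (l₂ x * h) * h‖ ≤ ε / 3 :=
      (norm_mul_le _ _).trans ((mul_le_of_le_one_right (norm_nonneg _) hh2).trans
        (by rwa [norm_star]))
    have h7 : ‖h * (x - l₁ x - star (l₂ x)) * h‖ ≤ ε / 3 :=
      (norm_mul_le _ _).trans ((mul_le_of_le_one_right (norm_nonneg _) hh2).trans
        ((norm_mul_le _ _).trans ((mul_le_of_le_one_left (norm_nonneg _) hh2).trans h3)))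
    rw [h4]
    refine (norm_add₃_le).trans ?_
    linarith

end Crest.Agent.R120
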