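import Crest.Agent.R120.Trace

/-! Row 120: the Hilbert space carrying a free symmetry. -/

set_option autoImplicit false
set_option linter.style.haveILetI false
set_option linter.unusedSectionVars false

open Filter Topology Crest.OpAlg
open scoped InnerProductSpace

noncomputable section

namespace Crest.Agent.R120

section General

variable {E : Type*} [NormedAddCommGroup E] [InnerProductSpace ℂ E] [CompleteSpace E]

theorem fock_eq_zero {ι : Type*} (b : HilbertBasis ι ℂ E) {x : E} (h : ∀ i, ⟪b i, x⟫_ℂ = 0) :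
    x = 0 := by
  apply b.repr.injective
  rw [map_zero]
  ext i
  rw [b.repr_apply_apply, h]
  rfl

theorem fock_exists_basis {ι : Type*} {v : ι → E} (hv : Orthonormal ℂ v)
    (h : ∀ x, (∀ i, ⟪v i, x⟫_ℂ = 0) → x = 0) : ∃ b : HilbertBasis ι ℂ E, ⇑b = v := by
  refine ⟨HilbertBasis.mkOfOrthogonalEqBot hv ?_, HilbertBasis.coe_mkOfOrthogonalEqBot _ _⟩
  rw [eq_bot_iff]
  intro x hx
  exact h x fun i => (Submodule.mem_orthogonal _ _).1 hx _ (Submodule.subset_span ⟨i, rfl⟩)

theorem fock_ext {ι : Type*} (b : HilbertBasis ι ℂ E) {S T : E →L[ℂ] E}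
    (h : ∀ i, S (b i) = T (b i)) : S = T := by
  apply ContinuousLinearMap.ext_on (s := Set.range b)
  · rw [Submodule.dense_iff_topologicalClosure_eq_top]
    exact b.dense_span
  · rintro _ ⟨i, rfl⟩
    exact h i

theorem fock_exists_perm {ι : Type*} (b : HilbertBasis ι ℂ E) {p : ι → ι}
    (hp : ∀ i, p (p i) = i) :
    ∃ u : E →L[ℂ] E, star u = u ∧ u * u = 1 ∧ ∀ i, u (b i) = b (p i) := by
  classical
  have hinj : Function.Injective p := fun i j h => by rw [← hp i, h, hp]
  obtain ⟨b', hb'⟩ := fock_exists_basis (b.orthonormal.comp p hinj) (fun x hx =>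
    fock_eq_zero b fun i => by simpa [hp] using hx (p i))
  let U : E ≃ₗᵢ[ℂ] E := b.repr.trans b'.repr.symm
  have hU : ∀ i, U (b i) = b (p i) := fun i => by
    change b'.repr.symm (b.repr (b i)) = _
    rw [b.repr_self, b'.repr_symm_single, hb']
    rfl
  let u : E →L[ℂ] E := U.toContinuousLinearEquiv.toContinuousLinearMap
  have hu : ∀ x, u x = U x := fun x => rfl
  have huu : u * u = 1 := fock_ext b fun i => by
    change u (u (b i)) = b i
    rw [hu, hu, hU, hU, hp]
  have huu' : ∀ x, u (u x) = x := fun x => congrArg (fun T : E →L[ℂ] E => T x) huu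
  refine ⟨u, ?_, huu, hU⟩
  rw [ContinuousLinearMap.star_eq_adjoint]
  symm
  rw [ContinuousLinearMap.eq_adjoint_iff]
  intro x y
  conv_lhs => rw [← huu' y]
  exact U.inner_map_map x (u y)

end General

/-- a Hilbert basis adapted to an orthogonal family of projections -/
theorem fock_adapted {L : Type} [NormedAddCommGroup L] [InnerProductSpace ℂ L] [CompleteSpace L]
    {J : Type} (P : J → L →L[ℂ] L) (hsa : ∀ j, star (P j) = P j) (hid : ∀ j, P j * P j = P j)
    (horth : ∀ i j, i ≠ j → P i * P j = 0) (htot : ∀ y, (∀ j, P j y = 0) → y = 0)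
    (η : J → L) (hη : ∀ j, ‖η j‖ = 1) (hPη : ∀ j, P j (η j) = η j) :
    ∃ (I : Type) (b : HilbertBasis I ℂ L) (t : I → J) (d : J → I),
      (∀ i, P (t i) (b i) = b i) ∧ (∀ j, b (d j) = η j) ∧ ∀ j, t (d j) = j := by
  classical
  let V : J → Submodule ℂ L := fun j => (P j - 1).ker
  have hV : ∀ j y, y ∈ V j ↔ P j y = y := fun j y => by
    simp [V, sub_eq_zero]
  haveI hc : ∀ j, CompleteSpace (V j) := fun j => (P j - 1).isClosed_ker.completeSpace_coe
  have hadj : ∀ j x y, ⟪P j x, y⟫_ℂ = ⟪x, P j y⟫_ℂ := fun j x y => by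
    conv_rhs => rw [← hsa j, ContinuousLinearMap.star_eq_adjoint,
      ContinuousLinearMap.adjoint_inner_right]
  have hex : ∀ j, ∃ (w : Set (V j)) (b : HilbertBasis w ℂ (V j)),
      (⟨η j, (hV j _).2 (hPη j)⟩ : V j) ∈ w ∧ ⇑b = ((↑) : w → V j) := by
    intro j
    have ho : Orthonormal ℂ ((↑) : ({(⟨η j, (hV j _).2 (hPη j)⟩ : V j)} : Set (V j)) → V j) := by
      refine ⟨?_, ?_⟩
      · rintro ⟨_, rfl⟩
        exact hη j
      · rintro ⟨_, rfl⟩ ⟨_, rfl⟩ h
        exact (h rfl).elim
    obtain ⟨w, b, hw, hb⟩ := ho.exists_hilbertBasis_extension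
    exact ⟨w, b, hw rfl, hb⟩
  choose w c hw hc' using hex
  let v : (Σ j, w j) → L := fun x => ((x.2 : V x.1) : L)
  have hv : Orthonormal ℂ v := by
    refine ⟨fun x => ?_, ?_⟩
    · have := (c x.1).orthonormal.1 x.2
      rw [hc'] at this
      exact this
    · rintro ⟨i, x⟩ ⟨j, y⟩ hxy
      by_cases hij : i = j
      · subst hij
        have hne : x ≠ y := fun h => hxy (by rw [h])
        have := (c i).orthonormal.2 hne
        rw [hc'] at this
        exact this
      · have hx := (hV i _).1 (x : V i).2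
        have hy := (hV j _).1 (y : V j).2
        change ⟪((x : V i) : L), ((y : V j) : L)⟫_ℂ = 0
        rw [← hx, ← hy, hadj, ← mul_apply_eq_comp, horth i j hij]
        simp
  obtain ⟨b, hb⟩ := fock_exists_basis hv (fun y hy => htot y fun j => by
    have hmem : P j y ∈ V j := (hV j _).2 (by rw [← mul_apply_eq_comp, hid])
    have := fock_eq_zero (c j) (x := ⟨P j y, hmem⟩) (fun x => by
      rw [hc']
      change ⟪((x : V j) : L), P j y⟫_ℂ = 0
      rw [← hadj, (hV j _).1 (x : V j).2]
      exact hy ⟨j, x⟩)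
    exact congrArg Subtype.val this)
  refine ⟨Σ j, w j, b, fun x => x.1, fun j => ⟨j, ⟨_, hw j⟩⟩, fun x => ?_, fun j => ?_, fun j => rfl⟩
  · rw [hb]
    exact (hV _ _).1 (x.2 : V x.1).2
  · rw [hb]

open Classical in
/-- the distinguished basis vector at a position -/
def fockDist {I : Type} (s : I → I) : List I → Option I
  | [] => none
  | i :: θ => if fockDist s θ = some i then none else some (s i)

open Classical in
/-- the involution of the basis -/
def fockPerm {I : Type} (s : I → I) : List I × I → List I × I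
  | ([], i) => ([i], s i)
  | (i' :: θ, i) => if fockDist s (i' :: θ) = some i then (θ, i') else (i :: i' :: θ, s i)

theorem fockPerm_of_ne {I : Type} (s : I → I) {θ : List I} {i : I} (h : fockDist s θ ≠ some i) :
    fockPerm s (θ, i) = (i :: θ, s i) := by
  cases θ with
  | nil => rfl
  | cons i' θ => simp only [fockPerm, if_neg h]

theorem fockDist_cons {I : Type} (s : I → I) {θ : List I} {i : I} (h : fockDist s θ ≠ some i) :
    fockDist s (i :: θ) = some (s i) := by
  simp only [fockDist, if_neg h]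

theorem fock_of_dist {I : Type} (s : I → I) {θ : List I} {i : I} (h : fockDist s θ = some i) :
    ∃ i' θ', θ = i' :: θ' ∧ fockDist s θ' ≠ some i' ∧ i = s i' ∧ fockPerm s (θ, i) = (θ', i') := by
  cases θ with
  | nil => simp [fockDist] at h
  | cons i' θ' =>
    have h1 : fockDist s θ' ≠ some i' := fun h' => by simp [fockDist, h'] at h
    refine ⟨i', θ', rfl, h1, ?_, by simp only [fockPerm, if_pos h]⟩
    rw [fockDist_cons s h1] at h
    exact (Option.some.inj h).symm

theorem fockPerm_perm {I : Type} (s : I → I) (x : List I × I) : fockPerm s (fockPerm s x) = x := by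
  obtain ⟨θ, i⟩ := x
  by_cases h : fockDist s θ = some i
  · obtain ⟨i', θ', rfl, h1, rfl, h2⟩ := fock_of_dist s h
    rw [h2, fockPerm_of_ne s h1]
  · rw [fockPerm_of_ne s h]
    simp only [fockPerm, if_pos (fockDist_cons s h)]

/-- the diagonal representation on an `ℓ²` sum of copies of `L` -/
theorem fock_diag {A : Type} [CStarAlgebra A] {L : Type} [NormedAddCommGroup L]
    [InnerProductSpace ℂ L] [CompleteSpace L] (lam : A →⋆ₐ[ℂ] (L →L[ℂ] L)) (Θ : Type) :
    ∃ π : A →⋆ₐ[ℂ] (lp (fun _ : Θ => L) 2 →L[ℂ] lp (fun _ : Θ => L) 2),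
      ∀ a x θ, π a x θ = lam a (x θ) := by
  let D : A → (lp (fun _ : Θ => L) 2 →L[ℂ] lp (fun _ : Θ => L) 2) := fun a =>
    lp.mapCLM 2 (fun _ : Θ => lam a) (norm_nonneg (lam a)) (fun _ => le_rfl)
  have hD : ∀ a x θ, D a x θ = lam a (x θ) := fun a x θ => rfl
  refine ⟨{ toFun := D
            map_one' := ?_
            map_mul' := fun a b => ?_
            map_zero' := ?_
            map_add' := fun a b => ?_
            commutes' := fun c => ?_
            map_star' := fun a => ?_ }, hD⟩
  · ext x θ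
    simp [hD]
  · ext x θ
    simp [hD]
  · ext x θ
    simp [hD]
  · ext x θ
    simp [hD]
  · ext x θ
    simp [hD, Algebra.algebraMap_eq_smul_one]
  · rw [ContinuousLinearMap.star_eq_adjoint, ContinuousLinearMap.eq_adjoint_iff]
    intro x y
    rw [lp.inner_eq_tsum, lp.inner_eq_tsum]
    congr 1
    ext θ
    rw [hD, hD, map_star, ContinuousLinearMap.star_eq_adjoint,
      ContinuousLinearMap.adjoint_inner_left]

theorem fock_abstract {A : Type} [CStarAlgebra A] {L : Type} [NormedAddCommGroup L]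
    [InnerProductSpace ℂ L] [CompleteSpace L] (lam : A →⋆ₐ[ℂ] (L →L[ℂ] L))
    {I J : Type} (b : HilbertBasis I ℂ L) (t : I → J) (d : J → I) (σ : J → J)
    (hσ : ∀ j, σ (σ j) = j) (htd : ∀ j, t (d j) = j) :
    ∃ (H : Type) (_ : NormedAddCommGroup H) (_ : InnerProductSpace ℂ H) (_ : CompleteSpace H)
      (π : A →⋆ₐ[ℂ] (H →L[ℂ] H)) (u : H →L[ℂ] H) (ι : L → H) (Hp Hm : Submodule ℂ H),
      star u = u ∧ u * u = 1 ∧
      (∀ (p q : A) (c : J → Prop),
        (∀ i, (c (t i) → lam p (b i) = b i) ∧ (¬ c (t i) → lam p (b i) = 0)) →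
        (∀ i, (c (σ (t i)) → lam q (b i) = b i) ∧ (¬ c (σ (t i)) → lam q (b i) = 0)) →
        u * π p * u = π q) ∧
      (∀ v w, ⟪ι v, ι w⟫_ℂ = ⟪v, w⟫_ℂ) ∧ (∀ a v, π a (ι v) = ι (lam a v)) ∧ (∀ v, ι v ∈ Hp) ∧
      (∀ x ∈ Hp, u x ∈ Hm) ∧
      (∀ a, (∀ j, ⟪b (d j), lam a (b (d j))⟫_ℂ = 0) → ∀ x ∈ Hm, π a x ∈ Hp) ∧
      ∀ x ∈ Hp, ∀ y ∈ Hm, ⟪x, y⟫_ℂ = 0 := by
  classical
  obtain ⟨π, hπ⟩ := fock_diag lam (List I)
  let H := lp (fun _ : List I => L) 2
  let s : I → I := fun i => d (σ (t i))
  let v : List I × I → H := fun x => lp.single 2 x.1 (b x.2)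
  have hvi : ∀ (θ : List I) (i : I) (x : H), ⟪v (θ, i), x⟫_ℂ = ⟪b i, x θ⟫_ℂ := fun θ i x =>
    lp.inner_single_left _ _ _
  have hv : Orthonormal ℂ v := by
    refine ⟨fun x => ?_, ?_⟩
    · rw [lp.norm_single (by norm_num)]
      exact b.orthonormal.1 _
    · rintro ⟨θ, i⟩ ⟨θ', i'⟩ h
      change ⟪v (θ, i), v (θ', i')⟫_ℂ = 0
      rw [hvi]
      by_cases hθ : θ = θ'
      · subst hθ
        have hi : i ≠ i' := fun hi => h (by rw [hi])
        change ⟪b i, (lp.single 2 θ (b i') : H) θ⟫_ℂ = 0
        rw [lp.single_apply_self]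
        exact b.orthonormal.2 hi
      · change ⟪b i, (lp.single 2 θ' (b i') : H) θ⟫_ℂ = 0
        rw [lp.single_apply_ne _ _ _ hθ, inner_zero_right]
  obtain ⟨B, hB⟩ := fock_exists_basis hv (fun x hx => by
    ext θ
    exact fock_eq_zero b fun i => by rw [← hvi]; exact hx _)
  obtain ⟨u, hu1, hu2, hu3⟩ := fock_exists_perm B (fockPerm_perm s)
  have hsingle : ∀ (a : A) (θ : List I) (y : L),
      π a (lp.single 2 θ y : H) = (lp.single 2 θ (lam a y) : H) := by
    intro a θ y
    ext θ'
    rw [hπ]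
    by_cases h : θ' = θ
    · subst h
      rw [lp.single_apply_self, lp.single_apply_self]
    · rw [lp.single_apply_ne _ _ _ h, lp.single_apply_ne _ _ _ h, map_zero]
  have htype : ∀ x : List I × I, t (fockPerm s x).2 = σ (t x.2) := by
    rintro ⟨θ, i⟩
    by_cases h : fockDist s θ = some i
    · obtain ⟨i', θ', rfl, h1, rfl, h2⟩ := fock_of_dist s h
      rw [h2]
      simp only [s, htd, hσ]
    · rw [fockPerm_of_ne s h]
      simp only [s, htd]
  let K : (List I × I → Prop) → Submodule ℂ H := fun Q =>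
    { carrier := {x | ∀ k, Q k → ⟪B k, x⟫_ℂ = 0}
      add_mem' := fun hx hy k hk => by rw [inner_add_right, hx k hk, hy k hk, add_zero]
      zero_mem' := fun k _ => inner_zero_right _
      smul_mem' := fun c x hx k hk => by rw [inner_smul_right, hx k hk, mul_zero] }
  have huadj : ∀ x y : H, ⟪x, u y⟫_ℂ = ⟪u x, y⟫_ℂ := fun x y => by
    conv_lhs => rw [← hu1, ContinuousLinearMap.star_eq_adjoint,
      ContinuousLinearMap.adjoint_inner_right]
  refine ⟨H, inferInstance, inferInstance, inferInstance, π, u, fun y => lp.single 2 [] y,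
    K fun k => fockDist s k.1 = some k.2, K fun k => fockDist s k.1 ≠ some k.2,
    hu1, hu2, ?_, ?_, ?_, ?_, ?_, ?_, ?_⟩
  · intro p q c hp hq
    apply fock_ext B
    intro k
    have hBk : ∀ (a : A) (k : List I × I), π a (B k) = lp.single 2 k.1 (lam a (b k.2)) := by
      intro a k
      rw [hB]
      exact hsingle a k.1 _
    have hBk' : ∀ k : List I × I, B k = lp.single 2 k.1 (b k.2) := fun k => by rw [hB]
    change u (π p (u (B k))) = π q (B k)
    rw [hu3, hBk, hBk]
    by_cases hc : c (σ (t k.2))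
    · rw [(hp _).1 (by rw [htype]; exact hc), (hq _).1 hc, ← hBk', ← hBk', hu3, fockPerm_perm]
    · rw [(hp _).2 (by rw [htype]; exact hc), (hq _).2 hc, lp.single_zero, lp.single_zero,
        map_zero]
  · intro y z
    rw [lp.inner_single_left, lp.single_apply_self]
  · intro a y
    exact hsingle a [] y
  · rintro y ⟨θ, i⟩ hk
    have hθ : θ ≠ [] := by
      rintro rfl
      simp [fockDist] at hk
    rw [hB, hvi]
    change ⟪b i, (lp.single 2 [] y : H) θ⟫_ℂ = 0
    rw [lp.single_apply_ne _ _ _ hθ, inner_zero_right]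
  · rintro x hx ⟨θ, i⟩ hk
    rw [huadj, hu3, fockPerm_of_ne s hk]
    exact hx _ (fockDist_cons s hk)
  · rintro a ha x hx ⟨θ, i⟩ hk
    obtain ⟨i', θ', -, -, hi, -⟩ := fock_of_dist s hk
    have h1 : x θ - ⟪b i, x θ⟫_ℂ • b i = 0 := by
      apply fock_eq_zero b
      intro k
      rw [inner_sub_right, inner_smul_right]
      by_cases hki : k = i
      · subst hki
        rw [inner_self_eq_norm_sq_to_K, b.orthonormal.1]
        simp
      · have h2 := hx (θ, k) (by
          change fockDist s θ ≠ some k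
          rw [show fockDist s θ = some i from hk]
          exact fun h => hki (Option.some.inj h).symm)
        rw [hB, hvi] at h2
        rw [h2, b.orthonormal.2 hki]
        simp
    have hi' : i = d (σ (t i')) := hi
    have h3 : ⟪b i, lam a (b i)⟫_ℂ = 0 := by rw [hi']; exact ha _
    rw [hB, hvi, hπ, sub_eq_zero.1 h1, map_smul, inner_smul_right, h3, mul_zero]
  · intro x hx y hy
    rw [← B.tsum_inner_mul_inner]
    have : ∀ k, ⟪x, B k⟫_ℂ * ⟪B k, y⟫_ℂ = 0 := by
      intro k
      by_cases hk : fockDist s k.1 = some k.2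
      · rw [← inner_conj_symm, hx k hk]
        simp
      · rw [hy k hk, mul_zero]
    simp [this]

section Proj

variable {A : Type*} [CStarAlgebra A] {τ : A →ₗ[ℂ] ℂ} {e f : ℕ → A}

/-- the two sequences as one family -/
def fockG (e f : ℕ → A) : Bool → ℕ → A
  | true => e
  | false => f

/-- the orthogonal projections cut out by the two sequences -/
def fockR (e f : ℕ → A) : Option (Bool × ℕ) → A
  | none => 1 - fockG e f true 0 - fockG e f false 0
  | some (s, n) => fockG e f s n - fockG e f s (n + 1)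

/-- the flip -/
def fockS : Option (Bool × ℕ) → Option (Bool × ℕ)
  | none => none
  | some (s, n) => some (!s, n)

/-- `fockR j` lies below `fockG s n` -/
def fockC (s : Bool) (n : ℕ) : Option (Bool × ℕ) → Prop
  | none => False
  | some (s', m) => s' = s ∧ n ≤ m

theorem fockS_S (j : Option (Bool × ℕ)) : fockS (fockS j) = j := by
  rcases j with _ | ⟨s, n⟩ <;> simp [fockS]

theorem fockC_S (s : Bool) (n : ℕ) (j : Option (Bool × ℕ)) :
    fockC s n (fockS j) ↔ fockC (!s) n j := by
  rcases j with _ | ⟨s', m⟩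
  · simp [fockS, fockC]
  · cases s <;> cases s' <;> simp [fockS, fockC]

variable (hd : Data τ e f)
include hd

theorem fockG_proj (s : Bool) (n : ℕ) : IsStarProjection (fockG e f s n) := by
  cases s
  · exact hd.f_proj n
  · exact hd.e_proj n

theorem fockG_star (s : Bool) (n : ℕ) : star (fockG e f s n) = fockG e f s n :=
  (fockG_proj hd s n).isSelfAdjoint.star_eq

theorem fockG_mul_of_le (s : Bool) {n m : ℕ} (h : n ≤ m) :
    fockG e f s n * fockG e f s m = fockG e f s m := by
  have hn : ∀ n, fockG e f s n * fockG e f s (n + 1) = fockG e f s (n + 1) := by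
    cases s
    · exact hd.f_nest
    · exact hd.e_nest
  induction m, h using Nat.le_induction with
  | base => exact (fockG_proj hd s n).isIdempotentElem.eq
  | succ m _ ih => rw [← hn m, ← mul_assoc, ih]

theorem fockG_mul_of_ge (s : Bool) {n m : ℕ} (h : m ≤ n) :
    fockG e f s n * fockG e f s m = fockG e f s n := by
  have := congrArg star (fockG_mul_of_le hd s h)
  rwa [star_mul, fockG_star hd, fockG_star hd] at this

theorem fockG_mul_ne {s s' : Bool} (h : s' ≠ s) (n m : ℕ) :
    fockG e f s n * fockG e f s' m = 0 := by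
  have h0 : fockG e f s 0 * fockG e f s' 0 = 0 := by
    cases s <;> cases s'
    · exact (h rfl).elim
    · have := congrArg star hd.orth
      rwa [star_mul, star_zero, (hd.e_proj 0).isSelfAdjoint.star_eq,
        (hd.f_proj 0).isSelfAdjoint.star_eq] at this
    · exact hd.orth
    · exact (h rfl).elim
  rw [← fockG_mul_of_ge hd s (Nat.zero_le n), ← fockG_mul_of_le hd s' (Nat.zero_le m),
    mul_assoc, ← mul_assoc (fockG e f s 0), h0, zero_mul, mul_zero]

theorem fockG_mul_R (s : Bool) (n : ℕ) (j : Option (Bool × ℕ)) :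
    (fockC s n j → fockG e f s n * fockR e f j = fockR e f j) ∧
      (¬ fockC s n j → fockG e f s n * fockR e f j = 0) := by
  rcases j with _ | ⟨s', m⟩
  · refine ⟨fun h => h.elim, fun _ => ?_⟩
    simp only [fockR, mul_sub, mul_one]
    cases s
    · rw [fockG_mul_of_ge hd _ (Nat.zero_le n), fockG_mul_ne hd (by simp)]
      simp
    · rw [fockG_mul_of_ge hd _ (Nat.zero_le n), fockG_mul_ne hd (by simp)]
      simp
  · simp only [fockR, fockC, mul_sub]
    constructor
    · rintro ⟨rfl, h⟩
      rw [fockG_mul_of_le hd _ h, fockG_mul_of_le hd _ (h.trans (Nat.le_succ m))]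
    · intro h
      by_cases hs : s' = s
      · subst hs
        have h1 : m + 1 ≤ n := by
          by_contra h2
          exact h ⟨rfl, by omega⟩
        rw [fockG_mul_of_ge hd _ h1, fockG_mul_of_ge hd _ (by omega), sub_self]
      · rw [fockG_mul_ne hd hs, fockG_mul_ne hd hs, sub_self]

theorem fockR_star (j : Option (Bool × ℕ)) : star (fockR e f j) = fockR e f j := by
  rcases j with _ | ⟨s, n⟩ <;> simp only [fockR, star_sub, star_one, fockG_star hd]

theorem fockR_mul (i j : Option (Bool × ℕ)) :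
    (i = j → fockR e f i * fockR e f j = fockR e f j) ∧
      (i ≠ j → fockR e f i * fockR e f j = 0) := by
  have key := fun s n => fockG_mul_R hd s n j
  rcases i with _ | ⟨s, n⟩
  · have e1 : fockR e f none * fockR e f j = fockR e f j - fockG e f true 0 * fockR e f j -
        fockG e f false 0 * fockR e f j := by
      conv_lhs => rw [fockR]
      rw [sub_mul, sub_mul, one_mul]
    rw [e1]
    rcases j with _ | ⟨s', m⟩
    · refine ⟨fun _ => ?_, fun h => (h rfl).elim⟩
      rw [(key true 0).2 (fun h => h), (key false 0).2 (fun h => h)]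
      simp
    · refine ⟨fun h => (by cases h), fun _ => ?_⟩
      cases s'
      · rw [(key true 0).2 (by simp [fockC]), (key false 0).1 (by simp [fockC])]
        simp
      · rw [(key true 0).1 (by simp [fockC]), (key false 0).2 (by simp [fockC])]
        simp
  · have e1 : fockR e f (some (s, n)) * fockR e f j = fockG e f s n * fockR e f j -
        fockG e f s (n + 1) * fockR e f j := by
      conv_lhs => rw [fockR]
      rw [sub_mul]
    rw [e1]
    constructor
    · rintro rfl
      rw [(key s n).1 (by simp [fockC]), (key s (n + 1)).2 (by simp [fockC]), sub_zero]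
    · intro h
      by_cases hc : fockC s (n + 1) j
      · have hc' : fockC s n j := by
          rcases j with _ | ⟨s', m⟩
          · exact hc
          · exact ⟨hc.1, (Nat.le_succ n).trans hc.2⟩
        rw [(key s n).1 hc', (key s (n + 1)).1 hc, sub_self]
      · have hc' : ¬ fockC s n j := by
          rcases j with _ | ⟨s', m⟩
          · exact hc
          · rintro ⟨rfl, h1⟩
            have h2 : m = n := by
              by_contra h3
              exact hc ⟨rfl, by omega⟩
            exact h (by rw [h2])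
        rw [(key s n).2 hc', (key s (n + 1)).2 hc, sub_self]

theorem fockR_tr (j : Option (Bool × ℕ)) : τ (fockR e f (fockS j)) = τ (fockR e f j) := by
  rcases j with _ | ⟨s, n⟩
  · rfl
  · cases s <;> simp [fockR, fockS, fockG, hd.tr_eq]

omit hd in
theorem fockR_ker {a : A} (ha : a ∈ Ker τ e f) (j : Option (Bool × ℕ)) :
    τ (fockR e f j * a) = 0 := by
  obtain ⟨h1, h2, h3⟩ := ha
  rcases j with _ | ⟨s, n⟩
  · simp [fockR, fockG, sub_mul, h1, h2, h3]
  · cases s <;> simp [fockR, fockG, sub_mul, h2, h3]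

theorem fockG_lim (s : Bool) : Tendsto (fun n => τ (fockG e f s n)) atTop (𝓝 0) := by
  cases s
  · simpa only [fockG, ← hd.tr_eq] using hd.tr_lim
  · exact hd.tr_lim

end Proj

theorem exists_fock {A : Type} [CStarAlgebra A] {τ : A →ₗ[ℂ] ℂ} (hτ : IsFaithfulTracialState τ)
    {e f : ℕ → A} (hd : Data τ e f) :
    ∃ (H : Type) (_ : NormedAddCommGroup H) (_ : InnerProductSpace ℂ H) (_ : CompleteSpace H)
      (π : A →⋆ₐ[ℂ] (H →L[ℂ] H)) (u : H →L[ℂ] H) (Ω : H) (Hp Hm : Submodule ℂ H),
      star u = u ∧ u * u = 1 ∧ (∀ n, u * π (e n) * u = π (f n)) ∧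
      (∀ a, ⟪Ω, π a Ω⟫_ℂ = τ a) ∧ (∀ a, π a Ω ∈ Hp) ∧ (∀ x ∈ Hp, u x ∈ Hm) ∧
      (∀ a ∈ Ker τ e f, ∀ x ∈ Hm, π a x ∈ Hp) ∧ ∀ x ∈ Hp, ∀ y ∈ Hm, ⟪x, y⟫_ℂ = 0 := by
  have hs := isState_of_tr hτ
  obtain ⟨L, _, _, _, hat, lam, h1, h2, h3⟩ := exists_gns hs
  let J := {j : Option (Bool × ℕ) // fockR e f j ≠ 0}
  have hproj : ∀ j, IsStarProjection (fockR e f j) := fun j =>
    ⟨(fockR_mul hd j j).1 rfl, fockR_star hd j⟩
  let σ : J → J := fun j => ⟨fockS j.1, fun h => j.2 (proj_eq_zero_of_tr hτ (hproj _) (by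
    rw [← fockR_tr hd, h, map_zero]))⟩
  let η : J → L := fun j => ((n2 τ (fockR e f j.1))⁻¹ : ℂ) • hat (fockR e f j.1)
  have hadj : ∀ a x y, ⟪x, lam a y⟫_ℂ = ⟪lam (star a) x, y⟫_ℂ := fun a x y => by
    rw [map_star, ContinuousLinearMap.star_eq_adjoint, ContinuousLinearMap.adjoint_inner_left]
  have htot : ∀ y : L, (∀ j : J, lam (fockR e f j.1) y = 0) → y = 0 := by
    intro y hy
    have hy' : ∀ j, lam (fockR e f j) y = 0 := fun j => by
      by_cases h : fockR e f j = 0
      · rw [h, map_zero]; rfl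
      · exact hy ⟨j, h⟩
    have hconst : ∀ s n, lam (fockG e f s n) y = lam (fockG e f s 0) y := by
      intro s n
      induction n with
      | zero => rfl
      | succ n ih =>
        have := hy' (some (s, n))
        rw [fockR, map_sub, sub_apply, sub_eq_zero] at this
        rw [← this, ih]
    have hzero : ∀ s, lam (fockG e f s 0) y = 0 := by
      intro s
      apply h3.eq_zero_of_inner_right (𝕜 := ℂ)
      intro a
      have hb : ∀ n, ‖⟪hat a, lam (fockG e f s 0) y⟫_ℂ‖ ≤
          Real.sqrt (τ (fockG e f s n)).re * (‖a‖ * ‖y‖) := by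
        intro n
        rw [← hconst s n, hadj, fockG_star hd, h2]
        refine (norm_inner_le_norm _ _).trans ?_
        rw [← n2_eq_norm h1, ← mul_assoc]
        gcongr
        refine (n2_mul_le_right hτ _ _).trans (le_of_eq ?_)
        rw [n2, fockG_star hd, (fockG_proj hd s n).isIdempotentElem.eq]
      have hlim : Tendsto (fun n => Real.sqrt (τ (fockG e f s n)).re * (‖a‖ * ‖y‖)) atTop
          (𝓝 (Real.sqrt (0 : ℂ).re * (‖a‖ * ‖y‖))) :=
        (((Complex.continuous_re.tendsto _).comp (fockG_lim hd s)).sqrt).mul_const _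
      simp only [Complex.zero_re, Real.sqrt_zero, zero_mul] at hlim
      exact norm_le_zero_iff.1 (ge_of_tendsto' hlim hb)
    have := hy' none
    rw [fockR, map_sub, map_sub, map_one, sub_apply, sub_apply, hzero, hzero] at this
    simpa using this
  obtain ⟨I, b, t, d, hb1, hb2, hb3⟩ := fock_adapted (fun j : J => lam (fockR e f j.1))
    (fun j => by rw [← map_star, fockR_star hd])
    (fun j => by rw [← map_mul, (fockR_mul hd _ _).1 rfl])
    (fun i j hij => by rw [← map_mul, (fockR_mul hd _ _).2 (fun h => hij (Subtype.ext h)), map_zero])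
    htot η
    (fun j => by
      have hp := n2_pos hτ j.2
      simp only [η]
      rw [norm_smul, ← n2_eq_norm h1, norm_inv, Complex.norm_real, Real.norm_eq_abs,
        abs_of_pos hp, inv_mul_cancel₀ hp.ne'])
    (fun j => by
      simp only [η]
      rw [map_smul, h2, (fockR_mul hd _ _).1 rfl])
  obtain ⟨H, i1, i2, i3, π, u, ι, Hp, Hm, k1, k2, k3, k4, k5, k6, k7, k8, k9⟩ :=
    fock_abstract lam b t d σ (fun j => Subtype.ext (fockS_S j.1)) hb3
  have hact : ∀ s n i, (fockC s n (t i).1 → lam (fockG e f s n) (b i) = b i) ∧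
      (¬ fockC s n (t i).1 → lam (fockG e f s n) (b i) = 0) := by
    intro s n i
    have h4 : lam (fockG e f s n) (b i) = lam (fockG e f s n * fockR e f (t i).1) (b i) := by
      rw [map_mul, mul_apply_eq_comp, hb1 i]
    rw [h4]
    constructor
    · intro h
      rw [(fockG_mul_R hd s n _).1 h]
      exact hb1 i
    · intro h
      rw [(fockG_mul_R hd s n _).2 h, map_zero]
      rfl
  refine ⟨H, i1, i2, i3, π, u, ι (hat 1), Hp, Hm, k1, k2, fun n => ?_, fun a => ?_, fun a => ?_,
    k7, fun a ha => k8 a fun j => ?_, k9⟩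
  · apply k3 (e n) (f n) (fun j => fockC true n j.1) (hact true n)
    intro i
    have h4 : fockC true n (σ (t i)).1 ↔ fockC false n (t i).1 := fockC_S true n _
    rw [h4]
    exact hact false n i
  · rw [k5, k4, h2, h1]
    simp
  · rw [k5]
    exact k6 _
  · rw [hb2]
    simp only [η]
    rw [map_smul, inner_smul_left, inner_smul_right, h2, h1, fockR_star hd, tr_comm hτ,
      mul_assoc a, (fockR_mul hd _ _).1 rfl, tr_comm hτ, fockR_ker ha]
    simp

end Crest.Agent.R120
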