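import Crest.Agent.R120.Trace

/-! Row 120: passing to a quotient on which a tracial state is faithful. -/

set_option autoImplicit false
set_option linter.style.haveILetI false
set_option linter.unusedSectionVars false

open Filter Topology Crest.OpAlg
open scoped InnerProductSpace

noncomputable section

namespace Crest.Agent.R120

theorem exists_faithful_quot {S : Type} [CStarAlgebra S] {σ : S →ₗ[ℂ] ℂ} (hσ : IsState σ)
    (htr : ∀ x y, σ (x * y) = σ (y * x)) :
    ∃ (A : Type) (_ : CStarAlgebra A) (τ : A →ₗ[ℂ] ℂ) (q : S →⋆ₐ[ℂ] A),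
      IsFaithfulTracialState τ ∧ (∀ x, τ (q x) = σ x) ∧ DenseRange q := by
  obtain ⟨H, _, _, _, hat, lam, h1, h2, h3⟩ := exists_gns hσ
  let B : StarSubalgebra ℂ (H →L[ℂ] H) := lam.range.topologicalClosure
  haveI hB : IsClosed (B : Set (H →L[ℂ] H)) := StarSubalgebra.isClosed_topologicalClosure _
  have hmem : ∀ x, lam x ∈ B := fun x => StarSubalgebra.le_topologicalClosure _ ⟨x, rfl⟩
  let q : S →⋆ₐ[ℂ] B := lam.codRestrict B hmem
  have hq : ∀ x, ((q x : B) : H →L[ℂ] H) = lam x := fun x => rfl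
  let τ : B →ₗ[ℂ] ℂ :=
    { toFun := fun T => ⟪hat 1, (T : H →L[ℂ] H) (hat 1)⟫_ℂ
      map_add' := fun T T' => by simp
      map_smul' := fun c T => by simp }
  have hτ : ∀ T : B, τ T = ⟪hat 1, (T : H →L[ℂ] H) (hat 1)⟫_ℂ := fun T => rfl
  have hτq : ∀ x, τ (q x) = σ x := by
    intro x
    rw [hτ, hq, h2, h1]; simp
  have hdense : DenseRange q := by
    intro T
    rw [closure_subtype]
    have : (Subtype.val '' Set.range q) = (lam.range : Set (H →L[ℂ] H)) := by
      ext y
      constructor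
      · rintro ⟨_, ⟨x, rfl⟩, rfl⟩; exact ⟨x, rfl⟩
      · rintro ⟨x, rfl⟩; exact ⟨q x, ⟨x, rfl⟩, rfl⟩
    rw [this]
    exact T.2
  have hτc : Continuous τ := by
    change Continuous fun T : B => ⟪hat 1, (T : H →L[ℂ] H) (hat 1)⟫_ℂ
    fun_prop
  have hsq : ∀ T : B, τ (star T * T) = ((‖(T : H →L[ℂ] H) (hat 1)‖ ^ 2 : ℝ) : ℂ) := by
    intro T
    rw [hτ]
    change ⟪hat 1, (star (T : H →L[ℂ] H) * (T : H →L[ℂ] H)) (hat 1)⟫_ℂ = _
    rw [mul_apply_eq_comp, ContinuousLinearMap.star_eq_adjoint,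
      ContinuousLinearMap.adjoint_inner_right, inner_self_eq_norm_sq_to_K]
    simp
  have hstar : ∀ z, n2 σ (star z) = n2 σ z := by
    intro z
    simp only [n2, star_star]; rw [htr]
  have hbound : ∀ (T : B) (y : S),
      ‖(T : H →L[ℂ] H) (hat y)‖ ≤ ‖y‖ * ‖(T : H →L[ℂ] H) (hat 1)‖ := by
    intro T y
    refine hdense.induction_on T (isClosed_le (by fun_prop) (by fun_prop)) fun x => ?_
    rw [hq, h2, h2, ← n2_eq_norm h1, ← n2_eq_norm h1, mul_one, ← hstar, star_mul, ← hstar x,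
      ← norm_star y]
    exact hσ.n2_mul_le _ _
  refine ⟨B, inferInstance, τ, q, ⟨?_, ?_, ?_, ?_⟩, hτq, hdense⟩
  · rw [← map_one q, hτq, hσ.1]
  · intro T
    rw [hsq]
    exact ⟨Complex.ofReal_im _, by rw [Complex.ofReal_re]; positivity⟩
  · intro T hT
    rw [hsq, Complex.ofReal_eq_zero, pow_eq_zero_iff two_ne_zero] at hT
    apply Subtype.ext
    ext v
    refine h3.induction_on v (isClosed_eq (by fun_prop) (by fun_prop)) fun y => ?_
    have := hbound T y
    rw [hT, mul_zero] at this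
    simpa using this
  · intro T T'
    refine hdense.induction_on₂ (p := fun T T' => τ (T * T') = τ (T' * T))
      (isClosed_eq (by fun_prop) (by fun_prop)) (fun x y => ?_) T T'
    rw [← map_mul, ← map_mul, hτq, hτq, htr]

end Crest.Agent.R120
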