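import Crest.Agent.R120.Commute
import Crest.Agent.R120.Fock
import Crest.Agent.R120.Quot

/-! Row 120: existence of the free extension. -/

set_option autoImplicit false
set_option linter.style.haveILetI false
set_option linter.unusedSectionVars false

open Filter Topology Crest.OpAlg
open scoped InnerProductSpace

noncomputable section

namespace Crest.Agent.R120

theorem gen_map_le_of_subtype {P A' : Type*} [CStarAlgebra P] [CStarAlgebra A'] (s : Set P)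
    [hS : IsClosed (gen s : Set P)] (q : gen s →⋆ₐ[ℂ] A') {G : StarSubalgebra ℂ A'}
    (hG : IsClosed (G : Set A')) (h : ∀ x : gen s, (x : P) ∈ s → q x ∈ G) (x : gen s) :
    q x ∈ G := by
  have hcl : IsClosed (((G.comap q).map (gen s).subtype : StarSubalgebra ℂ P) : Set P) :=
    hS.isClosedEmbedding_subtypeVal.isClosedMap _ (hG.preimage (hom_continuous q))
  obtain ⟨y, hy, hxy⟩ := gen_le hcl (fun z hz =>
    ⟨⟨z, subset_gen _ hz⟩, h ⟨z, subset_gen _ hz⟩ hz, rfl⟩) x.2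
  have : y = x := Subtype.ext hxy
  rw [← this]; exact hy

theorem exists_free_ext {A : Type} [CStarAlgebra A] {τ : A →ₗ[ℂ] ℂ}
    (hτ : IsFaithfulTracialState τ) {e f : ℕ → A} (hd : Data τ e f) (he : ∀ x, Exc e x)
    (hf : ∀ x, Exc f x) :
    ∃ (A' : Type) (_ : CStarAlgebra A') (τ' : A' →ₗ[ℂ] ℂ) (ι : A →⋆ₐ[ℂ] A') (u : A'),
      IsFaithfulTracialState τ' ∧ (∀ a, τ' (ι a) = τ a) ∧ star u = u ∧ u * u = 1 ∧
      (∀ n, u * ι (e n) * u = ι (f n)) ∧
      Free τ' (fun n => ι (e n)) (fun n => ι (f n)) ι.range u ∧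
      gen (insert u (ι.range : Set A')) = ⊤ := by
  obtain ⟨H, _, _, _, π, u, Ω, Hp, Hm, hu1, hu2, hu3, hΩ, hp1, hp2, hp3, hp4⟩ := exists_fock hτ hd
  let σ : (H →L[ℂ] H) →ₗ[ℂ] ℂ :=
    { toFun := fun T => ⟪Ω, T Ω⟫_ℂ
      map_add' := fun T T' => by simp
      map_smul' := fun c T => by simp }
  have hσ : ∀ T, σ T = ⟪Ω, T Ω⟫_ℂ := fun _ => rfl
  have hπ : ∀ a, σ (π a) = τ a := hΩ
  have hst : IsState σ := by
    refine ⟨by rw [← map_one π, hπ, hτ.1], fun T => ?_⟩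
    have e1 : σ (star T * T) = ⟪T Ω, T Ω⟫_ℂ := by
      rw [hσ, ← ContinuousLinearMap.adjoint_inner_right, ← ContinuousLinearMap.star_eq_adjoint]
      rfl
    rw [e1]
    exact ⟨inner_self_im (𝕜 := ℂ) _, inner_self_nonneg (𝕜 := ℂ)⟩
  have hd' := hd.map π hπ
  have hBc := isClosed_range π hπ hτ
  set B := π.range with hB
  set e' : ℕ → (H →L[ℂ] H) := fun n => π (e n) with he'
  set f' : ℕ → (H →L[ℂ] H) := fun n => π (f n) with hf'
  have heB : ∀ n, e' n ∈ B := fun n => ⟨e n, rfl⟩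
  have hfB : ∀ n, f' n ∈ B := fun n => ⟨f n, rfl⟩
  have htrB : ∀ x ∈ B, ∀ y ∈ B, σ (x * y) = σ (y * x) := by
    rintro _ ⟨x, rfl⟩ _ ⟨y, rfl⟩
    show σ (π x * π y) = σ (π y * π x)
    rw [← map_mul, ← map_mul, hπ, hπ, tr_comm hτ]
  have hDB : ∀ d ∈ Dalg e' f', d ∈ B := fun d hd => Dalg_mem_sub hBc heB hfB hd
  have hp : PreStep B (Dalg e' f') (KB σ e' f' B) u :=
    { D_le := hDB
      K_le := Set.inter_subset_left
      decomp := by
        rintro _ ⟨x, rfl⟩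
        obtain ⟨d, hdD, hk, -⟩ := exists_decomp hτ hd (he x) (hf x)
        refine ⟨π d, Dalg_map_mem π.toLinearMap (hom_continuous π) isClosed_Dalg ?_ ?_ ?_ hdD,
          ⟨x - d, map_sub π x d⟩, ?_⟩
        · simpa using one_mem_Dalg
        · exact fun n => e_mem_Dalg (e := e') n
        · exact fun n => f_mem_Dalg (f := f') n
        · have := (map_mem_Ker_iff π hπ).mpr hk
          rwa [map_sub] at this
      u_sa := hu1
      u_sq := hu2
      conj := fun _ h => conj_mem_Dalg hu2 hu3 h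
      mul_K := fun d h k hk => ⟨mul_mem (hDB d h) hk.1, hd'.Dalg_mul_mem_Ker hst h hk.2⟩
      K_mul := fun d h k hk => by
        refine ⟨mul_mem hk.1 (hDB d h), ?_, fun n => ?_, fun n => ?_⟩
        · rw [htrB _ hk.1 _ (hDB d h)]; exact tr_Dalg_mul_Ker hst h hk.2
        · rw [← mul_assoc, htrB _ (mul_mem (heB n) hk.1) _ (hDB d h), ← mul_assoc]
          exact tr_Dalg_mul_Ker hst (hd'.mul_mem_Dalg h (e_mem_Dalg n)) hk.2
        · rw [← mul_assoc, htrB _ (mul_mem (hfB n) hk.1) _ (hDB d h), ← mul_assoc]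
          exact tr_Dalg_mul_Ker hst (hd'.mul_mem_Dalg h (f_mem_Dalg n)) hk.2
      star_K := by
        rintro _ ⟨⟨x, rfl⟩, hk⟩
        refine ⟨star_mem (⟨x, rfl⟩ : π x ∈ B), ?_⟩
        have := (map_mem_Ker_iff π hπ).mpr (star_mem_Ker hτ hd ((map_mem_Ker_iff π hπ).mp hk))
        rwa [map_star] at this }
  have hneg : ∀ w, Neg B (KB σ e' f' B) u w → w Ω ∈ Hm := by
    intro w hw
    induction hw with
    | base ha =>
      obtain ⟨x, rfl⟩ := ha
      exact hp2 _ (hp1 x)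
    | step ha _ ih =>
      obtain ⟨⟨x, rfl⟩, hk⟩ := ha
      exact hp2 _ (hp3 x ((map_mem_Ker_iff π hπ).mp hk) _ ih)
  have hfree : ∀ b ∈ B, ∀ w, Neg B (KB σ e' f' B) u w → σ (b * w) = 0 := by
    rintro _ ⟨x, rfl⟩ w hw
    show ⟪Ω, π x (w Ω)⟫_ℂ = 0
    rw [← ContinuousLinearMap.adjoint_inner_left, ← ContinuousLinearMap.star_eq_adjoint,
      ← map_star]
    exact hp4 _ (hp1 _) _ (hneg w hw)
  haveI hS : IsClosed (gen (insert u (B : Set (H →L[ℂ] H))) : Set (H →L[ℂ] H)) := isClosed_gen _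
  set S := gen (insert u (B : Set (H →L[ℂ] H))) with hSdef
  have hBS : ∀ a, π a ∈ S := fun a => subset_gen _ (Set.mem_insert_of_mem _ ⟨a, rfl⟩)
  have huS : u ∈ S := subset_gen _ (Set.mem_insert _ _)
  let σS : S →ₗ[ℂ] ℂ := σ ∘ₗ S.subtype.toLinearMap
  have hσS : ∀ x : S, σS x = σ x := fun _ => rfl
  obtain ⟨A', _, τ', q, hτ', hq, hdense⟩ := exists_faithful_quot (S := S) (σ := σS)
    ⟨hst.1, fun x => hst.2 x⟩ (fun x y => hp.tracial hst.continuous hfree htrB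
      (fun k hk => hk.2.1) (fun d h => tr_conj_Dalg hu2 hu3 hst hd'.tr_eq h)
      (fun d h d' h' => hd'.mul_mem_Dalg h h') x.2 y.2)
  let ι : A →⋆ₐ[ℂ] A' := q.comp (π.codRestrict S hBS)
  have hι : ∀ a, ι a = q ⟨π a, hBS a⟩ := fun _ => rfl
  have hιτ : ∀ a, τ' (ι a) = τ a := fun a => by rw [hι, hq, hσS]; exact hπ a
  refine ⟨A', inferInstance, τ', ι, q ⟨u, huS⟩, hτ', hιτ, ?_, ?_, fun n => ?_, ?_, ?_⟩
  · rw [← map_star]; congr 1; exact Subtype.ext hu1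
  · rw [← map_mul, ← map_one q]; congr 1; exact Subtype.ext hu2
  · rw [hι, hι, ← map_mul, ← map_mul]; congr 1; exact Subtype.ext (hu3 n)
  · intro w hw
    obtain ⟨v, hv, rfl⟩ := hw.lift (B := {x : S | x.1 ∈ B}) (K := {x : S | x.1 ∈ KB σ e' f' B}) q
      (by rintro _ ⟨a, rfl⟩; exact ⟨⟨π a, hBS a⟩, ⟨a, rfl⟩, rfl⟩)
      (by
        rintro _ ⟨⟨a, rfl⟩, hk⟩
        exact ⟨⟨π a, hBS a⟩, ⟨⟨a, rfl⟩,
          (map_mem_Ker_iff π hπ).mpr ((map_mem_Ker_iff ι hιτ).mp hk)⟩, rfl⟩)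
    rw [hq, hσS]
    have := hv.map S.subtype (B₂ := B) (K₂ := KB σ e' f' B) (fun _ h => h) (fun _ h => h)
    simpa using hfree 1 (one_mem B) _ this
  · refine eq_top_iff.mpr fun y _ => ?_
    refine (isClosed_gen _).closure_subset_iff.mpr ?_ (hdense y)
    rintro _ ⟨x, rfl⟩
    refine gen_map_le_of_subtype _ q (isClosed_gen _) ?_ x
    rintro z (hz | ⟨a, hz⟩)
    · have : z = ⟨u, huS⟩ := Subtype.ext hz
      rw [this]; exact subset_gen _ (Set.mem_insert _ _)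
    · have : z = ⟨π a, hBS a⟩ := Subtype.ext hz.symm
      rw [this]; exact subset_gen _ (Set.mem_insert_of_mem _ ⟨a, rfl⟩)

end Crest.Agent.R120
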