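import Crest.Agent.R120.Trace

/-! Row 120: projections squeezed between the terms of a nested sequence. -/

set_option autoImplicit false
set_option linter.style.haveILetI false
set_option linter.unusedSectionVars false

open Filter Topology Crest.OpAlg
open scoped InnerProductSpace

noncomputable section

namespace Crest.Agent.R120

section Order

variable {A : Type*} [CStarAlgebra A] [PartialOrder A] [StarOrderedRing A]

theorem proj_norm_bound {b c q : A} {K M : ℝ} (hK : 0 ≤ K) (hM : 0 ≤ M) (hb : 0 ≤ b)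
    (hq : star q = q) (hqc : q * q = c) (hcb : c ≤ K • b) {φ : ℝ → ℝ}
    (hφ : ContinuousOn φ (Set.Ici 0)) (hbd : ∀ t, 0 ≤ t → φ t * t * φ t ≤ M) :
    ‖q * cfc (fun t => φ t * φ t) b * q‖ ≤ K * M := by
  have hsp : ∀ t ∈ spectrum ℝ b, 0 ≤ t := fun t ht => spectrum_nonneg_of_nonneg hb ht
  have hφ' : ContinuousOn φ (spectrum ℝ b) := hφ.mono hsp
  have hsa : IsSelfAdjoint b := hb.isSelfAdjoint
  set X := cfc φ b with hX
  have hXs : star X = X := (cfc_predicate φ b : IsSelfAdjoint _)
  have e1 : q * cfc (fun t => φ t * φ t) b * q = star (X * q) * (X * q) := by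
    rw [cfc_mul φ φ b, star_mul, hq, hXs, ← hX]; noncomm_ring
  have e2 : (X * q) * star (X * q) = star X * c * X := by
    rw [star_mul, hq, hXs, ← hqc]; noncomm_ring
  have hc0 : 0 ≤ c := by
    rw [← hqc]; nth_rewrite 1 [← hq]; exact star_mul_self_nonneg q
  have e3 : star X * (K • b) * X = K • cfc (fun t => φ t * t * φ t) b := by
    rw [hXs, cfc_mul (fun t => φ t * t) φ b (hφ'.mul continuousOn_id) hφ',
      cfc_mul φ (fun t => t) b hφ' continuousOn_id, cfc_id' ℝ b, ← hX]
    simp [mul_assoc]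
  rw [e1, CStarRing.norm_star_mul_self, ← CStarRing.norm_self_mul_star, e2]
  refine (CStarAlgebra.norm_le_norm_of_nonneg_of_le (star_left_conjugate_nonneg hc0 X)
    (star_left_conjugate_le_conjugate hcb X)).trans ?_
  rw [e3, norm_smul, Real.norm_of_nonneg hK]
  refine mul_le_mul_of_nonneg_left (norm_cfc_le hM fun t ht => ?_) hK
  have h0 : 0 ≤ φ t * t * φ t := by
    have := mul_nonneg (hsp t ht) (mul_self_nonneg (φ t))
    linarith [show φ t * t * φ t = t * (φ t * φ t) by ring]
  rw [Real.norm_of_nonneg h0]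
  exact hbd t (hsp t ht)

theorem proj_sqrt_est {t ε : ℝ} (ht : 0 ≤ t) (hε : 0 < ε) :
    0 ≤ √t - t * (√(t + ε))⁻¹ ∧ √t - t * (√(t + ε))⁻¹ ≤ √ε := by
  have h1 : 0 < √(t + ε) := Real.sqrt_pos.mpr (by linarith)
  have h2 : √t ≤ √(t + ε) := Real.sqrt_le_sqrt (by linarith)
  have h3 : √t * √t = t := Real.mul_self_sqrt ht
  have h4 : 0 ≤ √t := Real.sqrt_nonneg t
  have h5 : √(t + ε) ≤ √t + √ε := by
    rw [Real.sqrt_le_left (by positivity)]
    have := Real.mul_self_sqrt hε.le
    have := Real.sqrt_nonneg ε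
    nlinarith
  have h6 : 0 ≤ √ε := Real.sqrt_nonneg ε
  have e : √t - t * (√(t + ε))⁻¹ = √t * (√(t + ε) - √t) / √(t + ε) := by
    field_simp
    nlinarith
  rw [e]
  constructor
  · exact div_nonneg (mul_nonneg h4 (by linarith)) h1.le
  · rw [div_le_iff₀ h1]
    nlinarith

/-- factorisation lemma -/
theorem proj_factor {B : StarSubalgebra ℂ A} (hB : IsClosed (B : Set A)) {y c : A} (hy : y ∈ B)
    (hc : c ∈ B) (hc0 : 0 ≤ c) {K : ℝ} (hK : 0 ≤ K) (hcb : c ≤ K • (star y * y)) :
    ∃ z ∈ B, star z * z = c ∧ ∀ p : A, p * y = 0 → p * z = 0 := by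
  set b := star y * y with hbdef
  have hb : 0 ≤ b := star_mul_self_nonneg y
  have hbB : b ∈ B := mul_mem (star_mem hy) hy
  have hsa : IsSelfAdjoint b := hb.isSelfAdjoint
  have hsp : ∀ t ∈ spectrum ℝ b, 0 ≤ t := fun t ht => spectrum_nonneg_of_nonneg hb ht
  set q := cfc Real.sqrt c with hqdef
  have hq : star q = q := (cfc_predicate Real.sqrt c : IsSelfAdjoint _)
  have hqB : q ∈ B := cfc_mem (𝕜' := ℂ) (hs := hB) Real.sqrt hc
  have hqc : q * q = c := by
    have hsc : IsSelfAdjoint c := hc0.isSelfAdjoint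
    rw [hqdef, ← cfc_mul _ _ c]
    nth_rewrite 2 [← cfc_id' ℝ c]
    exact cfc_congr fun t ht => Real.mul_self_sqrt (spectrum_nonneg_of_nonneg hc0 ht)
  let ε : ℕ → ℝ := fun k => 1 / ((k : ℝ) + 1)
  have hε : ∀ k, 0 < ε k := fun k => by positivity
  have hεlim : Tendsto ε atTop (𝓝 0) := tendsto_one_div_add_atTop_nhds_zero_nat
  let ρ : ℕ → ℝ → ℝ := fun k t => (√(t + ε k))⁻¹
  have hρ : ∀ k, ContinuousOn (ρ k) (Set.Ici 0) := fun k => by
    refine ContinuousOn.inv₀ (by fun_prop) fun t ht => ?_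
    exact (Real.sqrt_pos.mpr (by linarith [hε k, Set.mem_Ici.mp ht])).ne'
  have hρ' : ∀ k, ContinuousOn (ρ k) (spectrum ℝ b) := fun k => (hρ k).mono hsp
  let z : ℕ → A := fun k => y * cfc (ρ k) b * q
  have hzB : ∀ k, z k ∈ B := fun k =>
    mul_mem (mul_mem hy (cfc_mem (𝕜' := ℂ) (hs := hB) (ρ k) hbB)) hqB
  -- the general formula for `star (y h q) * (y h q)`
  have hform : ∀ h : ℝ → ℝ, ContinuousOn h (spectrum ℝ b) →
      star (y * cfc h b * q) * (y * cfc h b * q) = q * cfc (fun t => h t * t * h t) b * q := by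
    intro h hh
    have hs : star (cfc h b) = cfc h b := (cfc_predicate h b : IsSelfAdjoint _)
    rw [cfc_mul (fun t => h t * t) h b (hh.mul continuousOn_id) hh,
      cfc_mul h (fun t => t) b hh continuousOn_id, cfc_id' ℝ b, star_mul, star_mul, hq, hs]
    rw [hbdef]
    noncomm_ring
  have hcauchy : CauchySeq z := by
    refine cauchySeq_of_le_tendsto_0 (fun N => √(K * ε N)) (fun k j N hk hj => ?_) ?_
    · rw [dist_eq_norm]
      refine Real.le_sqrt_of_sq_le ?_
      have e1 : z k - z j = y * cfc (fun t => ρ k t - ρ j t) b * q := by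
        rw [cfc_sub _ _ b (hρ' k) (hρ' j)]
        simp only [z]
        noncomm_ring
      rw [sq, ← CStarRing.norm_star_mul_self, e1,
        hform (fun t => ρ k t - ρ j t) ((hρ' k).sub (hρ' j))]
      have e2 : cfc (fun t => (ρ k t - ρ j t) * t * (ρ k t - ρ j t)) b =
          cfc (fun t => (√t * (ρ k t - ρ j t)) * (√t * (ρ k t - ρ j t))) b := by
        refine cfc_congr fun t ht => ?_
        have := Real.mul_self_sqrt (hsp t ht)
        linear_combination (-(ρ k t - ρ j t) ^ 2) * this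
      rw [e2]
      refine proj_norm_bound hK (hε N).le hb hq hqc hcb (φ := fun t => √t * (ρ k t - ρ j t))
        (Real.continuous_sqrt.continuousOn.mul ((hρ k).sub (hρ j))) fun t ht => ?_
      have hkN : ε k ≤ ε N := by
        simp only [ε]
        exact one_div_le_one_div_of_le (by positivity) (by exact_mod_cast Nat.succ_le_succ hk)
      have hjN : ε j ≤ ε N := by
        simp only [ε]
        exact one_div_le_one_div_of_le (by positivity) (by exact_mod_cast Nat.succ_le_succ hj)
      obtain ⟨a1, a2⟩ := proj_sqrt_est ht (hε k)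
      obtain ⟨b1, b2⟩ := proj_sqrt_est ht (hε j)
      have c1 := Real.sqrt_le_sqrt hkN
      have c2 := Real.sqrt_le_sqrt hjN
      have h3 := Real.mul_self_sqrt ht
      have h4 := Real.mul_self_sqrt (hε N).le
      have e3 : √t * (ρ k t - ρ j t) * t * (√t * (ρ k t - ρ j t)) =
          (t * ρ k t - t * ρ j t) ^ 2 := by
        linear_combination (t * (ρ k t - ρ j t) ^ 2) * h3
      rw [e3, ← h4, ← sq]
      refine sq_le_sq' ?_ ?_
      · simp only [ρ]; linarith
      · simp only [ρ]; linarith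
    · have := (hεlim.const_mul K).sqrt
      simpa using this
  obtain ⟨w, hw⟩ := cauchySeq_tendsto_of_complete hcauchy
  refine ⟨w, hB.mem_of_tendsto hw (Eventually.of_forall hzB), ?_, fun p hp => ?_⟩
  · have h1 : Tendsto (fun k => star (z k) * z k) atTop (𝓝 (star w * w)) := hw.star.mul hw
    have h2 : Tendsto (fun k => star (z k) * z k) atTop (𝓝 c) := by
      rw [tendsto_iff_norm_sub_tendsto_zero]
      have h3 : Tendsto (fun k => K * ε k) atTop (𝓝 0) := by simpa using hεlim.const_mul K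
      refine squeeze_zero (fun _ => norm_nonneg _) (fun k => ?_) h3
      have e1 : star (z k) * z k - c =
          -(q * cfc (fun t => (√(ε k) * ρ k t) * (√(ε k) * ρ k t)) b * q) := by
        have e2 : cfc (fun t => (√(ε k) * ρ k t) * (√(ε k) * ρ k t)) b =
            1 - cfc (fun t => ρ k t * t * ρ k t) b := by
          rw [← cfc_const_one ℝ b, ← cfc_sub (fun _ => (1 : ℝ)) (fun t => ρ k t * t * ρ k t) b
            continuousOn_const (((hρ' k).mul continuousOn_id).mul (hρ' k))]
          refine cfc_congr fun t ht => ?_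
          have h5 := Real.mul_self_sqrt (hε k).le
          have h6 : 0 < t + ε k := by linarith [hsp t ht, hε k]
          have h7 := Real.mul_self_sqrt h6.le
          have h8 : ρ k t * √(t + ε k) = 1 := inv_mul_cancel₀ (Real.sqrt_pos.mpr h6).ne'
          have h9 : ρ k t * ρ k t * (t + ε k) = 1 := by
            rw [← h7]; linear_combination (ρ k t * √(t + ε k) + 1) * h8
          linear_combination (ρ k t * ρ k t) * h5 + h9
        simp only [z]
        rw [hform _ (hρ' k), e2, ← hqc]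
        noncomm_ring
      rw [e1, norm_neg]
      refine proj_norm_bound hK (hε k).le hb hq hqc hcb (φ := fun t => √(ε k) * ρ k t)
        (continuousOn_const.mul (hρ k)) fun t ht => ?_
      have h5 := Real.mul_self_sqrt (hε k).le
      have h6 : 0 < t + ε k := by linarith [hε k]
      have h7 := Real.mul_self_sqrt h6.le
      have h8 : ρ k t * √(t + ε k) = 1 := inv_mul_cancel₀ (Real.sqrt_pos.mpr h6).ne'
      have h9 : ρ k t * ρ k t * (t + ε k) = 1 := by
        rw [← h7]; linear_combination (ρ k t * √(t + ε k) + 1) * h8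
      have h10 : 0 ≤ ρ k t * ρ k t * ε k := mul_nonneg (mul_self_nonneg _) (hε k).le
      have e4 : √(ε k) * ρ k t * t * (√(ε k) * ρ k t) = ε k * (ρ k t * ρ k t * t) := by
        linear_combination (ρ k t * ρ k t * t) * h5
      rw [e4]
      have h11 : ρ k t * ρ k t * t ≤ 1 := by nlinarith
      nlinarith [hε k]
    exact tendsto_nhds_unique h1 h2
  · have h1 : Tendsto (fun k => p * z k) atTop (𝓝 (p * w)) := hw.const_mul p
    have h2 : (fun k => p * z k) = fun _ => 0 := by
      funext k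
      simp only [z]
      rw [← mul_assoc, ← mul_assoc, hp, zero_mul, zero_mul]
    rw [h2] at h1
    exact (tendsto_nhds_unique h1 tendsto_const_nhds)

/-- comparison from the 2-norms -/
theorem proj_cmp {τ : A →ₗ[ℂ] ℂ} (hτ : IsFaithfulTracialState τ) {B : StarSubalgebra ℂ A}
    (hB : IsClosed (B : Set A)) {y s : A} (hy : y ∈ B) (hs : s ∈ B) {δ : ℝ} (hδ : 0 < δ)
    (h : ∀ z ∈ B, δ * n2 τ (s * z) ≤ n2 τ (y * z)) :
    star s * s ≤ (δ ^ 2)⁻¹ • (star y * y) := by
  have hst := isState_of_tr hτ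
  obtain ⟨x, -, hx, hxy⟩ := exists_eq_star_mul_self_of_tr hτ hB
    (h := (((δ ^ 2)⁻¹ : ℝ) : ℂ) • (star y * y) - star s * s)
    (sub_mem (SMulMemClass.smul_mem _ (mul_mem (star_mem hy) hy)) (mul_mem (star_mem hs) hs))
    (by simp [star_smul]) (fun z hz => by
      have e : star z * ((((δ ^ 2)⁻¹ : ℝ) : ℂ) • (star y * y) - star s * s) * z
          = (((δ ^ 2)⁻¹ : ℝ) : ℂ) • (star (y * z) * (y * z)) - star (s * z) * (s * z) := by
        simp [mul_sub, sub_mul, mul_assoc]
      rw [e, map_sub, map_smul, hst.apply_star_mul_self, hst.apply_star_mul_self, smul_eq_mul,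
        ← Complex.ofReal_mul, ← Complex.ofReal_sub, Complex.ofReal_re]
      have h1 := h z hz
      have h0 := n2_nonneg τ (s * z)
      have h2 : (δ * n2 τ (s * z)) ^ 2 ≤ n2 τ (y * z) ^ 2 :=
        pow_le_pow_left₀ (mul_nonneg hδ.le h0) h1 2
      rw [sub_nonneg, inv_mul_eq_div, le_div_iff₀ (by positivity)]
      nlinarith)
  rw [← sub_nonneg, ← Complex.coe_smul, hxy]
  nth_rewrite 1 [← hx]
  exact star_mul_self_nonneg x

end Order

theorem proj_nest_mul {A : Type*} [CStarAlgebra A] {τ : A →ₗ[ℂ] ℂ} {a : ℕ → A} (ha : Nest τ a)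
    {i j : ℕ} (h : i < j) : a i * a j = a j := by
  induction j, h using Nat.le_induction with
  | base => exact ha.nest i
  | succ j _ ih => rw [← ha.nest j, ← mul_assoc, ih]

theorem proj_nest_mul' {A : Type*} [CStarAlgebra A] {τ : A →ₗ[ℂ] ℂ} {a : ℕ → A} (ha : Nest τ a)
    {i j : ℕ} (h : i < j) : a j * a i = a j := by
  have := congrArg star (proj_nest_mul ha h)
  rwa [star_mul, ha.sa, ha.sa] at this

theorem exists_proj {A : Type*} [CStarAlgebra A] {τ : A →ₗ[ℂ] ℂ} (hτ : IsFaithfulTracialState τ)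
    {B B' : StarSubalgebra ℂ A} (hB' : IsClosed (B' : Set A)) (hBB' : B ≤ B') {u : A}
    (hu : u ∈ B')
    (hcmp : ∀ r ∈ B, ∀ s ∈ B, ∀ t ∈ B, star t = t → t * s = s → ∀ z ∈ B',
      (n2 τ r * (1 - n2 τ t) - ‖r‖ * n2 τ t) * n2 τ (s * z) ≤ n2 τ (r * u * s * z))
    {g : ℕ → ℕ → A} (hg : IsBase τ g) (hgB : ∀ N i, g N i ∈ B) {a : ℕ → A} (ha : Nest τ a)
    (haB : ∀ n, a n ∈ B) (hne : ∀ n, a n ≠ 0) (n : ℕ) :
    ∃ N₀ : ℕ, ∀ N ≥ N₀, ∃ m > n, ∃ p ∈ B', IsStarProjection p ∧ τ p = 1 / ((N : ℂ) + 1) ∧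
      a n * p = p ∧ p * a m = a m := by
  letI : PartialOrder A := CStarAlgebra.spectralOrder A
  haveI : StarOrderedRing A := CStarAlgebra.spectralOrderedRing A
  have hst := isState_of_tr hτ
  obtain ⟨m₀, hm₀, hr0⟩ : ∃ m₀ > n + 1, a (n + 1) - a m₀ ≠ 0 := by
    by_contra hcon
    push Not at hcon
    refine hne (n + 1) (eq_zero_of_n2 hτ ?_)
    have h1 : Tendsto (fun m => n2 τ (a m)) atTop (𝓝 (n2 τ (a (n + 1)))) := by
      refine tendsto_const_nhds.congr' ?_
      filter_upwards [eventually_gt_atTop (n + 1)] with m hm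
      rw [sub_eq_zero.mp (hcon m hm)]
    exact tendsto_nhds_unique h1 ha.small
  set r := a (n + 1) - a m₀ with hrdef
  have hrB : r ∈ B := sub_mem (haB _) (haB _)
  have hrpos : 0 < n2 τ r := n2_pos hτ hr0
  have hnr : a n * r = r := by
    rw [hrdef, mul_sub, proj_nest_mul ha (Nat.lt_succ_self n), proj_nest_mul ha (by omega)]
  have hlr : ∀ l > m₀, a l * r = 0 := fun l hl => by
    rw [hrdef, mul_sub, proj_nest_mul' ha (by omega), proj_nest_mul' ha hl, sub_self]
  -- the 2-norm of the base projections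
  have hγ : ∀ N : ℕ, n2 τ (g N 0) = √(1 / ((N : ℝ) + 1)) := fun N => by
    have h1 := hst.n2_sq_proj (hg.proj N 0)
    rw [hg.tr N 0 (Nat.zero_le N)] at h1
    have h2 : n2 τ (g N 0) ^ 2 = 1 / ((N : ℝ) + 1) := by
      have h3 : ((1 / ((N : ℝ) + 1) : ℝ) : ℂ) = ((n2 τ (g N 0) ^ 2 : ℝ) : ℂ) := by
        rw [← h1]; push_cast; rfl
      exact (Complex.ofReal_injective h3).symm
    rw [← h2, Real.sqrt_sq (n2_nonneg _ _)]
  have hγlim : Tendsto (fun N : ℕ => n2 τ (g N 0)) atTop (𝓝 0) := by
    simp only [hγ]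
    simpa using (tendsto_one_div_add_atTop_nhds_zero_nat (𝕜 := ℝ)).sqrt
  have hev : ∀ {x : A} {f : ℕ → ℝ}, 0 < n2 τ x → Tendsto f atTop (𝓝 0) →
      ∀ᶠ N in atTop, 0 < n2 τ x * (1 - f N) - ‖x‖ * f N := by
    intro x f hx hf
    have h1 := ((hf.const_sub 1).const_mul (n2 τ x)).sub (hf.const_mul ‖x‖)
    exact h1.eventually (lt_mem_nhds (by simpa using hx))
  obtain ⟨N₀, hN₀⟩ := eventually_atTop.mp (hev hrpos hγlim)
  refine ⟨N₀, fun N hN => ?_⟩
  have hδ₂ := hN₀ N hN
  set e := g N 0 with hedef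
  have he : IsStarProjection e := hg.proj N 0
  have hes : star e = e := he.isSelfAdjoint.star_eq
  have hee : e * e = e := he.isIdempotentElem.eq
  have heB : e ∈ B := hgB N 0
  have hepos : 0 < n2 τ e := by rw [hγ]; exact Real.sqrt_pos.mpr (by positivity)
  obtain ⟨l, hδ₁, hl⟩ := ((hev hepos ha.small).and (eventually_gt_atTop m₀)).exists
  set s := a (l + 1) with hsdef
  have hss : star s = s := ha.sa _
  have hsB : s ∈ B' := hBB' (haB _)
  -- first comparison
  have hy₁ : e * u * s ∈ B' := mul_mem (mul_mem (hBB' heB) hu) hsB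
  have c₁ := proj_cmp hτ hB' hy₁ hsB hδ₁ (hcmp e heB s (haB _) (a l) (haB _) (ha.sa _) (ha.nest l))
  obtain ⟨z, hzB, hzz, hz⟩ := proj_factor hB' hy₁ (mul_mem (star_mem hsB) hsB)
    (star_mul_self_nonneg s) (by positivity) c₁
  have hez : e * z = z := by
    have h1 := hz (e - 1) (by rw [sub_mul, one_mul, ← mul_assoc, ← mul_assoc, hee, sub_self])
    rwa [sub_mul, one_mul, sub_eq_zero] at h1
  have hsl : s * a l = s := proj_nest_mul' ha (Nat.lt_succ_self l)
  have hzl : z * a l = z := by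
    have h1 : z * (a l - 1) = 0 := by
      rw [← CStarRing.star_mul_self_eq_zero_iff]
      have h2 : s * (a l - 1) = 0 := by rw [mul_sub, hsl, mul_one, sub_self]
      rw [star_mul, mul_assoc, ← mul_assoc (star z), hzz, mul_assoc, h2, mul_zero, mul_zero]
    rwa [mul_sub, mul_one, sub_eq_zero] at h1
  have hzn : ‖z * star z‖ ≤ 1 := by
    rw [CStarRing.norm_self_mul_star, ← CStarRing.norm_star_mul_self, hzz,
      CStarRing.norm_star_mul_self]
    exact mul_le_one₀ (ha.norm_le _) (norm_nonneg _) (ha.norm_le _)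
  have hze : z * star z ≤ e := by
    have h1 : z * star z ≤ 1 :=
      (CStarAlgebra.norm_le_one_iff_of_nonneg _ (mul_star_self_nonneg z)).mp hzn
    have h2 := star_left_conjugate_le_conjugate h1 e
    have h3 : star z * e = star z := by
      have := congrArg star hez
      rwa [star_mul, hes] at this
    rwa [hes, mul_one, hee, ← mul_assoc, hez, mul_assoc, h3] at h2
  -- second comparison
  have hy₂ : r * u * e ∈ B' := mul_mem (mul_mem (hBB' hrB) hu) (hBB' heB)
  have c₂ := proj_cmp hτ hB' hy₂ (hBB' heB) hδ₂ (hcmp r hrB e heB e heB hes hee)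
  rw [hes, hee] at c₂
  obtain ⟨y, hyB, hyy, hy⟩ := proj_factor hB' hy₂ (c := e - z * star z)
    (sub_mem (hBB' heB) (mul_mem hzB (star_mem hzB))) (sub_nonneg.mpr hze) (by positivity)
    ((sub_le_self e (mul_star_self_nonneg z)).trans c₂)
  have hny : a n * y = y := by
    have h1 := hy (a n - 1) (by rw [sub_mul, one_mul, ← mul_assoc, ← mul_assoc, hnr, sub_self])
    rwa [sub_mul, one_mul, sub_eq_zero] at h1
  have hly : a l * y = 0 := hy _ (by rw [← mul_assoc, ← mul_assoc, hlr l hl, zero_mul, zero_mul])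
  set c := a (l + 2) with hcdef
  have hcs : star c = c := ha.sa _
  have hcy : c * y = 0 := by
    rw [hcdef, ← proj_nest_mul' ha (show l < l + 2 by omega), mul_assoc, hly, mul_zero]
  have hyc : star y * c = 0 := by
    have := congrArg star hcy
    rwa [star_mul, hcs, star_zero] at this
  have hsc : s * c = c := ha.nest (l + 1)
  have hzy : z * y = 0 := by rw [← hzl, mul_assoc, hly, mul_zero]
  have hyz : star y * star z = 0 := by rw [← star_mul, hzy, star_zero]
  set v := star z + y with hvdef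
  have hvv : star v * v = e := by
    rw [hvdef, star_add, star_star, add_mul, mul_add, mul_add, hzy, hyz, hyy]; abel
  have hve : v * e = v := by
    have h1 : v * (e - 1) = 0 := by
      rw [← CStarRing.star_mul_self_eq_zero_iff, star_mul, mul_assoc, ← mul_assoc (star v), hvv,
        mul_sub, hee, mul_one, sub_self, mul_zero]
    rwa [mul_sub, mul_one, sub_eq_zero] at h1
  have hnv : a n * v = v := by
    have h1 : a l * star z = star z := by
      have := congrArg star hzl
      rwa [star_mul, ha.sa] at this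
    rw [hvdef, mul_add, hny, ← h1, ← mul_assoc, proj_nest_mul ha (by omega)]
  refine ⟨l + 2, by omega, v * star v,
    mul_mem (add_mem (star_mem hzB) hyB) (star_mem (add_mem (star_mem hzB) hyB)), ⟨?_, ?_⟩, ?_, ?_, ?_⟩
  · change v * star v * (v * star v) = v * star v
    rw [mul_assoc, ← mul_assoc (star v), hvv, ← mul_assoc, hve]
  · exact IsSelfAdjoint.mul_star_self v
  · rw [tr_comm hτ, hvv]; exact hg.tr N 0 (Nat.zero_le N)
  · rw [← mul_assoc, hnv]
  · have h1 : star v * c = z * c := by rw [hvdef, star_add, star_star, add_mul, hyc, add_zero]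
    have hzc : star z * (z * c) = c := by rw [← mul_assoc, hzz, hss, mul_assoc, hsc, hsc]
    have h2 : y * (z * c) = 0 := by
      rw [← CStarRing.star_mul_self_eq_zero_iff, star_mul, mul_assoc, ← mul_assoc (star y), hyy,
        sub_mul, mul_assoc z (star z), hzc, ← mul_assoc e, hez, sub_self, mul_zero]
    change v * star v * c = c
    rw [mul_assoc, h1, hvdef, add_mul, h2, add_zero, hzc]

end Crest.Agent.R120
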