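import Crest.Agent.R120.Models
import Crest.Agent.R120.Close
import Crest.Agent.R120.Proj
import Crest.Agent.R120.Equiv
import Crest.Agent.R120.Irrep

/-! Row 120: all irreducible representations of a maximal model are equivalent. -/

set_option autoImplicit false
set_option linter.style.haveILetI false
set_option linter.unusedSectionVars false

open Filter Topology Crest.OpAlg

noncomputable section

namespace Crest.Agent.R120

theorem exists_orth_move {A : Type*} [CStarAlgebra A] [Nontrivial A] {B : StarSubalgebra ℂ A}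
    (hB : IsClosed (B : Set A)) {p q : A} (hp : IsStarProjection p) (hq : IsStarProjection q)
    (hpB : p ∈ B) (hqB : q ∈ B) (h : ‖p * q‖ < 1) :
    ∃ v ∈ B, star v * v = q ∧ p * v = 0 := by
  set y := q * p * q with hy
  have hps := hp.isSelfAdjoint.star_eq
  have hqs := hq.isSelfAdjoint.star_eq
  have hpp := hp.isIdempotentElem.eq
  have hqq := hq.isIdempotentElem.eq
  have hye : y = star (p * q) * (p * q) := by
    rw [star_mul, hps, hqs, mul_assoc q p (p * q), ← mul_assoc p p, hpp, hy, mul_assoc]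
  have hsa : IsSelfAdjoint y := hye ▸ IsSelfAdjoint.star_mul_self _
  have hn : ‖y‖ < 1 := by
    rw [hye, CStarRing.norm_star_mul_self]
    nlinarith [norm_nonneg (p * q)]
  have hspec : ∀ t ∈ spectrum ℝ y, 0 < 1 - t := fun t ht => by
    have := spectrum.norm_le_norm_of_mem ht
    have := le_abs_self t
    rw [Real.norm_eq_abs] at *
    linarith
  let g : ℝ → ℝ := fun t => (Real.sqrt (1 - t))⁻¹
  have hg : ContinuousOn g (spectrum ℝ y) :=
    ContinuousOn.inv₀ (by fun_prop) fun t ht => (Real.sqrt_pos.mpr (hspec t ht)).ne'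
  set w := cfc g y with hw
  have hws : star w = w := (cfc_predicate g y : IsSelfAdjoint _)
  have hwB : w ∈ B := cfc_mem (𝕜' := ℂ) (hs := hB) g (mul_mem (mul_mem hqB hpB) hqB)
  have hqy : q * y = y := by rw [hy, ← mul_assoc, ← mul_assoc, hqq]
  have hyq : y * q = y := by rw [hy, mul_assoc, hqq]
  have hcomm : Commute w q := Commute.cfc_real (show y * q = q * y by rw [hqy, hyq]) g
  have hone : w * (1 - y) * w = 1 := by
    have e1 : 1 - y = cfc (fun t : ℝ => 1 - t) y := by
      rw [cfc_sub (fun _ => (1 : ℝ)) (fun t => t) y, cfc_const_one ℝ y, cfc_id' ℝ y]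
    rw [e1, hw, ← cfc_mul _ _ y, ← cfc_mul _ _ y, ← cfc_const_one ℝ y]
    refine cfc_congr fun t ht => ?_
    have h1 := hspec t ht
    have h2 := Real.sqrt_pos.mpr h1
    have h3 := Real.mul_self_sqrt h1.le
    simp only [g]
    field_simp
    nlinarith
  refine ⟨(1 - p) * q * w, mul_mem (mul_mem (sub_mem (one_mem B) hpB) hqB) hwB, ?_, ?_⟩
  · have e1 : (1 - p) * (1 - p) = 1 - p := hp.one_sub.isIdempotentElem.eq
    calc star ((1 - p) * q * w) * ((1 - p) * q * w)
        = w * (q * ((1 - p) * (1 - p)) * q) * w := by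
          rw [star_mul, star_mul, hws, hqs, star_sub, star_one, hps]; noncomm_ring
      _ = w * q * (1 - y) * w := by
          rw [e1, mul_sub q, mul_one, sub_mul, hqq, ← hy, mul_assoc w q, mul_sub q, mul_one, hqy]
      _ = q := by rw [hcomm.eq, mul_assoc q, mul_assoc q, hone, mul_one]
  · rw [← mul_assoc, ← mul_assoc, hp.mul_one_sub_self]; simp

theorem Model.mem_of_max (M : Model) (hmax : ∀ M' : Model, M.Le M' → M'.Le M) {ch : ℕ → Code}
    {dat : Dat} (hch : ∀ k, ch k ∈ M.I) {e f : ℕ → M.A} (hc : Coded M.U ch dat e f)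
    (hd : Data M.τ e f) (he : ∀ x, Exc e x) (hf : ∀ x, Exc f x) (hcr : ∀ x, Cross e f x) :
    Code.node ch dat ∈ M.I ∧ NodeOK M.τ M.U M.I ch dat e f := by
  have h1 : Code.node ch dat ∈ M.I := by
    by_contra h
    obtain ⟨M', h1, h2⟩ := M.exists_succ h hch hc hd he hf hcr
    exact h ((hmax M' h1).1 h2)
  obtain ⟨e', f', hn⟩ := M.node ch dat h1
  obtain ⟨rfl, rfl⟩ := hc.unique hn.coded
  exact ⟨h1, hn⟩

theorem exc_of_squeeze {A : Type*} [CStarAlgebra A] {τ : A →ₗ[ℂ] ℂ} {a e : ℕ → A}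
    (ha : Nest τ a) (hp : ∀ k, IsStarProjection (e k)) {idx : ℕ → ℕ}
    (hidx : Tendsto idx atTop atTop) (h : ∀ k, a (idx k) * e k = e k) {x : A} (hx : Exc a x) :
    Exc e x := by
  obtain ⟨l, hl⟩ := hx
  refine ⟨l, ?_⟩
  have h1 := tendsto_zero_iff_norm_tendsto_zero.mp (hl.comp hidx)
  refine squeeze_zero_norm (fun k => ?_) h1
  have h' : e k * a (idx k) = e k := by
    have := congrArg star (h k)
    rwa [star_mul, ha.sa, (hp k).isSelfAdjoint.star_eq] at this
  have e1 : e k * x * e k - l • (e k * e k) =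
      e k * (a (idx k) * x * a (idx k) - l • (a (idx k) * a (idx k))) * e k := by
    simp only [mul_sub, sub_mul, mul_smul_comm, smul_mul_assoc]
    congr 1
    · rw [← mul_assoc, ← mul_assoc, h', mul_assoc _ (a (idx k)), h]
    · congr 1
      rw [← mul_assoc, h', mul_assoc, h]
  rw [e1]
  exact norm_conj_le_of_le_one _ (IsStarProjection.norm_le _ (hp k))
    (IsStarProjection.norm_le _ (hp k))

/-- a maximal model admits no pair of asymptotically orthogonal excising sequences of nonzero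
projections with equal traces and countable support -/
theorem Model.not_cross (M : Model) (hmax : ∀ M' : Model, M.Le M' → M'.Le M) {S : Set Code}
    (hSc : S.Countable) (hSne : S.Nonempty) (hSI : S ⊆ M.I) {e f : ℕ → M.A}
    (ep : ∀ n, IsStarProjection (e n)) (fp : ∀ n, IsStarProjection (f n))
    (en : ∀ n, e n * e (n + 1) = e (n + 1)) (fn : ∀ n, f n * f (n + 1) = f (n + 1))
    (htr : ∀ n, M.τ (e n) = M.τ (f n)) (hlim : Tendsto (fun n => M.τ (e n)) atTop (𝓝 0))
    (hne : ∀ n, M.τ (e n) ≠ 0) (heS : ∀ n, e n ∈ alg M.U S) (hfS : ∀ n, f n ∈ alg M.U S)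
    (he : ∀ x, Exc e x) (hf : ∀ x, Exc f x) : ¬ ∀ x, Cross e f x := by
  intro hcr
  haveI := (isState_of_tr M.tr).nontrivial
  have h1 := tendsto_zero_iff_norm_tendsto_zero.mp (hcr 1)
  obtain ⟨n₀, hn₀⟩ := (h1.eventually (gt_mem_nhds one_pos)).exists
  rw [mul_one] at hn₀
  obtain ⟨v, hvS, hv1, hv2⟩ := exists_orth_move (isClosed_alg M.U S) (ep n₀) (fp n₀) (heS n₀)
    (hfS n₀) hn₀
  set e' : ℕ → M.A := fun n => e (n + n₀) with he'
  set f' : ℕ → M.A := fun n => v * f (n + n₀) * star v with hf'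
  have key : ∀ i j, v * f (i + n₀) * star v * (v * f (j + n₀) * star v) =
      v * (f (i + n₀) * f (j + n₀)) * star v := by
    intro i j
    calc v * f (i + n₀) * star v * (v * f (j + n₀) * star v)
        = v * (f (i + n₀) * (star v * v) * f (j + n₀)) * star v := by noncomm_ring
      _ = _ := by rw [hv1, proj_mul_of_ge fp fn (Nat.le_add_left n₀ i)]
  have hshift : Tendsto (fun n => n + n₀) atTop atTop := tendsto_add_atTop_nat n₀
  have hd : Data M.τ e' f' :=
    { e_proj := fun n => ep _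
      f_proj := fun n => ⟨by
          show f' n * f' n = f' n
          rw [hf']; simp only
          rw [key, (fp _).isIdempotentElem.eq], by
          show star (f' n) = f' n
          rw [hf']; simp only
          rw [star_mul, star_mul, star_star, (fp _).isSelfAdjoint.star_eq, mul_assoc]⟩
      e_nest := fun n => proj_mul_of_le ep en (by omega)
      f_nest := fun n => by
        rw [hf']; simp only
        rw [key, proj_mul_of_le fp fn (by omega)]
      orth := by
        rw [he', hf']; simp only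
        rw [zero_add, ← mul_assoc, ← mul_assoc, hv2]; simp
      tr_eq := fun n => by
        rw [he', hf']; simp only
        rw [tr_comm M.tr, ← mul_assoc, hv1, proj_mul_of_le fp fn (Nat.le_add_left n₀ n), htr]
      tr_lim := hlim.comp hshift }
  have he1 : ∀ x, Exc e' x := fun x => by
    obtain ⟨l, hl⟩ := he x
    exact ⟨l, hl.comp hshift⟩
  have hf1 : ∀ x, Exc f' x := fun x => by
    obtain ⟨l, hl⟩ := hf (star v * x * v)
    refine ⟨l, ?_⟩
    have := ((hl.comp hshift).const_mul v).mul_const (star v)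
    simp only [mul_zero, zero_mul] at this
    refine this.congr fun n => ?_
    rw [hf']; simp only [Function.comp]
    rw [key]
    simp only [mul_sub, sub_mul, mul_smul_comm, smul_mul_assoc]
    congr 1
    noncomm_ring
  have hc1 : ∀ x, Cross e' f' x := fun x => by
    have := (Tendsto.comp (hcr (x * v)) hshift).mul_const (star v)
    rw [zero_mul] at this
    refine this.congr fun n => ?_
    rw [he', hf']; simp only [Function.comp]
    noncomm_ring
  obtain ⟨ch, rfl⟩ := hSc.exists_eq_range hSne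
  have hch : ∀ k, ch k ∈ M.I := fun k => hSI ⟨k, rfl⟩
  obtain ⟨dat, hcode⟩ := exists_code (U := M.U) (ch := ch) (fun k => M.sa _ (hch k))
    (e := e') (f := f') (fun n => heS _)
    (fun n => mul_mem (mul_mem hvS (hfS _)) (star_mem hvS))
  obtain ⟨-, hn⟩ := M.mem_of_max hmax hch hcode hd he1 hf1 hc1
  set u := M.U (.node ch dat)
  have h2 := (hc1 u).const_mul u
  rw [mul_zero] at h2
  have h3 : ∀ n, u * (e' n * u * f' n) = f' n := fun n => by
    rw [← mul_assoc u, ← mul_assoc u, hn.conj, hd.f_sq]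
  simp only [h3] at h2
  have h4 : ∀ n, f' n ≠ 0 := fun n h => hne (n + n₀) (by
    have := hd.tr_eq n
    rw [h, map_zero] at this
    exact this)
  have h5 := tendsto_zero_iff_norm_tendsto_zero.mp h2
  simp only [hd.nest_f.norm_eq_one h4] at h5
  exact one_ne_zero (tendsto_nhds_unique tendsto_const_nhds h5)

theorem Model.unique_irr (M : Model) (hmax : ∀ M' : Model, M.Le M' → M'.Le M)
    {H₁ : Type*} [NormedAddCommGroup H₁] [InnerProductSpace ℂ H₁] [CompleteSpace H₁]
    {H₂ : Type*} [NormedAddCommGroup H₂] [InnerProductSpace ℂ H₂] [CompleteSpace H₂]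
    (π₁ : M.A →⋆ₐ[ℂ] (H₁ →L[ℂ] H₁)) (π₂ : M.A →⋆ₐ[ℂ] (H₂ →L[ℂ] H₂)) {ξ₁ : H₁} {ξ₂ : H₂}
    (h₁ : Irr π₁) (h₂ : Irr π₂) (hξ₁ : ‖ξ₁‖ = 1) (hξ₂ : ‖ξ₂‖ = 1) :
    ∃ U : H₁ ≃ₗᵢ[ℂ] H₂, ∀ a v, U (π₁ a v) = π₂ a (U v) := by
  obtain ⟨S₁, a, c₁, cl₁, s₁, ha, haS, hax, hae⟩ := M.exists_nest π₁ h₁ hξ₁
  obtain ⟨S₂, b, c₂, cl₂, s₂, hb, hbS, hbx, hbe⟩ := M.exists_nest π₂ h₂ hξ₂
  have hae' := M.exc_all cl₁ s₁ ha haS hae
  have hbe' := M.exc_all cl₂ s₂ hb hbS hbe
  have hcl := cl₁.union cl₂
  have hsub : S₁ ∪ S₂ ⊆ M.I := Set.union_subset s₁ s₂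
  obtain ⟨ch, hch⟩ := (c₁.union c₂).exists_eq_range ⟨_, hcl.base 0 0⟩
  have hchS : ∀ k, ch k ∈ S₁ ∪ S₂ := fun k => hch ▸ ⟨k, rfl⟩
  obtain ⟨hγ, hn⟩ := M.mem_of_max hmax (ch := ch) (dat := fun _ _ _ => 0)
    (fun k => hsub (hchS k)) (e := fun _ => 0) (f := fun _ => 0) ⟨by simp, by simp⟩
    (data_zero _) (fun x => ⟨0, by simp⟩) (fun x => ⟨0, by simp⟩) (fun x => by simp [Cross])
  set γ := Code.node ch (fun _ _ _ => 0) with hγdef
  have hs := hn.step M.tr (M.sa _ hγ) hcl hsub hchS (by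
    rw [hch]
    rintro ⟨k, hk⟩
    exact Code.child_ne _ _ k hk)
  have hane : ∀ n, a n ≠ 0 := fun n h => by
    have := hax n
    rw [h, map_zero, zero_apply] at this
    rw [← this, norm_zero] at hξ₁
    exact zero_ne_one hξ₁
  have hbne : ∀ n, b n ≠ 0 := fun n h => by
    have := hbx n
    rw [h, map_zero, zero_apply] at this
    rw [← this, norm_zero] at hξ₂
    exact zero_ne_one hξ₂
  have hpa := exists_proj M.tr (isClosed_gen _) hs.le_gen hs.u_mem_gen hs.cmp M.base
    (fun N i => mem_alg (hcl.base N i)) ha (fun n => alg_mono Set.subset_union_left (haS n)) hane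
  have hpb := exists_proj M.tr (isClosed_gen _) hs.le_gen hs.u_mem_gen hs.cmp M.base
    (fun N i => mem_alg (hcl.base N i)) hb (fun n => alg_mono Set.subset_union_right (hbS n)) hbne
  rw [← alg_insert] at hpa hpb
  have joint : ∀ n : ℕ, ∃ m > n, ∃ N ≥ n, ∃ p ∈ alg M.U (insert γ (S₁ ∪ S₂)),
      ∃ q ∈ alg M.U (insert γ (S₁ ∪ S₂)), IsStarProjection p ∧ IsStarProjection q ∧
      M.τ p = 1 / ((N : ℂ) + 1) ∧ M.τ q = 1 / ((N : ℂ) + 1) ∧ a n * p = p ∧ b n * q = q ∧
      p * a m = a m ∧ q * b m = b m := by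
    intro n
    obtain ⟨N₁, k₁⟩ := hpa n
    obtain ⟨N₂, k₂⟩ := hpb n
    obtain ⟨m₁, hm₁, p, hp, p1, p2, p3, p4⟩ := k₁ (max n (max N₁ N₂)) (by omega)
    obtain ⟨m₂, hm₂, q, hq, q1, q2, q3, q4⟩ := k₂ (max n (max N₁ N₂)) (by omega)
    refine ⟨max m₁ m₂ + 1, by omega, max n (max N₁ N₂), by omega, p, hp, q, hq, p1, q1, p2, q2,
      p3, q3, ?_, ?_⟩
    · rw [← ha.mul_of_lt (show m₁ < max m₁ m₂ + 1 by omega), ← mul_assoc, p4]
    · rw [← hb.mul_of_lt (show m₂ < max m₁ m₂ + 1 by omega), ← mul_assoc, q4]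
  choose m hm N hN p hp q hq pp qp pt qt ap bq pa qb using joint
  let idx : ℕ → ℕ := fun k => m^[k] 0
  have hidx : ∀ k, idx (k + 1) = m (idx k) := fun k => Function.iterate_succ_apply' m k 0
  have hmono : StrictMono idx := strictMono_nat_of_lt_succ fun k => by rw [hidx]; exact hm _
  have htend : Tendsto idx atTop atTop := hmono.tendsto_atTop
  have en : ∀ k, p (idx k) * p (idx (k + 1)) = p (idx (k + 1)) := fun k => by
    rw [← ap (idx (k + 1)), ← mul_assoc, hidx, pa]
  have fn : ∀ k, q (idx k) * q (idx (k + 1)) = q (idx (k + 1)) := fun k => by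
    rw [← bq (idx (k + 1)), ← mul_assoc, hidx, qb]
  have he : ∀ x, Exc (fun k => p (idx k)) x := fun x =>
    exc_of_squeeze ha (fun k => pp _) htend (fun k => ap _) (hae' x)
  have hf : ∀ x, Exc (fun k => q (idx k)) x := fun x =>
    exc_of_squeeze hb (fun k => qp _) htend (fun k => bq _) (hbe' x)
  have hlim : Tendsto (fun k => M.τ (p (idx k))) atTop (𝓝 0) := by
    simp only [pt]
    have h1 : Tendsto (fun k => N (idx k)) atTop atTop :=
      tendsto_atTop_mono (fun k => hN (idx k)) htend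
    exact (tendsto_one_div_add_atTop_nhds_zero_nat (𝕜 := ℂ)).comp h1
  have hnc := M.not_cross hmax ((c₁.union c₂).insert γ) ⟨γ, Set.mem_insert _ _⟩
    (Set.insert_subset hγ hsub) (e := fun k => p (idx k)) (f := fun k => q (idx k))
    (fun k => pp _) (fun k => qp _) en fn (fun k => by rw [pt, qt]) hlim
    (fun k => by
      rw [pt]
      exact one_div_ne_zero (Nat.cast_add_one_ne_zero _))
    (fun k => hp _) (fun k => hq _) he hf
  push Not at hnc
  obtain ⟨x, hx⟩ := hnc
  refine equiv_of_not_cross π₁ π₂ h₁ h₂ hξ₁ hξ₂ (fun k => pp _) (fun k => qp _) en fn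
    (fun k => ?_) (fun k => ?_) he hf hx
  · conv_lhs => rw [← hax (m (idx k))]
    rw [← ContinuousLinearMap.comp_apply, ← ContinuousLinearMap.mul_def, ← map_mul, pa, hax]
  · conv_lhs => rw [← hbx (m (idx k))]
    rw [← ContinuousLinearMap.comp_apply, ← ContinuousLinearMap.mul_def, ← map_mul, qb, hbx]

end Crest.Agent.R120
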