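import Crest.Agent.R120.Quot

/-! Row 120: the algebra at a limit stage. -/

set_option autoImplicit false
set_option linter.style.haveILetI false
set_option linter.unusedSectionVars false

open Filter Topology Crest.OpAlg
open scoped InnerProductSpace ENNReal

noncomputable section

namespace Crest.Agent.R120

/-- a homomorphism maps a generated algebra into any closed subalgebra containing the images of
the generators -/
theorem lim_map_mem {A A' : Type*} [CStarAlgebra A] [CStarAlgebra A'] (ι : A →⋆ₐ[ℂ] A')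
    {T : Set A} {B : StarSubalgebra ℂ A'} (hB : IsClosed (B : Set A')) (h : ∀ x ∈ T, ι x ∈ B)
    {x : A} (hx : x ∈ gen T) : ι x ∈ B := by
  have hc : Continuous ι := AddMonoidHomClass.continuous_of_bound ι 1 fun a => by
    simpa using NonUnitalStarAlgHom.norm_apply_le ι a
  have h1 : gen T ≤ B.comap ι := gen_le (hB.preimage hc) h
  exact h1 hx

theorem lim_le_of_subset {M M' : Model} (h : M.Le M') (hI : M'.I ⊆ M.I) : M'.Le M := by
  obtain ⟨hI', ι, hτ, hU⟩ := h
  have hiso : Isometry ι := isometry_of_tr M.tr ι hτ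
  have hsurj : Function.Surjective ι := by
    intro y
    have hcl : IsClosed ((ι.range : StarSubalgebra ℂ M'.A) : Set M'.A) := by
      have : ((ι.range : StarSubalgebra ℂ M'.A) : Set M'.A) = Set.range ι := by
        ext z; simp [StarAlgHom.range]
      rw [this]
      exact hiso.isClosedEmbedding.isClosed_range
    have h1 : alg M'.U M'.I ≤ ι.range := by
      refine gen_le hcl ?_
      rintro _ ⟨γ, hγ, rfl⟩
      exact ⟨M.U γ, hU γ (hI hγ)⟩
    rw [M'.gen_top] at h1
    exact h1 (StarSubalgebra.mem_top (x := y))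
  let e := StarAlgEquiv.ofBijective ι ⟨hiso.injective, hsurj⟩
  have he : ∀ a, e a = ι a := fun a => rfl
  refine ⟨hI, (e.symm : M'.A →⋆ₐ[ℂ] M.A), fun a => ?_, fun γ hγ => ?_⟩
  · rw [← hτ, ← he]
    exact congrArg M'.τ (e.apply_symm_apply a)
  · rw [← hU γ (hI hγ), ← he]
    exact e.symm_apply_apply _

/-- the ultraproduct of a family of tracial algebras -/
theorem lim_ultra {J : Type} (𝒰 : Ultrafilter J) (A : J → Type) [∀ i, CStarAlgebra (A i)]
    (τ : ∀ i, A i →ₗ[ℂ] ℂ) (hτ : ∀ i, IsFaithfulTracialState (τ i)) :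
    ∃ (A' : Type) (_ : CStarAlgebra A') (τ' : A' →ₗ[ℂ] ℂ), IsFaithfulTracialState τ' ∧
      ∃ Q : (∀ i, A i) → A',
        (∀ x y : ∀ i, A i, (∃ c, ∀ i, ‖x i‖ ≤ c) → (∃ c, ∀ i, ‖y i‖ ≤ c) →
          (∀ᶠ i in (𝒰 : Filter J), x i = y i) → Q x = Q y) ∧
        ∀ (D : Type) [CStarAlgebra D] (τD : D →ₗ[ℂ] ℂ) (p : J → Prop)
          (j : ∀ i, p i → (D →⋆ₐ[ℂ] A i)), (∀ᶠ i in (𝒰 : Filter J), p i) →
          (∀ i h a, τ i (j i h a) = τD a) →
          ∃ ι : D →⋆ₐ[ℂ] A', (∀ a, τ' (ι a) = τD a) ∧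
            ∀ a, ι a = Q (fun i => by classical exact if h : p i then j i h a else 0) := by
  classical
  have hs : ∀ i, IsState (τ i) := fun i => isState_of_tr (hτ i)
  haveI : ∀ i, Nontrivial (A i) := fun i => (hs i).nontrivial
  letI : CStarAlgebra (lp A ∞) := {}
  have hlim : ∀ x : lp A ∞, ∃ l : ℂ, Tendsto (fun i => τ i (x i)) (𝒰 : Filter J) (𝓝 l) := by
    intro x
    obtain ⟨l, -, hl⟩ := (isCompact_closedBall (0 : ℂ) ‖x‖).ultrafilter_le_nhds
      (𝒰.map fun i => τ i (x i)) (by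
        rw [le_principal_iff, Ultrafilter.mem_coe, Ultrafilter.mem_map]
        refine Filter.univ_mem' fun i => ?_
        simp only [Set.mem_preimage, mem_closedBall_zero_iff]
        exact ((hs i).norm_apply_le _).trans (lp.norm_apply_le_norm ENNReal.top_ne_zero x i))
    exact ⟨l, hl⟩
  choose s hsl using hlim
  let σ : lp A ∞ →ₗ[ℂ] ℂ :=
    { toFun := s
      map_add' := fun x y => tendsto_nhds_unique (hsl (x + y))
        (by simpa [lp.coeFn_add] using (hsl x).add (hsl y))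
      map_smul' := fun c x => tendsto_nhds_unique (hsl (c • x))
        (by simpa [lp.coeFn_smul] using (hsl x).const_mul c) }
  have hσ : ∀ x : lp A ∞, Tendsto (fun i => τ i (x i)) (𝒰 : Filter J) (𝓝 (σ x)) := hsl
  have hmul : ∀ (x y : lp A ∞) (i : J), (x * y) i = x i * y i := fun _ _ _ => rfl
  have hstar : ∀ (x : lp A ∞) (i : J), (star x) i = star (x i) := fun _ _ => rfl
  have hone : ∀ i : J, (1 : lp A ∞) i = 1 := fun _ => rfl
  have hstate : IsState σ := by
    refine ⟨tendsto_nhds_unique (hσ 1) ?_, fun x => ⟨?_, ?_⟩⟩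
    · simp only [hone, (hs _).1]; exact tendsto_const_nhds
    · refine tendsto_nhds_unique ((Complex.continuous_im.tendsto _).comp (hσ (star x * x))) ?_
      refine tendsto_const_nhds.congr fun i => ?_
      simp only [Function.comp, hmul, hstar]
      exact ((hs i).2 _).1.symm
    · refine ge_of_tendsto' ((Complex.continuous_re.tendsto _).comp (hσ (star x * x))) fun i => ?_
      simp only [Function.comp, hmul, hstar]
      exact ((hs i).2 _).2
  have htr : ∀ x y, σ (x * y) = σ (y * x) := fun x y =>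
    tendsto_nhds_unique (hσ (x * y)) ((hσ (y * x)).congr fun i => by
      rw [hmul, hmul, tr_comm (hτ i)])
  obtain ⟨A', instA', τ', q, hτ', hq, -⟩ := exists_faithful_quot hstate htr
  have hev : ∀ x y : lp A ∞, (∀ᶠ i in (𝒰 : Filter J), x i = y i) → q x = q y := by
    intro x y hxy
    rw [← sub_eq_zero, ← map_sub]
    refine hτ'.2.2.1 _ ?_
    rw [← map_star, ← map_mul, hq]
    refine tendsto_nhds_unique (hσ _) (tendsto_const_nhds.congr' ?_)
    filter_upwards [hxy] with i hi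
    rw [hmul, lp.coeFn_sub, Pi.sub_apply, hi, sub_self, mul_zero, map_zero]
  have hmem : ∀ x : ∀ i, A i, (∃ c, ∀ i, ‖x i‖ ≤ c) → Memℓp x ∞ := by
    rintro x ⟨c, hc⟩
    exact memℓp_infty ⟨c, by rintro _ ⟨i, rfl⟩; exact hc i⟩
  refine ⟨A', instA', τ', hτ', fun x => if h : Memℓp x ∞ then q ⟨x, h⟩ else 0, ?_, ?_⟩
  · intro x y hx hy hxy
    simp only [dif_pos (hmem x hx), dif_pos (hmem y hy)]
    exact hev _ _ hxy
  · intro D _ τD p j hp hj
    have hb : ∀ a : D, Memℓp (fun i => if h : p i then j i h a else 0) ∞ := fun a =>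
      hmem _ ⟨‖a‖, fun i => by
        split_ifs with h
        · exact NonUnitalStarAlgHom.norm_apply_le (j i h) a
        · simp⟩
    let Φ : D → lp A ∞ := fun a => ⟨_, hb a⟩
    have hΦ : ∀ a i (h : p i), Φ a i = j i h a := fun a i h => dif_pos h
    let ι : D →⋆ₐ[ℂ] A' :=
      { toFun := fun a => q (Φ a)
        map_one' := by
          rw [← map_one q]
          refine hev _ _ ?_
          filter_upwards [hp] with i hi
          rw [hΦ _ _ hi, hone, map_one]
        map_mul' := fun a b => by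
          rw [← map_mul q]
          refine hev _ _ ?_
          filter_upwards [hp] with i hi
          rw [hmul, hΦ _ _ hi, hΦ _ _ hi, hΦ _ _ hi, map_mul]
        map_zero' := by
          rw [← map_zero q]
          refine hev _ _ ?_
          filter_upwards [hp] with i hi
          rw [hΦ _ _ hi, map_zero]; rfl
        map_add' := fun a b => by
          rw [← map_add q]
          refine hev _ _ ?_
          filter_upwards [hp] with i hi
          rw [lp.coeFn_add, Pi.add_apply, hΦ _ _ hi, hΦ _ _ hi, hΦ _ _ hi, map_add]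
        commutes' := fun c => by
          rw [← q.commutes c]
          refine hev _ _ ?_
          filter_upwards [hp] with i hi
          rw [hΦ _ _ hi, AlgHomClass.commutes]; rfl
        map_star' := fun a => by
          rw [← map_star q]
          refine hev _ _ ?_
          filter_upwards [hp] with i hi
          rw [hstar, hΦ _ _ hi, hΦ _ _ hi, map_star] }
    refine ⟨ι, fun a => ?_, fun a => ?_⟩
    · change τ' (q (Φ a)) = τD a
      rw [hq]
      refine tendsto_nhds_unique (hσ _) (tendsto_const_nhds.congr' ?_)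
      filter_upwards [hp] with i hi
      rw [hΦ _ _ hi, hj]
    · change q (Φ a) = _
      convert (dif_pos (hb a)).symm using 1
      rfl

theorem Model.exists_limit (C : Set Model) (hne : C.Nonempty)
    (hC : ∀ M ∈ C, ∀ M' ∈ C, M.Le M' ∨ M'.Le M) :
    ∃ (A : Type) (_ : CStarAlgebra A) (τ : A →ₗ[ℂ] ℂ) (U : Code → A),
      IsFaithfulTracialState τ ∧ alg U (⋃ M ∈ C, M.I) = ⊤ ∧
      ∀ M ∈ C, ∃ ι : M.A →⋆ₐ[ℂ] A, (∀ a, τ (ι a) = M.τ a) ∧ ∀ γ ∈ M.I, ι (M.U γ) = U γ := by
  classical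
  have hle : ∀ M ∈ C, ∀ M' ∈ C, M.I ⊆ M'.I → M.Le M' := fun M hM M' hM' h =>
    (hC M hM M' hM').elim id fun h' => lim_le_of_subset h' h
  let J : Type := {I : Set Code // ∃ M ∈ C, M.I = I}
  choose F hFC hFI using fun i : J => i.2
  haveI : Nonempty J := let ⟨M, hM⟩ := hne; ⟨⟨M.I, M, hM, rfl⟩⟩
  haveI : IsDirectedOrder J := ⟨fun i j => by
    rcases hC (F i) (hFC i) (F j) (hFC j) with h | h
    · refine ⟨j, ?_, le_rfl⟩
      have := h.1
      rwa [hFI, hFI] at this
    · refine ⟨i, le_rfl, ?_⟩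
      have := h.1
      rwa [hFI, hFI] at this⟩
  let 𝒰 : Ultrafilter J := Ultrafilter.of atTop
  have hevLe : ∀ M ∈ C, ∀ᶠ i in (𝒰 : Filter J), M.Le (F i) := fun M hM => by
    refine Ultrafilter.of_le atTop ?_
    filter_upwards [eventually_ge_atTop (⟨M.I, M, hM, rfl⟩ : J)] with i hi
    refine hle M hM _ (hFC i) ?_
    rw [hFI]; exact hi
  obtain ⟨A', instA', τ', hτ', Q, hQ, hι⟩ :=
    lim_ultra 𝒰 (fun i => (F i).A) (fun i => (F i).τ) (fun i => (F i).tr)
  have hex := fun (M : Model) (hM : M ∈ C) =>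
    hι M.A M.τ (fun i => M.Le (F i)) (fun i h => h.2.choose) (hevLe M hM)
      (fun i h => h.2.choose_spec.1)
  choose ι hιτ hιQ using hex
  have hcompat : ∀ M (hM : M ∈ C) M' (hM' : M' ∈ C), ∀ γ ∈ M.I, γ ∈ M'.I →
      ι M hM (M.U γ) = ι M' hM' (M'.U γ) := by
    intro M hM M' hM' γ hγ hγ'
    rw [hιQ, hιQ]
    refine hQ _ _ ⟨‖M.U γ‖, fun i => ?_⟩ ⟨‖M'.U γ‖, fun i => ?_⟩ ?_
    · split_ifs with h
      · exact NonUnitalStarAlgHom.norm_apply_le h.2.choose _
      · simp
    · split_ifs with h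
      · exact NonUnitalStarAlgHom.norm_apply_le h.2.choose _
      · simp
    · filter_upwards [hevLe M hM, hevLe M' hM'] with i h h'
      rw [dif_pos h, dif_pos h', h.2.choose_spec.2 γ hγ, h'.2.choose_spec.2 γ hγ']
  let U' : Code → A' := fun γ =>
    if h : ∃ M ∈ C, γ ∈ M.I then ι h.choose h.choose_spec.1 (h.choose.U γ) else 0
  have hU' : ∀ M (hM : M ∈ C), ∀ γ ∈ M.I, ι M hM (M.U γ) = U' γ := by
    intro M hM γ hγ
    have h : ∃ M ∈ C, γ ∈ M.I := ⟨M, hM, hγ⟩
    simp only [U', dif_pos h]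
    exact hcompat _ _ _ _ γ hγ h.choose_spec.2
  let S : StarSubalgebra ℂ A' := alg U' (⋃ M ∈ C, M.I)
  have hScl : IsClosed (S : Set A') := isClosed_gen _
  have hgen : ∀ γ ∈ ⋃ M ∈ C, M.I, U' γ ∈ S := fun γ hγ => subset_gen _ ⟨γ, hγ, rfl⟩
  have hιS : ∀ M (hM : M ∈ C) a, ι M hM a ∈ S := by
    intro M hM a
    refine lim_map_mem (ι M hM) (T := M.U '' M.I) hScl ?_ ?_
    · rintro _ ⟨γ, hγ, rfl⟩
      rw [hU' M hM γ hγ]
      exact hgen γ (Set.mem_biUnion hM hγ)
    · have := M.gen_top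
      rw [alg] at this
      rw [this]; exact StarSubalgebra.mem_top
  let U : Code → S := fun γ => if h : U' γ ∈ S then ⟨U' γ, h⟩ else 0
  have hU : ∀ γ ∈ ⋃ M ∈ C, M.I, (U γ : A') = U' γ := fun γ hγ => by
    simp only [U, dif_pos (hgen γ hγ)]
  refine ⟨S, inferInstance, τ' ∘ₗ S.subtype.toLinearMap, U, ⟨hτ'.1, fun a => hτ'.2.1 a,
    fun a ha => Subtype.ext (hτ'.2.2.1 a ha), fun a b => hτ'.2.2.2 a b⟩, ?_, fun M hM => ?_⟩
  · rw [eq_top_iff]
    intro x _
    have hcl : IsClosed (((alg U (⋃ M ∈ C, M.I)).map S.subtype : StarSubalgebra ℂ A') : Set A') :=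
      hScl.isClosedEmbedding_subtypeVal.isClosedMap _ (isClosed_gen _)
    have h1 : S ≤ (alg U (⋃ M ∈ C, M.I)).map S.subtype := by
      refine gen_le hcl ?_
      rintro _ ⟨γ, hγ, rfl⟩
      exact ⟨U γ, subset_gen _ ⟨γ, hγ, rfl⟩, hU γ hγ⟩
    obtain ⟨y, hy, hyx⟩ := h1 x.2
    have : y = x := Subtype.ext hyx
    rw [← this]; exact hy
  · refine ⟨(ι M hM).codRestrict S (hιS M hM), fun a => hιτ M hM a, fun γ hγ => Subtype.ext ?_⟩
    rw [hU γ (Set.mem_biUnion hM hγ), ← hU' M hM γ hγ]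
    rfl

end Crest.Agent.R120
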