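import Crest.Agent.R120.Estimate

/-! Row 120: the limit seminorms attached to a nested sequence. -/

set_option autoImplicit false
set_option linter.style.haveILetI false
set_option linter.unusedSectionVars false

open Filter Topology Crest.OpAlg

noncomputable section

namespace Crest.Agent.R120

variable {A : Type*} [CStarAlgebra A] {τ : A →ₗ[ℂ] ℂ}

/-- one-sided limit seminorm -/
def sN (a : ℕ → A) (y : A) : ℝ := ⨅ n, ‖y * a n‖

/-- two-sided limit seminorm -/
def sM (a : ℕ → A) (x : A) : ℝ := ⨅ n, ‖a n * x * a n‖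

namespace Nest

variable {a : ℕ → A} (ha : Nest τ a)
include ha

theorem tendsto_sN (y : A) : Tendsto (fun n => ‖y * a n‖) atTop (𝓝 (sN a y)) :=
  tendsto_atTop_ciInf (ha.antitone_right y) ⟨0, by rintro _ ⟨n, rfl⟩; exact norm_nonneg _⟩

theorem tendsto_sM (x : A) : Tendsto (fun n => ‖a n * x * a n‖) atTop (𝓝 (sM a x)) :=
  tendsto_atTop_ciInf (by simpa using ha.exc_antitone x 0)
    ⟨0, by rintro _ ⟨n, rfl⟩; exact norm_nonneg _⟩

theorem sN_nonneg (y : A) : 0 ≤ sN a y :=
  ge_of_tendsto' (ha.tendsto_sN y) fun _ => norm_nonneg _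

theorem sM_nonneg (y : A) : 0 ≤ sM a y :=
  ge_of_tendsto' (ha.tendsto_sM y) fun _ => norm_nonneg _

theorem sN_le_norm (y : A) : sN a y ≤ ‖y‖ :=
  le_of_tendsto' (ha.tendsto_sN y) fun n => norm_mul_le_left _ (ha.norm_le n)

theorem sN_add_le (y z : A) : sN a (y + z) ≤ sN a y + sN a z :=
  le_of_tendsto_of_tendsto' (ha.tendsto_sN _) ((ha.tendsto_sN y).add (ha.tendsto_sN z))
    fun n => by rw [add_mul]; exact norm_add_le _ _

theorem sN_mul_le (z y : A) : sN a (z * y) ≤ ‖z‖ * sN a y :=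
  le_of_tendsto_of_tendsto' (ha.tendsto_sN _) ((ha.tendsto_sN y).const_mul _)
    fun n => by rw [mul_assoc]; exact norm_mul_le _ _

theorem sM_add_le (y z : A) : sM a (y + z) ≤ sM a y + sM a z :=
  le_of_tendsto_of_tendsto' (ha.tendsto_sM _) ((ha.tendsto_sM y).add (ha.tendsto_sM z))
    fun n => by rw [mul_add, add_mul]; exact norm_add_le _ _

theorem sM_star_mul_le (y z : A) : sM a (star y * z) ≤ sN a y * sN a z :=
  le_of_tendsto_of_tendsto' (ha.tendsto_sM _) ((ha.tendsto_sN y).mul (ha.tendsto_sN z))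
    fun n => by
      have e : a n * (star y * z) * a n = star (y * a n) * (z * a n) := by
        rw [star_mul, ha.sa]; noncomm_ring
      rw [e, ← norm_star (y * a n)]; exact norm_mul_le _ _

theorem sM_le_sN (x : A) : sM a x ≤ sN a x :=
  le_of_tendsto_of_tendsto' (ha.tendsto_sM _) (ha.tendsto_sN x)
    fun n => by rw [mul_assoc]; exact norm_mul_le_right _ (ha.norm_le n)

theorem sM_le_norm (x : A) : sM a x ≤ ‖x‖ := (ha.sM_le_sN x).trans (ha.sN_le_norm x)

theorem sM_star (x : A) : sM a (star x) = sM a x := by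
  refine tendsto_nhds_unique (ha.tendsto_sM _) ((ha.tendsto_sM x).congr fun n => ?_)
  rw [← norm_star, star_mul, star_mul, ha.sa, mul_assoc]

theorem tendsto_zero_of_sM {x : A} (h : sM a x = 0) :
    Tendsto (fun n => a n * x * a n) atTop (𝓝 0) :=
  tendsto_zero_iff_norm_tendsto_zero.mpr (h ▸ ha.tendsto_sM x)

theorem coef_unique (hne : ∀ n, a n ≠ 0) {x : A} {l l' : ℂ}
    (h : Tendsto (fun n => a n * x * a n - l • (a n * a n)) atTop (𝓝 0))
    (h' : Tendsto (fun n => a n * x * a n - l' • (a n * a n)) atTop (𝓝 0)) : l = l' := by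
  have h1 := (h'.sub h).norm
  have h2 : ∀ n, ‖a n * x * a n - l' • (a n * a n) - (a n * x * a n - l • (a n * a n))‖ =
      ‖l - l'‖ := by
    intro n
    have : a n * x * a n - l' • (a n * a n) - (a n * x * a n - l • (a n * a n)) =
      (l - l') • (a n * a n) := by rw [sub_smul]; abel
    rw [this, norm_smul, ha.norm_sq_eq_one hne, mul_one]
  simp only [h2, sub_zero, norm_zero] at h1
  exact sub_eq_zero.mp (norm_eq_zero.mp (tendsto_nhds_unique tendsto_const_nhds h1))

theorem coef_nonneg (hτ : IsFaithfulTracialState τ) (hne : ∀ n, a n ≠ 0) {y : A} {l : ℂ}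
    (h : Tendsto (fun n => a n * (star y * y) * a n - l • (a n * a n)) atTop (𝓝 0)) :
    ∃ t : ℝ, 0 ≤ t ∧ l = t := by
  have hs := isState_of_tr hτ
  set q : ℕ → ℝ := fun n => n2 τ (y * a (n + 1)) ^ 2 / n2 τ (a (n + 1)) ^ 2 with hq
  have h1 : ∀ n, ‖(q n : ℂ) - l‖ ≤ ‖a n * (star y * y) * a n - l • (a n * a n)‖ := by
    intro n
    have hpos : 0 < n2 τ (a (n + 1)) := n2_pos hτ (hne _)
    have k := hs.norm_conj_le (a (n + 1)) (a n * (star y * y) * a n - l • (a n * a n))
    have e1 : star (a (n + 1)) * (a n * (star y * y) * a n - l • (a n * a n)) * a (n + 1) =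
        star (y * a (n + 1)) * (y * a (n + 1)) - l • (star (a (n + 1)) * a (n + 1)) := by
      have h1 := ha.nest n
      have h2 := ha.mul_of_gt (Nat.lt_succ_self n)
      rw [star_mul, ha.sa]
      simp only [mul_sub, sub_mul, mul_smul_comm, smul_mul_assoc]
      congr 1
      · rw [← mul_assoc, ← mul_assoc, h2, mul_assoc _ (a n), h1]; noncomm_ring
      · congr 1
        rw [← mul_assoc, h2, mul_assoc, h1]
    rw [e1, map_sub, map_smul, hs.apply_star_mul_self, hs.apply_star_mul_self, smul_eq_mul] at k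
    have e2 : (q n : ℂ) - l = (((n2 τ (y * a (n + 1)) ^ 2 : ℝ) : ℂ) -
        l * ((n2 τ (a (n + 1)) ^ 2 : ℝ) : ℂ)) / ((n2 τ (a (n + 1)) ^ 2 : ℝ) : ℂ) := by
      have : ((n2 τ (a (n + 1)) ^ 2 : ℝ) : ℂ) ≠ 0 := by
        rw [Complex.ofReal_ne_zero]; positivity
      rw [hq]; simp only [Complex.ofReal_div]; field_simp
    rw [e2, norm_div, Complex.norm_real, Real.norm_eq_abs, abs_of_nonneg (sq_nonneg _),
      div_le_iff₀ (by positivity)]
    exact k
  have h2 : Tendsto (fun n => (q n : ℂ)) atTop (𝓝 l) := by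
    rw [tendsto_iff_norm_sub_tendsto_zero]
    exact squeeze_zero (fun _ => norm_nonneg _) h1 (tendsto_zero_iff_norm_tendsto_zero.mp h)
  have h3 : Tendsto q atTop (𝓝 l.re) := by
    have := (Complex.continuous_re.tendsto _).comp h2
    exact this.congr fun n => by simp
  have h4 : Tendsto (fun _ : ℕ => (0 : ℝ)) atTop (𝓝 l.im) := by
    have := (Complex.continuous_im.tendsto _).comp h2
    refine this.congr fun n => by simp
  refine ⟨l.re, ge_of_tendsto' h3 fun n => by rw [hq]; positivity, ?_⟩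
  exact Complex.ext (by simp) (by simpa using (tendsto_nhds_unique tendsto_const_nhds h4).symm)

theorem tendsto_sN_sq (hτ : IsFaithfulTracialState τ) (hne : ∀ n, a n ≠ 0) {y : A}
    (hy : Exc a (star y * y)) :
    Tendsto (fun n => a n * (star y * y) * a n - ((sN a y ^ 2 : ℝ) : ℂ) • (a n * a n)) atTop
      (𝓝 0) := by
  obtain ⟨l, hl⟩ := hy
  obtain ⟨t, ht, rfl⟩ := ha.coef_nonneg hτ hne hl
  have h1 : Tendsto (fun n => ‖a n * (star y * y) * a n‖) atTop (𝓝 (sN a y ^ 2)) := by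
    refine ((ha.tendsto_sN y).pow 2).congr fun n => ?_
    rw [sq, ← CStarRing.norm_star_mul_self, star_mul, ha.sa]; congr 1; noncomm_ring
  have h2 : Tendsto (fun n => ‖a n * (star y * y) * a n‖) atTop (𝓝 t) := by
    rw [tendsto_iff_norm_sub_tendsto_zero]
    refine squeeze_zero (fun _ => norm_nonneg _) (fun n => ?_)
      (tendsto_zero_iff_norm_tendsto_zero.mp hl)
    have := abs_norm_sub_norm_le (a n * (star y * y) * a n) ((t : ℂ) • (a n * a n))
    rwa [norm_smul, ha.norm_sq_eq_one hne, mul_one, Complex.norm_real, Real.norm_eq_abs,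
      abs_of_nonneg ht] at this
  rw [tendsto_nhds_unique h1 h2]; exact hl

section Proj

variable (hτ : IsFaithfulTracialState τ) (hne : ∀ n, a n ≠ 0) {B : StarSubalgebra ℂ A}
  (hexc : ∀ x ∈ B, Exc a x) {p : ℕ → A} (hp : ∀ n, IsStarProjection (p n))
  (hnest : ∀ n, p n * p (n + 1) = p (n + 1)) (hpB : ∀ n, p n ∈ B) {c : A} (hc : c ∈ B)
include hτ hne hexc hp hnest hpB hc

theorem tendsto_proj (m : ℕ) : Tendsto (fun n => a n * (star c * p m * c) * a n -
    ((sN a (p m * c) ^ 2 : ℝ) : ℂ) • (a n * a n)) atTop (𝓝 0) := by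
  have h := ha.tendsto_sN_sq hτ hne (y := p m * c)
    (hexc _ (mul_mem (star_mem (mul_mem (hpB m) hc)) (mul_mem (hpB m) hc)))
  have e : star (p m * c) * (p m * c) = star c * p m * c := by
    rw [star_mul, (hp m).isSelfAdjoint.star_eq, mul_assoc, ← mul_assoc (p m),
      (hp m).isIdempotentElem.eq, mul_assoc]
  rwa [e] at h

theorem sN_sub_sq {m l : ℕ} (hml : m ≤ l) :
    sN a ((p m - p l) * c) ^ 2 = sN a (p m * c) ^ 2 - sN a (p l * c) ^ 2 := by
  have hq : IsStarProjection (p m - p l) :=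
    (hp l).sub_of_mul_eq_right (hp m) (proj_mul_of_le hp hnest hml)
  have hm := sub_mem (hpB m) (hpB l)
  have h := ha.tendsto_sN_sq hτ hne (y := (p m - p l) * c)
    (hexc _ (mul_mem (star_mem (mul_mem hm hc)) (mul_mem hm hc)))
  have e : star ((p m - p l) * c) * ((p m - p l) * c) = star c * (p m - p l) * c := by
    rw [star_mul, hq.isSelfAdjoint.star_eq, mul_assoc, ← mul_assoc (p m - p l),
      hq.isIdempotentElem.eq, mul_assoc]
  rw [e] at h
  have h2 := (ha.tendsto_proj hτ hne hexc hp hnest hpB hc m).sub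
    (ha.tendsto_proj hτ hne hexc hp hnest hpB hc l)
  rw [sub_zero] at h2
  have h3 := ha.coef_unique hne h (l' := ((sN a (p m * c) ^ 2 : ℝ) : ℂ) -
    ((sN a (p l * c) ^ 2 : ℝ) : ℂ)) (h2.congr fun n => by rw [sub_smul]; noncomm_ring)
  exact_mod_cast h3

theorem sN_cauchy {ε : ℝ} (hε : 0 < ε) :
    ∃ m₀, ∀ m ≥ m₀, ∀ l ≥ m, sN a ((p m - p l) * c) ≤ ε := by
  set t : ℕ → ℝ := fun m => sN a (p m * c) ^ 2 with ht
  have hanti : Antitone t := fun m l hml => by
    have := ha.sN_sub_sq hτ hne hexc hp hnest hpB hc hml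
    have h0 := sq_nonneg (sN a ((p m - p l) * c))
    simp only [ht]; linarith
  have hbd : BddBelow (Set.range t) := ⟨0, by rintro _ ⟨n, rfl⟩; exact sq_nonneg _⟩
  have hlim := tendsto_atTop_ciInf hanti hbd
  obtain ⟨m₀, hm₀⟩ := (hlim.eventually (gt_mem_nhds
    (lt_add_of_pos_right _ (sq_pos_of_pos hε)))).exists_forall_of_atTop
  refine ⟨m₀, fun m hm l hl => ?_⟩
  have h1 := ha.sN_sub_sq hτ hne hexc hp hnest hpB hc hl
  have h2 := hm₀ m hm
  have h3 : ⨅ i, t i ≤ t l := ciInf_le hbd l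
  refine (pow_le_pow_iff_left₀ (ha.sN_nonneg _) hε.le two_ne_zero).mp ?_
  simp only [ht] at h2 h3
  linarith

end Proj

/-- the two halves of a step cannot both be seen by an excised state -/
theorem sN_cross (hτ : IsFaithfulTracialState τ) (hne : ∀ n, a n ≠ 0) {B : StarSubalgebra ℂ A}
    (haB : ∀ n, a n ∈ B) (hexc : ∀ x ∈ B, Exc a x) {e f : ℕ → A} (hd : Data τ e f)
    (heB : ∀ n, e n ∈ B) (hfB : ∀ n, f n ∈ B) (hcr : ∀ x ∈ B, Cross f e x) {c c' : A}
    (hc : c ∈ B) (hc' : c' ∈ B) :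
    Tendsto (fun l => sN a (e l * c) * sN a (f l * c')) atTop (𝓝 0) := by
  have key : ∀ ε > 0, ε ≤ 1 → ∃ l₀, ∀ l ≥ l₀, (sN a (e l * c) * sN a (f l * c')) ^ 2 ≤
      ε * (‖c'‖ * ‖c‖ + ‖c'‖ * ‖c‖ * ‖c‖ + ‖c'‖ * ‖c'‖ * ‖c‖ + (‖c‖ * ‖c‖ + ‖c'‖ * ‖c'‖)) := by
    intro ε hε hε1
    obtain ⟨m₁, hm₁⟩ := ha.sN_cauchy hτ hne hexc hd.e_proj hd.e_nest heB hc (half_pos hε)
    obtain ⟨m₂, hm₂⟩ := ha.sN_cauchy hτ hne hexc hd.f_proj hd.f_nest hfB hc' (half_pos hε)
    refine ⟨max m₁ m₂, fun l₀ hl₀ => ?_⟩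
    set α : ℝ := sN a (e l₀ * c) ^ 2 with hα
    set β : ℝ := sN a (f l₀ * c') ^ 2 with hβ
    have t1 := tendsto_zero_iff_norm_tendsto_zero.mp
      (ha.tendsto_proj hτ hne hexc hd.e_proj hd.e_nest heB hc l₀)
    have t2 := tendsto_zero_iff_norm_tendsto_zero.mp
      (ha.tendsto_proj hτ hne hexc hd.f_proj hd.f_nest hfB hc' l₀)
    obtain ⟨n, hn1, hn2⟩ := ((t1.eventually (gt_mem_nhds hε)).and
      (t2.eventually (gt_mem_nhds hε))).exists
    rw [← hα] at hn1
    rw [← hβ] at hn2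
    have t3 := tendsto_zero_iff_norm_tendsto_zero.mp (hcr (c' * a n * a n * star c)
      (mul_mem (mul_mem (mul_mem hc' (haB n)) (haB n)) (star_mem hc)))
    obtain ⟨l, hl1, hl2⟩ := ((t3.eventually (gt_mem_nhds hε)).and (eventually_ge_atTop l₀)).exists
    have k1 := hm₁ l₀ ((le_max_left _ _).trans hl₀) l hl2
    have k2 := hm₂ l₀ ((le_max_right _ _).trans hl₀) l hl2
    obtain ⟨p, ⟨hp1, hp2⟩, hp3⟩ := ((((ha.tendsto_sN ((e l₀ - e l) * c)).eventually
      (gt_mem_nhds (k1.trans_lt (half_lt_self hε)))).and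
      ((ha.tendsto_sN ((f l₀ - f l) * c')).eventually
      (gt_mem_nhds (k2.trans_lt (half_lt_self hε))))).and (eventually_gt_atTop n)).exists
    have np := ha.norm_le p
    have nn := ha.norm_le n
    have ne' := fun k => IsStarProjection.norm_le _ (hd.e_proj k)
    have nf := fun k => IsStarProjection.norm_le _ (hd.f_proj k)
    set Ye := a n * (star c * e l₀ * c) * a n with hYe
    set Yf := a n * (star c' * f l₀ * c') * a n with hYf
    have hpn := ha.mul_of_gt hp3
    have hnp := ha.mul_of_lt hp3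
    -- the main identity
    have e1 : ((β * α : ℝ) : ℂ) • (a p * a p) =
        a p * star c' * (f l * (c' * a n * a n * star c) * e l) * (c * a p)
        + star ((f l₀ - f l) * c' * a p) * (c' * a n * a n * star c * e l * c * a p)
        + (a p * star c' * f l₀ * c' * a n * a n * star c) * ((e l₀ - e l) * c * a p)
        - a p * ((Yf - (β : ℂ) • (a n * a n)) * Ye) * a p
        - (β : ℂ) • (a p * ((a n * a n) * (Ye - (α : ℂ) • (a n * a n))) * a p) := by
      have q1 : a p * (Yf * Ye) * a p =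
          a p * star c' * f l₀ * c' * a n * a n * star c * e l₀ * c * a p := by
        calc a p * (Yf * Ye) * a p = (a p * a n) * star c' * f l₀ * c' * a n * a n * star c *
              e l₀ * c * (a n * a p) := by rw [hYe, hYf]; noncomm_ring
          _ = _ := by rw [hpn, hnp]
      have q2 : a p * (a n * a n * (a n * a n)) * a p = a p * a p := by
        calc a p * (a n * a n * (a n * a n)) * a p = ((a p * a n) * a n) * (a n * (a n * a p)) := by
              noncomm_ring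
          _ = _ := by rw [hpn, hnp, hpn, hnp]
      simp only [star_mul, star_sub, hd.f_sa, ha.sa, sub_mul, mul_sub, smul_mul_assoc,
        mul_smul_comm, smul_sub, q1, q2, smul_smul, Complex.ofReal_mul]
      noncomm_ring
    have b0 : ‖((β * α : ℝ) : ℂ) • (a p * a p)‖ = β * α := by
      rw [norm_smul, ha.norm_sq_eq_one hne, mul_one, Complex.norm_real, Real.norm_eq_abs,
        abs_of_nonneg (by positivity)]
    have b1 : ‖a p * star c' * (f l * (c' * a n * a n * star c) * e l) * (c * a p)‖ ≤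
        ‖c'‖ * ε * ‖c‖ := by
      refine (norm_mul3_le _ _ _).trans ?_
      have := norm_mul_le_right (star c') np
      have := norm_mul_le_left c np
      rw [norm_star] at *
      gcongr
    have b2 : ‖star ((f l₀ - f l) * c' * a p) * (c' * a n * a n * star c * e l * c * a p)‖ ≤
        ε * (‖c'‖ * ‖c‖ * ‖c‖) := by
      refine (norm_mul_le _ _).trans ?_
      rw [norm_star]
      gcongr
      refine (norm_mul_le_left _ np).trans ((norm_mul_le _ _).trans ?_)
      gcongr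
      refine (norm_mul_le_left _ (ne' l)).trans ((norm_mul_le _ _).trans ?_)
      rw [norm_star]
      gcongr
      exact (norm_mul_le_left _ nn).trans (norm_mul_le_left _ nn)
    have b3 : ‖(a p * star c' * f l₀ * c' * a n * a n * star c) * ((e l₀ - e l) * c * a p)‖ ≤
        (‖c'‖ * ‖c'‖ * ‖c‖) * ε := by
      refine (norm_mul_le _ _).trans ?_
      gcongr
      refine (norm_mul_le _ _).trans ?_
      rw [norm_star]
      gcongr
      refine (norm_mul_le_left _ nn).trans ((norm_mul_le_left _ nn).trans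
        ((norm_mul_le _ _).trans ?_))
      gcongr
      refine (norm_mul_le_left _ (nf l₀)).trans ?_
      have := norm_mul_le_right (star c') np
      rwa [norm_star] at this
    have bYe : ‖Ye‖ ≤ ‖c‖ * ‖c‖ := by
      refine (norm_conj_le_of_le_one _ nn nn).trans ((norm_mul_le _ _).trans ?_)
      gcongr
      have := norm_mul_le_left (star c) (ne' l₀)
      rwa [norm_star] at this
    have b4 : ‖a p * ((Yf - (β : ℂ) • (a n * a n)) * Ye) * a p‖ ≤ ε * (‖c‖ * ‖c‖) := by
      refine (norm_conj_le_of_le_one _ np np).trans ((norm_mul_le _ _).trans ?_)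
      gcongr
    have bβ : β ≤ ‖c'‖ * ‖c'‖ := by
      have := (ha.sN_le_norm (f l₀ * c')).trans (norm_mul_le_right c' (nf l₀))
      have h0 := ha.sN_nonneg (f l₀ * c')
      rw [hβ, sq]; gcongr
    have b5 : ‖(β : ℂ) • (a p * ((a n * a n) * (Ye - (α : ℂ) • (a n * a n))) * a p)‖ ≤
        (‖c'‖ * ‖c'‖) * ε := by
      rw [norm_smul, Complex.norm_real, Real.norm_eq_abs, abs_of_nonneg (by positivity)]
      gcongr
      exact (norm_conj_le_of_le_one _ np np).trans
        ((norm_mul_le_right _ (ha.norm_sq_le n)).trans hn1.le)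
    have hfin : β * α ≤ ‖c'‖ * ε * ‖c‖ + ε * (‖c'‖ * ‖c‖ * ‖c‖) + (‖c'‖ * ‖c'‖ * ‖c‖) * ε +
        ε * (‖c‖ * ‖c‖) + (‖c'‖ * ‖c'‖) * ε := by
      rw [← b0, e1]
      refine (norm_sub_le _ _).trans (add_le_add ((norm_sub_le _ _).trans (add_le_add
        (norm_add₃_le.trans (add_le_add (add_le_add b1 b2) b3)) b4)) b5)
    rw [mul_pow, ← hα, ← hβ]
    nlinarith
  set K := ‖c'‖ * ‖c‖ + ‖c'‖ * ‖c‖ * ‖c‖ + ‖c'‖ * ‖c'‖ * ‖c‖ + (‖c‖ * ‖c‖ + ‖c'‖ * ‖c'‖)
  have hK : 0 ≤ K := by positivity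
  rw [Metric.tendsto_atTop]
  intro δ hδ
  obtain ⟨l₀, hl₀⟩ := key (min 1 (δ ^ 2 / (2 * (K + 1)))) (by positivity) (min_le_left _ _)
  refine ⟨l₀, fun l hl => ?_⟩
  have h0 : 0 ≤ sN a (e l * c) * sN a (f l * c') := mul_nonneg (ha.sN_nonneg _) (ha.sN_nonneg _)
  rw [Real.dist_eq, sub_zero, abs_of_nonneg h0]
  refine lt_of_pow_lt_pow_left₀ 2 hδ.le ((hl₀ l hl).trans_lt ?_)
  calc min 1 (δ ^ 2 / (2 * (K + 1))) * K ≤ δ ^ 2 / (2 * (K + 1)) * (K + 1) := by
        gcongr
        · exact min_le_right _ _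
        · linarith
    _ = δ ^ 2 / 2 := by field_simp
    _ < δ ^ 2 := half_lt_self (by positivity)

end Nest

end Crest.Agent.R120
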