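import Crest.Agent.R120.Ext
import Crest.Agent.R120.Limit
import Crest.Agent.R120.Base

/-! Row 120: successor and limit stages, the maximal model, and unique extension of excision. -/

set_option autoImplicit false
set_option linter.style.haveILetI false
set_option linter.unusedSectionVars false

open Filter Topology Crest.OpAlg

noncomputable section

namespace Crest.Agent.R120

/-- the child relation on codes -/
def Code.Child (a b : Code) : Prop := ∃ ch dat k, b = Code.node ch dat ∧ a = ch k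

theorem Code.child_wf : WellFounded Code.Child := by
  refine ⟨fun γ => ?_⟩
  induction γ with
  | base N i => exact ⟨_, by rintro _ ⟨ch, dat, k, h, -⟩; cases h⟩
  | node ch dat ih =>
    refine ⟨_, ?_⟩
    rintro _ ⟨ch', dat', k, h, rfl⟩
    cases h
    exact ih k

theorem Code.child_ne (ch : ℕ → Code) (dat : Dat) (k : ℕ) : ch k ≠ Code.node ch dat := fun h =>
  Code.child_wf.irrefl.irrefl (Code.node ch dat) ⟨ch, dat, k, rfl, h.symm⟩

theorem IsCl.insert {T : Set Code} (hT : IsCl T) {ch : ℕ → Code} (dat : Dat)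
    (h : ∀ k, ch k ∈ T) : IsCl (insert (Code.node ch dat) T) where
  base N i := Or.inr (hT.base N i)
  node ch' dat' h' k := by
    rcases h' with h' | h'
    · cases h'; exact Or.inr (h k)
    · exact Or.inr (hT.node _ _ h' k)

theorem IsCl.inter {T T' : Set Code} (hT : IsCl T) (hT' : IsCl T') : IsCl (T ∩ T') where
  base N i := ⟨hT.base N i, hT'.base N i⟩
  node _ _ h k := ⟨hT.node _ _ h.1 k, hT'.node _ _ h.2 k⟩

theorem IsCl.union {T T' : Set Code} (hT : IsCl T) (hT' : IsCl T') : IsCl (T ∪ T') where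
  base N i := Or.inl (hT.base N i)
  node _ _ h k := h.elim (fun h => Or.inl (hT.node _ _ h k)) fun h => Or.inr (hT'.node _ _ h k)

section Alg

variable {A : Type*} [CStarAlgebra A] {τ : A →ₗ[ℂ] ℂ} {U : Code → A}

theorem isClosed_alg (U : Code → A) (T : Set Code) : IsClosed (alg U T : Set A) := isClosed_gen _

theorem mem_alg {T : Set Code} {γ : Code} (h : γ ∈ T) : U γ ∈ alg U T :=
  subset_gen _ ⟨γ, h, rfl⟩

theorem alg_mono {T T' : Set Code} (h : T ⊆ T') : alg U T ≤ alg U T' :=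
  gen_mono (Set.image_mono h)

theorem alg_insert (γ : Code) (T : Set Code) :
    alg U (insert γ T) = gen (insert (U γ) (alg U T : Set A)) := by
  rw [alg, Set.image_insert_eq, alg, gen_insert]

theorem ev_mem {T : Set Code} {ch : ℕ → Code} (h : ∀ k, ch k ∈ T) (p : FreeAlgebra ℂ ℕ) :
    ev U ch p ∈ alg U T := by
  induction p using FreeAlgebra.induction with
  | grade0 r => rw [AlgHom.commutes]; exact algebraMap_mem _ r
  | grade1 k => simpa [ev] using mem_alg (h k)
  | mul a b ha hb => rw [map_mul]; exact mul_mem ha hb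
  | add a b ha hb => rw [map_add]; exact add_mem ha hb

theorem Coded.e_mem {T : Set Code} {ch : ℕ → Code} {dat : Dat} {e f : ℕ → A}
    (hc : Coded U ch dat e f) (h : ∀ k, ch k ∈ T) (n : ℕ) : e n ∈ alg U T :=
  (isClosed_alg U T).mem_of_tendsto (hc.1 n) (Eventually.of_forall fun _ => ev_mem h _)

theorem Coded.f_mem {T : Set Code} {ch : ℕ → Code} {dat : Dat} {e f : ℕ → A}
    (hc : Coded U ch dat e f) (h : ∀ k, ch k ∈ T) (n : ℕ) : f n ∈ alg U T :=
  (isClosed_alg U T).mem_of_tendsto (hc.2 n) (Eventually.of_forall fun _ => ev_mem h _)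

theorem Coded.unique {ch : ℕ → Code} {dat : Dat} {e f e' f' : ℕ → A}
    (h : Coded U ch dat e f) (h' : Coded U ch dat e' f') : e = e' ∧ f = f' :=
  ⟨funext fun n => tendsto_nhds_unique (h.1 n) (h'.1 n),
    funext fun n => tendsto_nhds_unique (h.2 n) (h'.2 n)⟩

theorem exists_poly {ch : ℕ → Code} (hsa : ∀ k, star (U (ch k)) = U (ch k)) {x : A}
    (hx : x ∈ alg U (Set.range ch)) :
    ∃ p : ℕ → FreeAlgebra ℂ ℕ, Tendsto (fun k => ev U ch (p k)) atTop (𝓝 x) := by
  have h1 : ∀ y ∈ StarAlgebra.adjoin ℂ (U '' Set.range ch), y ∈ Set.range (ev U ch) := by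
    intro y hy
    rw [← StarSubalgebra.mem_toSubalgebra, StarAlgebra.adjoin_toSubalgebra] at hy
    refine Algebra.adjoin_le (S := (ev U ch).range) ?_ hy
    rintro z (⟨_, ⟨k, rfl⟩, rfl⟩ | hz)
    · exact ⟨FreeAlgebra.ι ℂ k, by simp [ev]⟩
    · rw [Set.mem_star] at hz
      obtain ⟨_, ⟨k, rfl⟩, hk⟩ := hz
      refine ⟨FreeAlgebra.ι ℂ k, ?_⟩
      have : z = U (ch k) := by rw [← star_star z, ← hk, hsa]
      simp [ev, this]
  obtain ⟨y, hy, hlim⟩ := mem_closure_iff_seq_limit.mp (closure_mono h1 hx)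
  choose p hp using hy
  exact ⟨p, by simpa only [hp] using hlim⟩

theorem exists_code {ch : ℕ → Code} (hsa : ∀ k, star (U (ch k)) = U (ch k)) {e f : ℕ → A}
    (he : ∀ n, e n ∈ alg U (Set.range ch)) (hf : ∀ n, f n ∈ alg U (Set.range ch)) :
    ∃ dat : Dat, Coded U ch dat e f := by
  choose p hp using fun n => exists_poly hsa (he n)
  choose q hq using fun n => exists_poly hsa (hf n)
  exact ⟨fun b => cond b p q, hp, hq⟩

theorem exc_conj {e f : ℕ → A} {u : A} (hu : u * u = 1) (hc : ∀ n, u * e n * u = f n) {x : A}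
    (h : Exc e (u * x * u)) : Exc f x := by
  obtain ⟨l, hl⟩ := h
  refine ⟨l, ?_⟩
  have := (hl.const_mul u).mul_const u
  simp only [mul_zero, zero_mul] at this
  refine this.congr fun n => ?_
  rw [← hc n]
  have : u * e n * u * (u * e n * u) = u * (e n * (u * u) * e n) * u := by noncomm_ring
  rw [this, hu]
  simp only [mul_sub, sub_mul, mul_smul_comm, smul_mul_assoc, mul_one]
  congr 1
  noncomm_ring

theorem NodeOK.exc_f {I : Set Code} {ch : ℕ → Code} {dat : Dat} {e f : ℕ → A}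
    (h : NodeOK τ U I ch dat e f) (x : A) : Exc f x := exc_conj h.u_sq h.conj (h.exc _)

theorem step_of_free (hτ : IsFaithfulTracialState τ) {e f : ℕ → A} (hd : Data τ e f)
    {B : StarSubalgebra ℂ A} (hB : IsClosed (B : Set A)) (heB : ∀ n, e n ∈ B) (hfB : ∀ n, f n ∈ B)
    {u : A} (hsa : star u = u) (hu : u * u = 1) (hc : ∀ n, u * e n * u = f n)
    (hexc : ∀ x, Exc e x) (hfree : Free τ e f B u) : Step τ e f B u where
  tr := hτ
  closed := hB
  data := hd
  e_mem := heB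
  f_mem := hfB
  u_sa := hsa
  u_sq := hu
  conj := hc
  free := hfree
  exc_e x _ := hexc x
  exc_f x _ := exc_conj hu hc (hexc _)
  cross x hx := by
    have h1 := tendsto_conj_of_tr hτ hd (hexc (x * u)) (fun n => by
      rw [← mul_assoc, tr_comm hτ]
      exact hfree _ (.base (mul_mem (heB n) hx)))
    have h2 := h1.mul_const u
    rw [zero_mul] at h2
    refine h2.congr fun n => ?_
    rw [← hc n]; noncomm_ring

theorem NodeOK.step (hτ : IsFaithfulTracialState τ) {I : Set Code} {ch : ℕ → Code} {dat : Dat}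
    {e f : ℕ → A} (h : NodeOK τ U I ch dat e f)
    (hsa : star (U (.node ch dat)) = U (.node ch dat)) {T : Set Code} (hT : IsCl T) (hTI : T ⊆ I)
    (hch : ∀ k, ch k ∈ T) (hγ : Code.node ch dat ∉ T) :
    Step τ e f (alg U T) (U (.node ch dat)) :=
  step_of_free hτ h.data (isClosed_alg U T) (h.coded.e_mem hch) (h.coded.f_mem hch) hsa h.u_sq
    h.conj h.exc (h.free T hT hTI hch hγ)

section Map

variable {A' : Type*} [CStarAlgebra A'] {τ' : A' →ₗ[ℂ] ℂ} {U' : Code → A'} (ι : A →⋆ₐ[ℂ] A')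

theorem ev_map {ch : ℕ → Code} (h : ∀ k, ι (U (ch k)) = U' (ch k)) (p : FreeAlgebra ℂ ℕ) :
    ι (ev U ch p) = ev U' ch p := by
  induction p using FreeAlgebra.induction with
  | grade0 r => rw [AlgHom.commutes, AlgHom.commutes, AlgHomClass.commutes]
  | grade1 k => simpa [ev] using h k
  | mul a b ha hb => rw [map_mul, map_mul, map_mul, ha, hb]
  | add a b ha hb => rw [map_add, map_add, map_add, ha, hb]

theorem Coded.map {ch : ℕ → Code} (h : ∀ k, ι (U (ch k)) = U' (ch k)) {dat : Dat} {e f : ℕ → A}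
    (hc : Coded U ch dat e f) : Coded U' ch dat (fun n => ι (e n)) (fun n => ι (f n)) := by
  refine ⟨fun n => ?_, fun n => ?_⟩
  · exact (((hom_continuous ι).tendsto _).comp (hc.1 n)).congr fun k => ev_map ι h _
  · exact (((hom_continuous ι).tendsto _).comp (hc.2 n)).congr fun k => ev_map ι h _

theorem alg_map (hτ : IsFaithfulTracialState τ) (hι : ∀ a, τ' (ι a) = τ a) {T : Set Code}
    (h : ∀ γ ∈ T, ι (U γ) = U' γ) : (alg U T).map ι = alg U' T := by
  rw [alg, map_gen ι hι hτ, alg, Set.image_image]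
  congr 1
  exact Set.image_congr h

theorem IsBase.map (hι : ∀ a, τ' (ι a) = τ a) {g : ℕ → ℕ → A} (hg : IsBase τ g) :
    IsBase τ' (fun N i => ι (g N i)) where
  proj N i := (hg.proj N i).map ι
  orth N i j h := by rw [← map_mul, hg.orth N i j h, map_zero]
  sum N := by rw [← map_sum, hg.sum, map_one]
  tr N i h := by rw [hι, hg.tr N i h]

end Map

end Alg

theorem Model.range_eq (M : Model) {A' : Type*} [CStarAlgebra A'] {τ' : A' →ₗ[ℂ] ℂ}
    {U' : Code → A'} (ι : M.A →⋆ₐ[ℂ] A') (hι : ∀ a, τ' (ι a) = M.τ a)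
    (h : ∀ γ ∈ M.I, ι (M.U γ) = U' γ) : ι.range = alg U' M.I := by
  rw [← alg_map ι M.tr hι h, M.gen_top, StarAlgHom.range_eq_map_top]

theorem Model.le_refl (M : Model) : M.Le M :=
  ⟨subset_rfl, StarAlgHom.id ℂ M.A, fun _ => rfl, fun _ _ => rfl⟩

theorem Model.Le.trans {M₁ M₂ M₃ : Model} (h : M₁.Le M₂) (h' : M₂.Le M₃) : M₁.Le M₃ := by
  obtain ⟨h1, ι, h2, h3⟩ := h
  obtain ⟨k1, κ, k2, k3⟩ := h'
  refine ⟨h1.trans k1, κ.comp ι, fun a => ?_, fun γ hγ => ?_⟩
  · rw [StarAlgHom.comp_apply, k2, h2]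
  · rw [StarAlgHom.comp_apply, h3 γ hγ, k3 γ (h1 hγ)]

/-- the successor stage -/
theorem Model.exists_succ (M : Model) {ch : ℕ → Code} {dat : Dat} (hγ : Code.node ch dat ∉ M.I)
    (hch : ∀ k, ch k ∈ M.I) {e f : ℕ → M.A} (hc : Coded M.U ch dat e f) (hd : Data M.τ e f)
    (he : ∀ x, Exc e x) (hf : ∀ x, Exc f x) (hcr : ∀ x, Cross e f x) :
    ∃ M' : Model, M.Le M' ∧ Code.node ch dat ∈ M'.I := by
  classical
  obtain ⟨A', _, τ', ι, u, hτ', hι, hu1, hu2, hu3, hfree, htop⟩ := exists_free_ext M.tr hd he hf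
  set γ := Code.node ch dat with hγdef
  let U' : Code → A' := fun δ => if δ = γ then u else ι (M.U δ)
  have hU'γ : U' γ = u := if_pos rfl
  have hU' : ∀ δ ∈ M.I, ι (M.U δ) = U' δ := fun δ hδ =>
    (if_neg (fun h : δ = γ => hγ (h ▸ hδ))).symm
  have hrange := M.range_eq ι hι hU'
  have hs : Step τ' (fun n => ι (e n)) (fun n => ι (f n)) ι.range u :=
    { tr := hτ'
      closed := isClosed_range ι hι M.tr
      data := hd.map ι hι
      e_mem := fun n => ⟨e n, rfl⟩
      f_mem := fun n => ⟨f n, rfl⟩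
      u_sa := hu1
      u_sq := hu2
      conj := hu3
      free := hfree
      exc_e := by rintro _ ⟨x, rfl⟩; exact (he x).map ι
      exc_f := by rintro _ ⟨x, rfl⟩; exact (hf x).map ι
      cross := by rintro _ ⟨x, rfl⟩; exact (hcr x).map ι }
  have ext_exc : ∀ {a : ℕ → M.A}, Nest M.τ a → (∀ x, Exc a x) →
      ∀ x, Exc (fun n => ι (a n)) x := fun {a} ha hexc x =>
    hs.exc_gen (ha.map ι hι) (fun n => ⟨a n, rfl⟩)
      (by rintro _ ⟨x, rfl⟩; exact (hexc x).map ι) (htop ▸ StarSubalgebra.mem_top)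
  have hnew := ext_exc hd.nest_e he
  refine ⟨{ I := insert γ M.I, A := A', τ := τ', U := U', tr := hτ', cl := M.cl.insert dat hch,
            gen_top := ?_, sa := ?_, base := ?_, node := ?_ },
    ⟨Set.subset_insert _ _, ι, hι, hU'⟩, Set.mem_insert _ _⟩
  · rw [alg_insert, hU'γ, ← hrange, htop]
  · rintro δ (rfl | hδ)
    · rw [hU'γ, hu1]
    · rw [← hU' δ hδ, ← map_star, M.sa δ hδ]
  · have := M.base.map ι hι
    simpa only [fun N i => hU' _ (M.cl.base N i)] using this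
  · rintro ch' dat' (h | h)
    · -- the new node
      obtain ⟨rfl, rfl⟩ := Code.node.inj (h.trans hγdef)
      refine ⟨fun n => ι (e n), fun n => ι (f n), hc.map ι fun k => hU' _ (hch k), hd.map ι hι,
        by rw [hU'γ, hu2], by rw [hU'γ]; exact hu3, hnew, fun T _ hTI _ hT => ?_⟩
      rw [hU'γ]
      refine hfree.mono ?_
      rw [hrange]
      exact alg_mono fun δ hδ => (hTI hδ).resolve_left fun h => hT (by rw [← hγdef, ← h]; exact hδ)
    · -- an old node
      obtain ⟨e', f', hn⟩ := M.node ch' dat' h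
      have hch' := M.cl.node _ _ h
      have hUδ := hU' _ h
      have hexc := ext_exc hn.data.nest_e hn.exc
      have hsq : U' (.node ch' dat') * U' (.node ch' dat') = 1 := by
        rw [← hUδ, ← map_mul, hn.u_sq, map_one]
      have hconj : ∀ n, U' (.node ch' dat') * ι (e' n) * U' (.node ch' dat') = ι (f' n) :=
        fun n => by rw [← hUδ, ← map_mul, ← map_mul, hn.conj]
      have hsa : star (U' (.node ch' dat')) = U' (.node ch' dat') := by
        rw [← hUδ, ← map_star, M.sa _ h]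
      have hcoded := hn.coded.map ι fun k => hU' _ (hch' k)
      have old : ∀ T, IsCl T → T ⊆ M.I → (∀ k, ch' k ∈ T) → Code.node ch' dat' ∉ T →
          Free τ' (fun n => ι (e' n)) (fun n => ι (f' n)) (alg U' T) (U' (.node ch' dat')) := by
        intro T hT hTI h1 h2
        rw [← hUδ, ← alg_map ι M.tr hι fun δ hδ => hU' δ (hTI hδ)]
        exact (hn.free T hT hTI h1 h2).map ι hι
      refine ⟨fun n => ι (e' n), fun n => ι (f' n), hcoded, hn.data.map ι hι, hsq, hconj, hexc,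
        fun T hT hTI h1 h2 => ?_⟩
      by_cases hγT : γ ∈ T
      swap
      · exact old T hT (fun δ hδ => (hTI hδ).resolve_left fun h => hγT (h ▸ hδ)) h1 h2
      have hT0 : IsCl (T ∩ M.I) := hT.inter M.cl
      have hTeq : T = insert γ (T ∩ M.I) := by
        ext δ
        constructor
        · intro hδ
          rcases hTI hδ with h | h
          exacts [Or.inl h, Or.inr ⟨hδ, h⟩]
        · rintro (rfl | h)
          exacts [hγT, h.1]
      have h1' : ∀ k, ch' k ∈ T ∩ M.I := fun k => ⟨h1 k, hch' k⟩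
      have hch0 : ∀ k, ch k ∈ T ∩ M.I := fun k => ⟨hT.node _ _ hγT k, hch k⟩
      have hle : alg U' (T ∩ M.I) ≤ ι.range := hrange ▸ alg_mono Set.inter_subset_right
      have s1 : Step τ' (fun n => ι (e' n)) (fun n => ι (f' n)) (alg U' (T ∩ M.I))
          (U' (.node ch' dat')) :=
        step_of_free hτ' (hn.data.map ι hι) (isClosed_alg _ _) (hcoded.e_mem h1')
          (hcoded.f_mem h1') hsa hsq hconj hexc
          (old _ hT0 Set.inter_subset_right h1' fun h => h2 h.1)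
      have hc' := hc.map ι fun k => hU' _ (hch k)
      have s2 : Step τ' (fun n => ι (e n)) (fun n => ι (f n)) (alg U' (T ∩ M.I)) u :=
        step_of_free hτ' (hd.map ι hι) (isClosed_alg _ _) (hc'.e_mem hch0) (hc'.f_mem hch0) hu1
          hu2 hu3 hnew (hfree.mono hle)
      rw [hTeq, alg_insert, hU'γ]
      exact free_comm s1 hexc (fun x => exc_conj hsq hconj (hexc _)) s2 hle ⟨_, hUδ⟩ hfree

/-- the limit stage -/
theorem Model.exists_ub (C : Set Model) (hne : C.Nonempty)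
    (hC : ∀ M ∈ C, ∀ M' ∈ C, M.Le M' ∨ M'.Le M) : ∃ M' : Model, ∀ M ∈ C, M.Le M' := by
  obtain ⟨A, _, τ, U, hτ, htop, hι⟩ := Model.exists_limit C hne hC
  choose ι hι1 hι2 using hι
  have hsub : ∀ M ∈ C, ∀ M' ∈ C, ∃ M'' ∈ C, M.I ⊆ M''.I ∧ M'.I ⊆ M''.I := by
    intro M hM M' hM'
    rcases hC M hM M' hM' with h | h
    · exact ⟨M', hM', h.1, subset_rfl⟩
    · exact ⟨M, hM, subset_rfl, h.1⟩
  obtain ⟨M₀, hM₀⟩ := hne
  refine ⟨{ I := ⋃ M ∈ C, M.I, A := A, τ := τ, U := U, tr := hτ, cl := ⟨?_, ?_⟩,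
            gen_top := htop, sa := ?_, base := ?_, node := ?_ },
    fun M hM => ⟨Set.subset_biUnion_of_mem (u := fun M => M.I) hM, ι M hM, hι1 M hM, hι2 M hM⟩⟩
  · exact fun N i => Set.mem_biUnion hM₀ (M₀.cl.base N i)
  · intro ch dat h k
    obtain ⟨M, hM, h⟩ := Set.mem_iUnion₂.mp h
    exact Set.mem_biUnion hM (M.cl.node _ _ h k)
  · intro γ h
    obtain ⟨M, hM, h⟩ := Set.mem_iUnion₂.mp h
    rw [← hι2 M hM γ h, ← map_star, M.sa γ h]
  · have := M₀.base.map (ι M₀ hM₀) (hι1 M₀ hM₀)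
    simpa only [fun N i => hι2 M₀ hM₀ _ (M₀.cl.base N i)] using this
  · intro ch dat h
    obtain ⟨M₁, hM₁, h₁⟩ := Set.mem_iUnion₂.mp h
    obtain ⟨e₁, f₁, hn₁⟩ := M₁.node ch dat h₁
    set e : ℕ → A := fun n => ι M₁ hM₁ (e₁ n) with he
    set f : ℕ → A := fun n => ι M₁ hM₁ (f₁ n) with hf
    have hcoded : Coded U ch dat e f :=
      hn₁.coded.map _ fun k => hι2 M₁ hM₁ _ (M₁.cl.node _ _ h₁ k)
    have hdata : Data τ e f := hn₁.data.map _ (hι1 M₁ hM₁)
    have hsq : U (.node ch dat) * U (.node ch dat) = 1 := by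
      rw [← hι2 M₁ hM₁ _ h₁, ← map_mul, hn₁.u_sq, map_one]
    have hconj : ∀ n, U (.node ch dat) * e n * U (.node ch dat) = f n := fun n => by
      rw [← hι2 M₁ hM₁ _ h₁, he, ← map_mul, ← map_mul, hn₁.conj]
    -- the models containing the node
    let J := {M : Model // M ∈ C ∧ Code.node ch dat ∈ M.I}
    haveI : Nonempty J := ⟨⟨M₁, hM₁, h₁⟩⟩
    have hJ : ∀ j : J, ∃ e' f', NodeOK j.1.τ j.1.U j.1.I ch dat e' f' ∧
        e = (fun n => ι j.1 j.2.1 (e' n)) ∧ f = fun n => ι j.1 j.2.1 (f' n) := by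
      rintro ⟨M, hM, hγ⟩
      obtain ⟨e', f', hn⟩ := M.node ch dat hγ
      exact ⟨e', f', hn, hcoded.unique (hn.coded.map _ fun k => hι2 M hM _ (M.cl.node _ _ hγ k))⟩
    have hdirI : ∀ T : Set Code, Directed (· ⊆ ·) fun j : J => T ∩ j.1.I := by
      rintro T ⟨M, hM, hγ⟩ ⟨M', hM', hγ'⟩
      obtain ⟨M'', h0, h1, h2⟩ := hsub M hM M' hM'
      exact ⟨⟨M'', h0, h1 hγ⟩, Set.inter_subset_inter_right _ h1,
        Set.inter_subset_inter_right _ h2⟩
    have hclos : ∀ T ⊆ ⋃ M ∈ C, M.I, ∀ x ∈ alg U T,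
        x ∈ closure (⋃ j : J, (alg U (T ∩ j.1.I) : Set A)) := by
      intro T hT x hx
      refine mem_closure_iUnion_gen (S := fun j : J => U '' (T ∩ j.1.I)) (fun i j => ?_) ?_
      · obtain ⟨k, h1, h2⟩ := hdirI T i j
        exact ⟨k, Set.image_mono h1, Set.image_mono h2⟩
      · refine gen_mono ?_ hx
        rintro _ ⟨δ, hδ, rfl⟩
        obtain ⟨M, hM, hδM⟩ := Set.mem_iUnion₂.mp (hT hδ)
        obtain ⟨M'', h0, h1, h2⟩ := hsub M hM M₁ hM₁
        exact Set.mem_iUnion.mpr ⟨⟨M'', h0, h2 h₁⟩, δ, ⟨hδ, h1 hδM⟩, rfl⟩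
    have hexc : ∀ x, Exc e x := by
      intro x
      refine hdata.nest_e.exc_of_mem_closure ?_
        (hclos _ subset_rfl x (htop ▸ StarSubalgebra.mem_top))
      intro y hy
      obtain ⟨j, hj⟩ := Set.mem_iUnion.mp hy
      obtain ⟨e', f', hn, h1, -⟩ := hJ j
      have : y ∈ (ι j.1 j.2.1).range := by
        rw [j.1.range_eq _ (hι1 _ j.2.1) (hι2 _ j.2.1)]
        exact alg_mono Set.inter_subset_right hj
      obtain ⟨z, rfl⟩ := this
      rw [h1]; exact (hn.exc z).map _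
    refine ⟨e, f, hcoded, hdata, hsq, hconj, hexc, fun T hT hTI h1 h2 => ?_⟩
    have hchJ : ∀ (j : J) k, ch k ∈ T ∩ j.1.I := fun j k => ⟨h1 k, j.1.cl.node _ _ j.2.2 k⟩
    refine free_of_directed hτ hdata hexc (fun x => exc_conj hsq hconj (hexc _))
      (Bi := fun j : J => alg U (T ∩ j.1.I)) (fun j => isClosed_alg _ _) (fun i j => ?_)
      (fun j => hcoded.e_mem (hchJ j)) (fun j => hcoded.f_mem (hchJ j)) (fun j => ?_)
      (hclos T hTI)
    · obtain ⟨k, h1, h2⟩ := hdirI T i j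
      exact ⟨k, alg_mono h1, alg_mono h2⟩
    · obtain ⟨e', f', hn, h3, h4⟩ := hJ j
      rw [h3, h4, ← hι2 _ j.2.1 _ j.2.2,
        ← alg_map _ j.1.tr (hι1 _ j.2.1) fun δ hδ => hι2 _ j.2.1 δ hδ.2]
      exact (hn.free _ (hT.inter j.1.cl) Set.inter_subset_right (hchJ j) fun h => h2 h.1).map _
        (hι1 _ j.2.1)

theorem exists_max_model : ∃ M : Model, ∀ M' : Model, M.Le M' → M'.Le M := by
  refine exists_maximal_of_chains_bounded (r := Model.Le) (fun C hC => ?_) Model.Le.trans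
  rcases C.eq_empty_or_nonempty with rfl | hne
  · obtain ⟨M⟩ := nonempty_model
    exact ⟨M, by simp⟩
  · refine Model.exists_ub C hne fun M hM M' hM' => ?_
    by_cases h : M = M'
    · exact Or.inl (h ▸ M.le_refl)
    · exact hC hM hM' h

/-- excision on the algebra of a closed set of codes extends to the whole model -/
theorem Model.exc_all (M : Model) {S : Set Code} (hS : IsCl S) (hSI : S ⊆ M.I) {a : ℕ → M.A}
    (ha : Nest M.τ a) (haS : ∀ n, a n ∈ alg M.U S) (hexc : ∀ x ∈ alg M.U S, Exc a x) (x : M.A) :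
    Exc a x := by
  let 𝒯 : Set (Set Code) := {T | IsCl T ∧ S ⊆ T ∧ T ⊆ M.I ∧ ∀ x ∈ alg M.U T, Exc a x}
  obtain ⟨T, -, hT⟩ := zorn_subset_nonempty 𝒯 (fun c hc hchain hne => by
    obtain ⟨T₀, hT₀⟩ := hne
    haveI : Nonempty c := ⟨⟨T₀, hT₀⟩⟩
    refine ⟨⋃₀ c, ⟨⟨fun N i => ⟨T₀, hT₀, (hc hT₀).1.base N i⟩, ?_⟩,
      (hc hT₀).2.1.trans (Set.subset_sUnion_of_mem hT₀),
      Set.sUnion_subset fun T hT => (hc hT).2.2.1, fun x hx => ?_⟩,
      fun T hT => Set.subset_sUnion_of_mem hT⟩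
    · rintro ch dat ⟨T, hT, h⟩ k
      exact ⟨T, hT, (hc hT).1.node _ _ h k⟩
    · have h1 : x ∈ closure (⋃ T : c, (alg M.U T : Set M.A)) := by
        refine mem_closure_iUnion_gen (S := fun T : c => M.U '' T.1) (fun i j => ?_) ?_
        · obtain ⟨k, h1, h2⟩ := hchain.directed i j
          exact ⟨k, Set.image_mono h1, Set.image_mono h2⟩
        · refine gen_mono ?_ hx
          rintro _ ⟨δ, ⟨T, hT, hδ⟩, rfl⟩
          exact Set.mem_iUnion.mpr ⟨⟨T, hT⟩, δ, hδ, rfl⟩
      refine ha.exc_of_mem_closure (fun y hy => ?_) h1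
      obtain ⟨T, hT⟩ := Set.mem_iUnion.mp hy
      exact (hc T.2).2.2.2 y hT) S ⟨hS, subset_rfl, hSI, hexc⟩
  obtain ⟨hTc, hST, hTI, hTe⟩ := hT.prop
  have hIT : M.I ⊆ T := by
    by_contra hcon
    obtain ⟨γ, ⟨hγI, hγT⟩, hmin⟩ := Code.child_wf.has_min (M.I \ T)
      (Set.sdiff_nonempty.mpr hcon)
    cases γ with
    | base N i => exact hγT (hTc.base N i)
    | node ch dat =>
      have hch : ∀ k, ch k ∈ T := fun k => by
        by_contra h
        exact hmin (ch k) ⟨M.cl.node _ _ hγI k, h⟩ ⟨ch, dat, k, rfl, rfl⟩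
      obtain ⟨e, f, hn⟩ := M.node ch dat hγI
      have hs := hn.step M.tr (M.sa _ hγI) hTc hTI hch hγT
      have hmem : insert (Code.node ch dat) T ∈ 𝒯 := by
        refine ⟨hTc.insert dat hch, hST.trans (Set.subset_insert _ _),
          Set.insert_subset hγI hTI, fun x hx => ?_⟩
        rw [alg_insert] at hx
        exact hs.exc_gen ha (fun n => alg_mono hST (haS n)) hTe hx
      exact hγT (hT.le_of_ge hmem (Set.subset_insert _ _) (Set.mem_insert _ _))
  exact hTe x (alg_mono hIT (M.gen_top ▸ StarSubalgebra.mem_top))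

end Crest.Agent.R120
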