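import Crest.Agent.R120.Limsn

/-! Row 120: a nested excising sequence stays excising after one step. -/

set_option autoImplicit false
set_option linter.style.haveILetI false
set_option linter.unusedSectionVars false

open Filter Topology Crest.OpAlg

noncomputable section

namespace Crest.Agent.R120

variable {A : Type*} [CStarAlgebra A] {τ : A →ₗ[ℂ] ℂ} {e f : ℕ → A} {B : StarSubalgebra ℂ A}
  {u : A}

namespace Data

variable (hd : Data τ e f)
include hd

theorem R_sa (n : ℕ) : star (e n + f n) = e n + f n := (hd.R_proj n).isSelfAdjoint.star_eq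

theorem R_norm (n : ℕ) : ‖e n + f n‖ ≤ 1 := IsStarProjection.norm_le _ (hd.R_proj n)

theorem d_norm (n : ℕ) : ‖1 - (e n + f n)‖ ≤ 1 := IsStarProjection.norm_le _ (hd.r0_proj n)

theorem RR (i j : ℕ) : (e i + f i) * (e j + f j) = e (max i j) + f (max i j) := by
  rw [add_mul, mul_add, mul_add, hd.ee, hd.ef, hd.fe, hd.ff]; simp

theorem R_nest (n : ℕ) : (e n + f n) * (e (n + 1) + f (n + 1)) = e (n + 1) + f (n + 1) := by
  rw [hd.RR, max_eq_right (Nat.le_succ n)]

theorem RR_ge {i j : ℕ} (h : i ≤ j) : (e j + f j) * (e i + f i) = e j + f j := by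
  rw [hd.RR, max_eq_left h]

theorem RR_le {i j : ℕ} (h : i ≤ j) : (e i + f i) * (e j + f j) = e j + f j := by
  rw [hd.RR, max_eq_right h]

theorem nest_R : Nest τ (fun n => e n + f n) :=
  nest_of_proj hd.R_proj hd.R_nest (by
    have := hd.tr_lim.add hd.symm.tr_lim
    simpa using this)

end Data

namespace Step

variable (hs : Step τ e f B u)
include hs

theorem R_mem (n : ℕ) : e n + f n ∈ B := add_mem (hs.e_mem n) (hs.f_mem n)

theorem d_mem (n : ℕ) : 1 - (e n + f n) ∈ B := sub_mem (one_mem B) (hs.R_mem n)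

theorem tendsto_R_K {k : A} (hk : k ∈ KB τ e f B) :
    Tendsto (fun n => ‖(e n + f n) * k * (e n + f n)‖) atTop (𝓝 0) :=
  tendsto_zero_iff_norm_tendsto_zero.mp (tendsto_R_conj hs.tr hs.data hk.2 (hs.exc_e k hk.1)
    (hs.exc_f k hk.1) (hs.cross k hk.1) (hs.cross _ (star_mem hk.1)))

theorem R_mul_u (n : ℕ) : (e n + f n) * u = u * (e n + f n) := (u_mul_R hs.u_sq hs.conj n).symm

theorem norm_R_K_R_le {k : A} {m l l' : ℕ} (h : m ≤ l) (h' : m ≤ l') :
    ‖(e l + f l) * k * (e l' + f l')‖ ≤ ‖(e m + f m) * k * (e m + f m)‖ := by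
  have e1 : (e l + f l) * k * (e l' + f l') =
      (e l + f l) * ((e m + f m) * k * (e m + f m)) * (e l' + f l') := by
    conv_lhs => rw [← hs.data.RR_ge h, ← hs.data.RR_le h']
    noncomm_ring
  rw [e1]
  exact norm_conj_le_of_le_one _ (hs.data.R_norm l) (hs.data.R_norm l')

theorem n2_R_mul (k : A) : Tendsto (fun l => n2 τ ((e l + f l) * k)) atTop (𝓝 0) := by
  have := hs.data.nest_R.small.mul_const ‖k‖
  rw [zero_mul] at this
  exact squeeze_zero (fun _ => n2_nonneg _ _) (fun l => n2_mul_le_right hs.tr _ _) this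

theorem n2_mul_R (k : A) : Tendsto (fun l => n2 τ (k * (e l + f l))) atTop (𝓝 0) := by
  have := hs.data.nest_R.small.const_mul ‖k‖
  rw [mul_zero] at this
  exact squeeze_zero (fun _ => n2_nonneg _ _) (fun l => hs.state.n2_mul_le _ _) this

/-- words of length at least two are killed by compression with `e l + f l` -/
theorem tendsto_RR {k w : A} (hk : k ∈ KB τ e f B) (hw : Core (KB τ e f B) u w) :
    Tendsto (fun l => ‖(e l + f l) * (u * k * w) * (e l + f l)‖) atTop (𝓝 0) := by
  have nu := hs.norm_u_le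
  rcases hw.cases_right with rfl | ⟨w', k', hw', hk', rfl⟩
  · refine squeeze_zero (fun _ => norm_nonneg _) (fun l => ?_) (hs.tendsto_R_K hk)
    have e1 : (e l + f l) * (w * k * w) * (e l + f l) =
        w * ((e l + f l) * k * (e l + f l)) * w := by
      calc (e l + f l) * (w * k * w) * (e l + f l)
          = ((e l + f l) * w) * k * (w * (e l + f l)) := by noncomm_ring
        _ = (w * (e l + f l)) * k * ((e l + f l) * w) := by rw [hs.R_mul_u]
        _ = _ := by noncomm_ring
    rw [e1]; exact norm_conj_le_of_le_one _ nu nu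
  rw [Metric.tendsto_atTop]
  intro δ hδ
  set K := ‖w'‖ * ‖k'‖ + ‖k‖ * ‖w'‖ + 1 with hK
  have hKpos : 0 < K := by positivity
  set ε := δ / (2 * K) with hε
  have hεpos : 0 < ε := by positivity
  obtain ⟨m, hm1, hm2⟩ := (((hs.tendsto_R_K hk).eventually (gt_mem_nhds hεpos)).and
    ((hs.tendsto_R_K hk').eventually (gt_mem_nhds hεpos))).exists
  obtain ⟨C, hC, hdd⟩ := hs.norm_dd_le m
  have t1 : Tendsto (fun l => C * ‖w'‖ * (n2 τ ((e l + f l) * k) * ‖k'‖ +
      ‖k‖ * n2 τ (k' * (e l + f l)))) atTop (𝓝 (C * ‖w'‖ * (0 * ‖k'‖ + ‖k‖ * 0))) :=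
    (((hs.n2_R_mul k).mul_const _).add ((hs.n2_mul_R k').const_mul _)).const_mul _
  simp only [zero_mul, mul_zero, add_zero] at t1
  obtain ⟨l₀, hl₀⟩ := ((t1.eventually (gt_mem_nhds hεpos)).and
    (eventually_ge_atTop m)).exists_forall_of_atTop
  refine ⟨l₀, fun l hl => ?_⟩
  obtain ⟨h1, h2⟩ := hl₀ l hl
  rw [Real.dist_eq, sub_zero, abs_of_nonneg (norm_nonneg _)]
  have nR := hs.data.R_norm l
  have e1 : (e l + f l) * (u * k * (w' * k' * u)) * (e l + f l) =
      u * ((e l + f l) * k * (1 - (e m + f m)) * w' * ((1 - (e m + f m)) * (k' * (e l + f l)))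
        + (e l + f l) * k * (e m + f m) * (w' * k' * (e l + f l))
        + (e l + f l) * k * (1 - (e m + f m)) * w' * ((e m + f m) * k' * (e l + f l))) * u := by
    calc (e l + f l) * (u * k * (w' * k' * u)) * (e l + f l)
        = ((e l + f l) * u) * k * w' * k' * (u * (e l + f l)) := by noncomm_ring
      _ = (u * (e l + f l)) * k * w' * k' * ((e l + f l) * u) := by rw [hs.R_mul_u]
      _ = _ := by noncomm_ring
  rw [e1]
  refine (norm_conj_le_of_le_one _ nu nu).trans_lt (norm_add₃_le.trans_lt ?_)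
  have b1 := hdd w' hw' _ (mul_mem (hs.R_mem l) hk.1) _ (mul_mem hk'.1 (hs.R_mem l))
  have b1' : C * ‖w'‖ * (n2 τ ((e l + f l) * k) * ‖k' * (e l + f l)‖ +
      ‖(e l + f l) * k‖ * n2 τ (k' * (e l + f l))) ≤ C * ‖w'‖ * (n2 τ ((e l + f l) * k) * ‖k'‖ +
      ‖k‖ * n2 τ (k' * (e l + f l))) := by
    have := n2_nonneg τ ((e l + f l) * k)
    have := n2_nonneg τ (k' * (e l + f l))
    have := norm_mul_le_left k' nR
    have := norm_mul_le_right k nR
    gcongr
  have b2 : ‖(e l + f l) * k * (e m + f m) * (w' * k' * (e l + f l))‖ ≤ ε * (‖w'‖ * ‖k'‖) := by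
    refine (norm_mul_le _ _).trans ?_
    gcongr
    · exact (hs.norm_R_K_R_le h2 le_rfl).trans hm1.le
    · exact (norm_mul_le_left _ nR).trans (norm_mul_le _ _)
  have b3 : ‖(e l + f l) * k * (1 - (e m + f m)) * w' * ((e m + f m) * k' * (e l + f l))‖ ≤
      (‖k‖ * ‖w'‖) * ε := by
    refine (norm_mul_le _ _).trans ?_
    gcongr
    · refine (norm_mul_le _ _).trans ?_
      gcongr
      exact (norm_mul_le_left _ (hs.data.d_norm m)).trans (norm_mul_le_right _ nR)
    · exact (hs.norm_R_K_R_le le_rfl h2).trans hm2.le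
  have hεK : ε * K = δ / 2 := by rw [hε]; field_simp
  nlinarith

section Seq

variable {a : ℕ → A} (ha : Nest τ a) (haB : ∀ n, a n ∈ B)
include ha haB

theorem sN_dd_le (m : ℕ) : ∃ C : ℝ, 0 ≤ C ∧ ∀ w, Core (KB τ e f B) u w → ∀ b ∈ B, ∀ b' ∈ B,
    sN a (b * (1 - (e m + f m)) * w * ((1 - (e m + f m)) * b')) ≤ C * ‖w‖ * (n2 τ b * ‖b'‖) := by
  obtain ⟨C, hC, hdd⟩ := hs.norm_dd_le m
  refine ⟨C, hC, fun w hw b hb b' hb' => ?_⟩
  have t1 : Tendsto (fun n => C * ‖w‖ * (n2 τ b * ‖b'‖ + ‖b‖ * (‖b'‖ * n2 τ (a n)))) atTop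
      (𝓝 (C * ‖w‖ * (n2 τ b * ‖b'‖ + ‖b‖ * (‖b'‖ * 0)))) :=
    (tendsto_const_nhds.add ((ha.small.const_mul _).const_mul _)).const_mul _
  simp only [mul_zero, add_zero] at t1
  refine le_of_tendsto_of_tendsto' (ha.tendsto_sN _) t1 fun n => ?_
  have := hdd w hw b hb _ (mul_mem hb' (haB n))
  rw [mul_assoc _ _ (a n), mul_assoc _ b']
  refine this.trans ?_
  have := n2_nonneg τ b
  have := norm_mul_le_left b' (ha.norm_le n)
  have := hs.state.n2_mul_le b' (a n)
  gcongr

theorem sM_dd (m : ℕ) {w b b' : A} (hw : Core (KB τ e f B) u w) (hb : b ∈ B) (hb' : b' ∈ B) :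
    sM a (b * (1 - (e m + f m)) * w * ((1 - (e m + f m)) * b')) = 0 := by
  obtain ⟨C, hC, hdd⟩ := hs.sN_dd_le ha haB m
  refine le_antisymm ?_ (ha.sM_nonneg _)
  have t1 : Tendsto (fun n => C * ‖w‖ * (n2 τ (a n) * ‖b‖ * ‖b'‖)) atTop
      (𝓝 (C * ‖w‖ * (0 * ‖b‖ * ‖b'‖))) :=
    ((ha.small.mul_const _).mul_const _).const_mul _
  simp only [mul_zero, zero_mul] at t1
  refine ge_of_tendsto' t1 fun n => ?_
  have h1 := hdd w hw _ (mul_mem (haB n) hb) b' hb'
  have h2 : sM a (b * (1 - (e m + f m)) * w * ((1 - (e m + f m)) * b')) ≤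
      sN a (a n * b * (1 - (e m + f m)) * w * ((1 - (e m + f m)) * b')) := by
    refine le_of_tendsto_of_tendsto (ha.tendsto_sM _) (ha.tendsto_sN _) ?_
    filter_upwards [eventually_gt_atTop n] with p hp
    rw [← ha.mul_of_gt hp]
    have : a p * a n * (b * (1 - (e m + f m)) * w * ((1 - (e m + f m)) * b')) * (a p * a n) =
      a p * (a n * b * (1 - (e m + f m)) * w * ((1 - (e m + f m)) * b') * (a p * a n)) := by
      noncomm_ring
    rw [this]
    exact norm_mul_le_right _ (ha.norm_le p)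
  refine h2.trans (h1.trans ?_)
  have := n2_mul_le_right hs.tr (a n) b
  gcongr

theorem tendsto_Rd (m : ℕ) {w y : A} (hw : Core (KB τ e f B) u w) (hy : y ∈ B) :
    Tendsto (fun l => sN a ((e l + f l) * w * ((1 - (e m + f m)) * y))) atTop (𝓝 0) := by
  have nu := hs.norm_u_le
  cases hw with
  | base =>
    refine tendsto_atTop_of_eventually_const (i₀ := m) fun l hl => ?_
    have : (e l + f l) * u * ((1 - (e m + f m)) * y) = 0 := by
      rw [hs.R_mul_u, mul_assoc, ← mul_assoc (e l + f l), mul_sub, hs.data.RR_ge hl]; simp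
    rw [this]
    exact le_antisymm (by simpa using ha.sN_le_norm 0) (ha.sN_nonneg _)
  | @step k w hk hw =>
    rw [Metric.tendsto_atTop]
    intro δ hδ
    set K := ‖w‖ * ‖y‖ + 1 with hK
    have hKpos : 0 < K := by positivity
    set ε := δ / (2 * K) with hε
    have hεpos : 0 < ε := by positivity
    obtain ⟨m', hm1, hm2⟩ := (((hs.tendsto_R_K hk).eventually (gt_mem_nhds hεpos)).and
      (eventually_ge_atTop m)).exists
    obtain ⟨C, hC, hdd⟩ := hs.sN_dd_le ha haB m'
    have t1 : Tendsto (fun l => C * ‖w‖ * (n2 τ ((e l + f l) * k) * ‖y‖)) atTop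
        (𝓝 (C * ‖w‖ * (0 * ‖y‖))) := ((hs.n2_R_mul k).mul_const _).const_mul _
    simp only [zero_mul, mul_zero] at t1
    obtain ⟨l₀, hl₀⟩ := ((t1.eventually (gt_mem_nhds hεpos)).and
      (eventually_ge_atTop m')).exists_forall_of_atTop
    refine ⟨l₀, fun l hl => ?_⟩
    obtain ⟨h1, h2⟩ := hl₀ l hl
    rw [Real.dist_eq, sub_zero, abs_of_nonneg (ha.sN_nonneg _)]
    have e0 : (1 - (e m' + f m')) * (1 - (e m + f m)) = 1 - (e m + f m) := by
      rw [sub_mul, mul_sub (e m' + f m'), hs.data.RR_ge hm2]; simp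
    have e1 : (e l + f l) * (u * k * w) * ((1 - (e m + f m)) * y) =
        u * ((e l + f l) * k * (1 - (e m' + f m')) * w *
          ((1 - (e m' + f m')) * ((1 - (e m + f m)) * y))
        + (e l + f l) * k * (e m' + f m') * (w * ((1 - (e m + f m)) * y))) := by
      rw [← mul_assoc (1 - (e m' + f m')), e0]
      calc (e l + f l) * (u * k * w) * ((1 - (e m + f m)) * y)
          = ((e l + f l) * u) * k * w * ((1 - (e m + f m)) * y) := by noncomm_ring
        _ = (u * (e l + f l)) * k * w * ((1 - (e m + f m)) * y) := by rw [hs.R_mul_u]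
        _ = _ := by noncomm_ring
    rw [e1]
    have nd := norm_mul_le_right y (hs.data.d_norm m)
    have b0 := hdd w hw _ (mul_mem (hs.R_mem l) hk.1) _ (mul_mem (hs.d_mem m) hy)
    have b1 : C * ‖w‖ * (n2 τ ((e l + f l) * k) * ‖(1 - (e m + f m)) * y‖) ≤
        C * ‖w‖ * (n2 τ ((e l + f l) * k) * ‖y‖) := by
      have := n2_nonneg τ ((e l + f l) * k)
      gcongr
    have b2 : ‖(e l + f l) * k * (e m' + f m') * (w * ((1 - (e m + f m)) * y))‖ ≤
        ε * (‖w‖ * ‖y‖) := by
      refine (norm_mul_le _ _).trans ?_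
      gcongr
      · exact (hs.norm_R_K_R_le h2 le_rfl).trans hm1.le
      · exact (norm_mul_le _ _).trans (by gcongr)
    refine ((ha.sN_mul_le _ _).trans (mul_le_of_le_one_left (ha.sN_nonneg _) nu)).trans_lt ?_
    refine ((ha.sN_add_le _ _).trans (add_le_add (b0.trans b1)
      ((ha.sN_le_norm _).trans b2))).trans_lt ?_
    have hεK : ε * K = δ / 2 := by rw [hε]; field_simp
    nlinarith

variable (hne : ∀ n, a n ≠ 0) (hexc : ∀ x ∈ B, Exc a x)
include hne hexc

theorem tendsto_sM_RR {w b b' : A} (hw : Core (KB τ e f B) u w) (hb : b ∈ B) (hb' : b' ∈ B) :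
    Tendsto (fun l => sM a (b * (e l + f l) * w * ((e l + f l) * b'))) atTop (𝓝 0) := by
  have hd := hs.data
  cases hw with
  | base =>
    have hcr : ∀ x ∈ B, Cross f e x := fun x hx => (hs.cross _ (star_mem hx)).symm_star hd
    have t1 := ha.sN_cross hs.tr hne haB hexc hd hs.e_mem hs.f_mem hcr (star_mem hb) hb'
    have t2 := ha.sN_cross hs.tr hne haB hexc hd hs.e_mem hs.f_mem hcr hb' (star_mem hb)
    have t3 := t1.add t2
    rw [add_zero] at t3
    refine squeeze_zero (fun _ => ha.sM_nonneg _) (fun l => ?_) t3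
    have ue : ∀ l, e l * u = u * f l := fun l => by
      rw [← hs.conj l, ← mul_assoc, ← mul_assoc, hs.u_sq, one_mul]
    have uf : ∀ l, f l * u = u * e l := fun l => by
      rw [← hs.conj l, mul_assoc, hs.u_sq, mul_one]
    have e1 : b * (e l + f l) * u * ((e l + f l) * b') =
        star (e l * star b) * (u * (f l * b')) + star (f l * star b) * (u * (e l * b')) := by
      rw [star_mul, star_mul, star_star, hd.e_sa, hd.f_sa]
      have q1 : e l * u * e l = 0 := by rw [ue, mul_assoc, hd.fe, mul_zero]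
      have q2 : f l * u * f l = 0 := by rw [uf, mul_assoc, hd.ef, mul_zero]
      calc b * (e l + f l) * u * ((e l + f l) * b')
          = b * e l * (u * (f l * b')) + b * f l * (u * (e l * b')) + b * (e l * u * e l) * b'
            + b * (f l * u * f l) * b' := by noncomm_ring
        _ = _ := by rw [q1, q2]; simp
    rw [e1]
    refine (ha.sM_add_le _ _).trans (add_le_add ((ha.sM_star_mul_le _ _).trans ?_)
      ((ha.sM_star_mul_le _ _).trans ?_))
    · exact mul_le_mul_of_nonneg_left ((ha.sN_mul_le _ _).trans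
        (mul_le_of_le_one_left (ha.sN_nonneg _) hs.norm_u_le)) (ha.sN_nonneg _)
    · rw [mul_comm]
      exact mul_le_mul_of_nonneg_right ((ha.sN_mul_le _ _).trans
        (mul_le_of_le_one_left (ha.sN_nonneg _) hs.norm_u_le)) (ha.sN_nonneg _)
  | @step k w hk hw =>
    have t1 := ((hs.tendsto_RR hk hw).const_mul ‖b‖).mul_const ‖b'‖
    simp only [mul_zero, zero_mul] at t1
    refine squeeze_zero (fun _ => ha.sM_nonneg _) (fun l => (ha.sM_le_norm _).trans ?_) t1
    have : b * (e l + f l) * (u * k * w) * ((e l + f l) * b') =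
      b * ((e l + f l) * (u * k * w) * (e l + f l)) * b' := by noncomm_ring
    rw [this]; exact norm_mul3_le _ _ _

theorem sM_word {w b b' : A} (hw : Core (KB τ e f B) u w) (hb : b ∈ B) (hb' : b' ∈ B) :
    sM a (b * w * b') = 0 := by
  have hd := hs.data
  refine le_antisymm (le_of_forall_pos_le_add fun δ hδ => ?_) (ha.sM_nonneg _)
  set K := ‖w‖ * ‖b'‖ + ‖b‖ * 2 * ‖w‖ + 1 with hK
  have hKpos : 0 < K := by positivity
  set ε := δ / K with hε
  have hεpos : 0 < ε := by positivity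
  obtain ⟨m₁, hm₁⟩ := ha.sN_cauchy hs.tr hne hexc hd.R_proj hd.R_nest hs.R_mem (star_mem hb) hεpos
  obtain ⟨m₂, hm₂⟩ := ha.sN_cauchy hs.tr hne hexc hd.R_proj hd.R_nest hs.R_mem hb' hεpos
  set m := max m₁ m₂
  have hw' := hw.star hs.u_sa hs.preStep.star_K
  have t1 := (hs.tendsto_Rd ha haB m hw hb').const_mul ‖b‖
  have t2 := (hs.tendsto_Rd ha haB m hw' (star_mem hb)).const_mul ‖star b'‖
  have t3 := hs.tendsto_sM_RR ha haB hne hexc hw hb hb'
  have t4 := ((t1.add t2).add t3).add_const δ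
  simp only [mul_zero, add_zero] at t4
  refine ge_of_tendsto t4 ?_
  filter_upwards [eventually_ge_atTop m] with l hl
  have k1 := hm₁ m (le_max_left _ _) l hl
  have k2 := hm₂ m (le_max_right _ _) l hl
  have e1 : b * w * b' = b * (1 - (e m + f m)) * w * ((1 - (e m + f m)) * b')
      + b * ((e l + f l) * w * ((1 - (e m + f m)) * b'))
      + star (star b' * ((e l + f l) * star w * ((1 - (e m + f m)) * star b)))
      + b * (e l + f l) * w * ((e l + f l) * b')
      + star ((e m + f m - (e l + f l)) * star b) * (w * b')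
      + b * ((1 - (e m + f m)) + (e l + f l)) * w * ((e m + f m - (e l + f l)) * b') := by
    simp only [star_mul, star_star, star_sub, star_one, hd.R_sa]
    noncomm_ring
  have b1 := hs.sM_dd ha haB m hw hb hb'
  have b2 := (ha.sM_le_sN _).trans (ha.sN_mul_le b ((e l + f l) * w * ((1 - (e m + f m)) * b')))
  have b3 := (ha.sM_le_sN _).trans (ha.sN_mul_le (star b')
    ((e l + f l) * star w * ((1 - (e m + f m)) * star b)))
  rw [← ha.sM_star] at b3
  have b5 : sM a (star ((e m + f m - (e l + f l)) * star b) * (w * b')) ≤ ε * (‖w‖ * ‖b'‖) := by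
    refine (ha.sM_star_mul_le _ _).trans ?_
    have := ha.sN_nonneg (w * b')
    gcongr
    exact (ha.sN_le_norm _).trans (norm_mul_le _ _)
  have b6 : sM a (b * ((1 - (e m + f m)) + (e l + f l)) * w * ((e m + f m - (e l + f l)) * b')) ≤
      (‖b‖ * 2 * ‖w‖) * ε := by
    refine (ha.sM_le_sN _).trans ((ha.sN_mul_le _ _).trans ?_)
    have := ha.sN_nonneg ((e m + f m - (e l + f l)) * b')
    gcongr
    refine (norm_mul3_le _ _ _).trans ?_
    gcongr
    have := hd.d_norm m
    have := hd.R_norm l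
    have := norm_add_le (1 - (e m + f m)) (e l + f l)
    linarith
  have hεK : ε * K = δ := by rw [hε]; field_simp
  rw [e1]
  refine (ha.sM_add_le _ _).trans ((add_le_add ((ha.sM_add_le _ _).trans (add_le_add
    ((ha.sM_add_le _ _).trans (add_le_add ((ha.sM_add_le _ _).trans (add_le_add
      ((ha.sM_add_le _ _).trans (add_le_add b1.le b2)) b3)) le_rfl)) b5)) b6).trans ?_)
  nlinarith

end Seq

/-- the one-step lemma -/
theorem exc_gen {a : ℕ → A} (ha : Nest τ a) (haB : ∀ n, a n ∈ B) (hexc : ∀ x ∈ B, Exc a x)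
    {x : A} (hx : x ∈ gen (insert u (B : Set A))) : Exc a x := by
  by_cases hne : ∀ n, a n ≠ 0
  swap
  · push Not at hne
    obtain ⟨n, hn⟩ := hne
    exact ha.exc_of_approx fun ε hε => ⟨n, 0, by simp [hn, hε.le]⟩
  refine ha.exc_of_mem_closure (fun y hy => ?_) (hs.preStep.gen_subset_closure hx)
  refine (Submodule.span_le (p := excSub a)).mpr ?_ hy
  rintro x (hx | ⟨b, hb, w, hw, rfl⟩)
  · exact hexc x hx
  · obtain ⟨c, b', hc, hb', rfl⟩ := hw.exists_core
    rw [← mul_assoc]
    exact exc_of_tendsto_zero (ha.tendsto_zero_of_sM (hs.sM_word ha haB hne hexc hc hb hb'))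

end Step

end Crest.Agent.R120
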