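import Crest.Agent.R120.Defs

/-! Row 120: states, traces, the 2-seminorm and the GNS construction in order-free form. -/

set_option autoImplicit false
set_option linter.style.haveILetI false
set_option linter.unusedSectionVars false

open Filter Topology Crest.OpAlg
open scoped InnerProductSpace ComplexOrder

noncomputable section

namespace Crest.Agent.R120

universe u

theorem exists_gns {A : Type u} [CStarAlgebra A] {φ : A →ₗ[ℂ] ℂ} (hφ : IsState φ) :
    ∃ (H : Type u) (_ : NormedAddCommGroup H) (_ : InnerProductSpace ℂ H) (_ : CompleteSpace H)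
      (hat : A →ₗ[ℂ] H) (lam : A →⋆ₐ[ℂ] (H →L[ℂ] H)),
      (∀ x y, ⟪hat x, hat y⟫_ℂ = φ (star x * y)) ∧ (∀ x y, lam x (hat y) = hat (x * y)) ∧
        DenseRange hat := by
  letI : PartialOrder A := CStarAlgebra.spectralOrder A
  haveI : StarOrderedRing A := CStarAlgebra.spectralOrderedRing A
  let f : A →ₚ[ℂ] ℂ := PositiveLinearMap.mk₀ φ (fun a ha => by
    obtain ⟨b, rfl⟩ := CStarAlgebra.nonneg_iff_eq_star_mul_self.mp ha
    exact Complex.nonneg_iff.mpr ⟨(hφ.2 b).2, (hφ.2 b).1.symm⟩)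
  have hf : ∀ a, f a = φ a := fun a => rfl
  let hat : A →ₗ[ℂ] f.GNS :=
    (UniformSpace.Completion.toComplL (𝕜 := ℂ) (E := f.PreGNS)).toLinearMap ∘ₗ
      f.toPreGNS.toLinearMap
  have hhat : ∀ a, hat a = ((f.toPreGNS a : f.PreGNS) : f.GNS) := fun a => rfl
  refine ⟨f.GNS, inferInstance, inferInstance, inferInstance, hat, f.gnsStarAlgHom, ?_, ?_, ?_⟩
  · intro x y
    rw [hhat, hhat, UniformSpace.Completion.inner_coe, PositiveLinearMap.preGNS_inner_def]
    simp [hf]
  · intro x y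
    rw [hhat, hhat]
    have := f.gnsNonUnitalStarAlgHom_apply_coe (a := x) (b := f.toPreGNS y)
    refine Eq.trans this ?_
    congr 1
  · have h1 : DenseRange ((↑) : f.PreGNS → f.GNS) := UniformSpace.Completion.denseRange_coe
    exact h1.comp f.toPreGNS.surjective.denseRange (UniformSpace.Completion.continuous_coe _)

variable {A : Type*} [CStarAlgebra A] {φ τ : A →ₗ[ℂ] ℂ}

theorem isState_of_tr (hτ : IsFaithfulTracialState τ) : IsState τ := ⟨hτ.1, hτ.2.1⟩

theorem n2_nonneg (φ : A →ₗ[ℂ] ℂ) (x : A) : 0 ≤ n2 φ x := Real.sqrt_nonneg _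

theorem n2_eq_norm {H : Type*} [NormedAddCommGroup H] [InnerProductSpace ℂ H] {hat : A →ₗ[ℂ] H}
    (h : ∀ x y, ⟪hat x, hat y⟫_ℂ = φ (star x * y)) (x : A) : n2 φ x = ‖hat x‖ := by
  rw [n2, ← h, norm_eq_sqrt_re_inner (𝕜 := ℂ)]; rfl

@[simp] theorem n2_zero (φ : A →ₗ[ℂ] ℂ) : n2 φ 0 = 0 := by simp [n2]

namespace IsState

variable (hφ : IsState φ)
include hφ

theorem n2_sq (x : A) : n2 φ x ^ 2 = (φ (star x * x)).re := Real.sq_sqrt (hφ.2 x).2

theorem apply_star_mul_self (x : A) : φ (star x * x) = ((n2 φ x ^ 2 : ℝ) : ℂ) := by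
  rw [hφ.n2_sq]
  exact Complex.ext (by simp) (by simp [(hφ.2 x).1])

theorem n2_one : n2 φ 1 = 1 := by simp [n2, hφ.1]

theorem n2_add_le (x y : A) : n2 φ (x + y) ≤ n2 φ x + n2 φ y := by
  obtain ⟨H, _, _, _, hat, lam, h1, h2, h3⟩ := exists_gns hφ
  simp only [n2_eq_norm h1, map_add]; exact norm_add_le _ _

theorem n2_sub_le (x y : A) : n2 φ (x - y) ≤ n2 φ x + n2 φ y := by
  obtain ⟨H, _, _, _, hat, lam, h1, h2, h3⟩ := exists_gns hφ
  simp only [n2_eq_norm h1, map_sub]; exact norm_sub_le _ _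

theorem n2_neg (x : A) : n2 φ (-x) = n2 φ x := by simp [n2]

theorem n2_smul (c : ℂ) (x : A) : n2 φ (c • x) = ‖c‖ * n2 φ x := by
  obtain ⟨H, _, _, _, hat, lam, h1, h2, h3⟩ := exists_gns hφ
  simp only [n2_eq_norm h1, map_smul, norm_smul]

/-- Cauchy–Schwarz -/
theorem norm_star_mul_le (x y : A) : ‖φ (star x * y)‖ ≤ n2 φ x * n2 φ y := by
  obtain ⟨H, _, _, _, hat, lam, h1, h2, h3⟩ := exists_gns hφ
  simp only [n2_eq_norm h1, ← h1]; exact norm_inner_le_norm _ _

theorem n2_mul_le (x y : A) : n2 φ (x * y) ≤ ‖x‖ * n2 φ y := by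
  obtain ⟨H, _, _, _, hat, lam, h1, h2, h3⟩ := exists_gns hφ
  simp only [n2_eq_norm h1, ← h2]
  refine ((lam x).le_opNorm _).trans ?_
  gcongr
  exact NonUnitalStarAlgHom.norm_apply_le lam x

theorem n2_le_norm (x : A) : n2 φ x ≤ ‖x‖ := by
  simpa [hφ.n2_one] using hφ.n2_mul_le x 1

theorem norm_apply_le_n2 (x : A) : ‖φ x‖ ≤ n2 φ x := by
  simpa [hφ.n2_one] using hφ.norm_star_mul_le 1 x

theorem norm_apply_le (x : A) : ‖φ x‖ ≤ ‖x‖ := (hφ.norm_apply_le_n2 x).trans (hφ.n2_le_norm x)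

theorem continuous : Continuous φ :=
  (φ.mkContinuous 1 (fun x => by simpa using hφ.norm_apply_le x)).continuous

theorem continuous_n2 : Continuous (n2 φ) := by
  have := hφ.continuous
  unfold n2
  fun_prop

theorem map_star (x : A) : φ (star x) = star (φ x) := by
  obtain ⟨H, _, _, _, hat, lam, h1, h2, h3⟩ := exists_gns hφ
  have a1 := h1 x 1
  have a2 := h1 1 x
  simp only [mul_one, star_one, one_mul] at a1 a2
  rw [← a1, ← a2, ← inner_conj_symm]; rfl

/-- Pythagoras -/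
theorem n2_add_sq_of_orth {x y : A} (h : φ (star x * y) = 0) :
    n2 φ (x + y) ^ 2 = n2 φ x ^ 2 + n2 φ y ^ 2 := by
  obtain ⟨H, _, _, _, hat, lam, h1, h2, h3⟩ := exists_gns hφ
  simp only [n2_eq_norm h1, map_add, sq]
  exact norm_add_sq_eq_norm_sq_add_norm_sq_of_inner_eq_zero (𝕜 := ℂ) _ _ (by rw [h1, h])

theorem nontrivial : Nontrivial A :=
  ⟨⟨1, 0, fun h => by have := hφ.1; rw [h] at this; simp at this⟩⟩

theorem n2_sq_proj {p : A} (hp : IsStarProjection p) : φ p = ((n2 φ p ^ 2 : ℝ) : ℂ) := by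
  rw [← hφ.apply_star_mul_self, hp.isSelfAdjoint.star_eq, hp.isIdempotentElem.eq]

theorem norm_conj_le (x y : A) : ‖φ (star x * y * x)‖ ≤ ‖y‖ * n2 φ x ^ 2 := by
  rw [mul_assoc]
  refine (hφ.norm_star_mul_le _ _).trans ?_
  have := hφ.n2_mul_le y x
  have h0 := n2_nonneg φ x
  nlinarith

end IsState

section Trace

variable (hτ : IsFaithfulTracialState τ)
include hτ

theorem tr_comm (a b : A) : τ (a * b) = τ (b * a) := hτ.2.2.2 a b

theorem n2_star (x : A) : n2 τ (star x) = n2 τ x := by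
  simp only [n2, star_star]; rw [tr_comm hτ]

theorem n2_mul_le_right (x y : A) : n2 τ (x * y) ≤ n2 τ x * ‖y‖ := by
  rw [← n2_star hτ, star_mul, ← n2_star hτ x, mul_comm, ← norm_star y]
  exact (isState_of_tr hτ).n2_mul_le _ _

theorem eq_zero_of_n2 {x : A} (h : n2 τ x = 0) : x = 0 := by
  refine hτ.2.2.1 x ?_
  rw [(isState_of_tr hτ).apply_star_mul_self, h]; simp

theorem n2_pos {x : A} (h : x ≠ 0) : 0 < n2 τ x :=
  lt_of_le_of_ne (n2_nonneg τ x) (fun h' => h (eq_zero_of_n2 hτ h'.symm))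

theorem proj_eq_zero_of_tr {p : A} (hp : IsStarProjection p) (h : τ p = 0) : p = 0 := by
  refine hτ.2.2.1 p ?_
  rwa [hp.isSelfAdjoint.star_eq, hp.isIdempotentElem.eq]

/-- a self-adjoint element of a closed subalgebra `B` whose quadratic form is nonnegative on `B`
is of the form `star y * y` with `y ∈ B` -/
theorem exists_eq_star_mul_self_of_tr {B : StarSubalgebra ℂ A} (hB : IsClosed (B : Set A)) {h : A}
    (hmem : h ∈ B) (hsa : star h = h) (hpos : ∀ z ∈ B, 0 ≤ (τ (star z * h * z)).re) :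
    ∃ y ∈ B, star y = y ∧ h = y * y := by
  have hsa' : IsSelfAdjoint h := hsa
  let fn : ℝ → ℝ := fun t => max (-t) 0
  let fp : ℝ → ℝ := fun t => Real.sqrt (max t 0)
  have cfn : Continuous fn := by fun_prop
  have cfp : Continuous fp := by fun_prop
  have hz : cfc fn h ∈ B := cfc_mem (𝕜' := ℂ) (hs := hB) fn hmem
  have hy : cfc fp h ∈ B := cfc_mem (𝕜' := ℂ) (hs := hB) fp hmem
  have hsz : star (cfc fn h) = cfc fn h := (cfc_predicate fn h : IsSelfAdjoint _)
  have hsy : star (cfc fp h) = cfc fp h := (cfc_predicate fp h : IsSelfAdjoint _)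
  -- `w = (h⁻)^(3/2)`
  let fw : ℝ → ℝ := fun t => fn t * Real.sqrt (fn t)
  have cfw : Continuous fw := by fun_prop
  have hsw : star (cfc fw h) = cfc fw h := (cfc_predicate fw h : IsSelfAdjoint _)
  have e1 : star (cfc fn h) * h * cfc fn h = -(star (cfc fw h) * cfc fw h) := by
    rw [hsz, hsw]
    nth_rewrite 2 [← cfc_id' ℝ h]
    rw [← cfc_mul _ _ h, ← cfc_mul _ _ h, ← cfc_mul _ _ h, ← cfc_neg]
    refine cfc_congr (fun t _ => ?_)
    simp only [fw]
    have h0 : 0 ≤ fn t := le_max_right _ _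
    have : fn t * √(fn t) * (fn t * √(fn t)) = fn t * fn t * (√(fn t) * √(fn t)) := by ring
    rw [this, Real.mul_self_sqrt h0]
    simp only [fn]
    rcases le_total t 0 with ht | ht
    · rw [max_eq_left (by linarith)]; ring
    · rw [max_eq_right (by linarith)]; ring
  have e2 : cfc fw h = 0 := by
    refine hτ.2.2.1 _ ?_
    have k1 := hpos _ hz
    rw [e1, map_neg, Complex.neg_re] at k1
    have k2 := hτ.2.1 (cfc fw h)
    exact Complex.ext (by simpa using le_antisymm (by linarith) k2.2) (by simpa using k2.1)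
  have e3 : ∀ t ∈ spectrum ℝ h, 0 ≤ t := by
    intro t ht
    have := (cfc_eq_cfc_iff_eqOn (f := fw) (g := fun _ => (0 : ℝ)) (a := h)).mp
      (by rw [e2, cfc_const_zero]) ht
    simp only [fw] at this
    by_contra hneg
    push Not at hneg
    have hp : 0 < fn t := lt_max_of_lt_left (by linarith)
    have := mul_pos hp (Real.sqrt_pos.mpr hp)
    linarith
  refine ⟨cfc fp h, hy, hsy, ?_⟩
  rw [← cfc_mul _ _ h]
  nth_rewrite 1 [← cfc_id' ℝ h]
  refine cfc_congr (fun t ht => ?_)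
  simp only [fp]
  rw [max_eq_left (e3 t ht), Real.mul_self_sqrt (e3 t ht)]

/-- the norm of an element of a closed subalgebra is computed on `L²` of that subalgebra -/
theorem norm_le_of_n2 {B : StarSubalgebra ℂ A} (hB : IsClosed (B : Set A)) {x : A} (hx : x ∈ B)
    {C : ℝ} (hC : 0 ≤ C) (h : ∀ z ∈ B, n2 τ (x * z) ≤ C * n2 τ z) : ‖x‖ ≤ C := by
  have hs := isState_of_tr hτ
  obtain ⟨y, -, hy, hxy⟩ := exists_eq_star_mul_self_of_tr hτ hB
    (h := ((C ^ 2 : ℝ) : ℂ) • (1 : A) - star x * x)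
    (sub_mem (SMulMemClass.smul_mem _ (one_mem B)) (mul_mem (star_mem hx) hx))
    (by simp [star_smul]) (fun z hz => by
      have e : star z * (((C ^ 2 : ℝ) : ℂ) • (1 : A) - star x * x) * z
          = ((C ^ 2 : ℝ) : ℂ) • (star z * z) - star (x * z) * (x * z) := by
        simp [mul_sub, sub_mul, mul_assoc]
      rw [e, map_sub, map_smul, hs.apply_star_mul_self, hs.apply_star_mul_self, smul_eq_mul,
        ← Complex.ofReal_mul, ← Complex.ofReal_sub, Complex.ofReal_re]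
      have := h z hz
      have h0 := n2_nonneg τ (x * z)
      nlinarith)
  letI : PartialOrder A := CStarAlgebra.spectralOrder A
  haveI : StarOrderedRing A := CStarAlgebra.spectralOrderedRing A
  haveI := hs.nontrivial
  have h1 : star x * x ≤ algebraMap ℝ A (C ^ 2) := by
    rw [← sub_nonneg, Algebra.algebraMap_eq_smul_one, ← Complex.coe_smul, hxy]
    nth_rewrite 1 [← hy]
    exact star_mul_self_nonneg y
  have h2 := (CStarAlgebra.norm_le_iff_le_algebraMap (star x * x) (sq_nonneg C)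
    (star_mul_self_nonneg x)).mpr h1
  rw [CStarRing.norm_star_mul_self] at h2
  have := norm_nonneg x
  nlinarith

theorem injective_of_tr {A' : Type*} [CStarAlgebra A'] {τ' : A' →ₗ[ℂ] ℂ} (ι : A →⋆ₐ[ℂ] A')
    (hι : ∀ a, τ' (ι a) = τ a) : Function.Injective ι := by
  rw [injective_iff_map_eq_zero]
  intro a ha
  refine hτ.2.2.1 a ?_
  rw [← hι, map_mul, ha]; simp

theorem isometry_of_tr {A' : Type*} [CStarAlgebra A'] {τ' : A' →ₗ[ℂ] ℂ} (ι : A →⋆ₐ[ℂ] A')
    (hι : ∀ a, τ' (ι a) = τ a) : Isometry ι :=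
  NonUnitalStarAlgHom.isometry ι (injective_of_tr hτ ι hι)

end Trace

theorem n2_map {A' : Type*} [CStarAlgebra A'] {τ' : A' →ₗ[ℂ] ℂ} (ι : A →⋆ₐ[ℂ] A')
    (hι : ∀ a, τ' (ι a) = τ a) (x : A) : n2 τ' (ι x) = n2 τ x := by
  simp only [n2]; rw [← map_star, ← map_mul, hι]

theorem isClosed_gen (S : Set A) : IsClosed (gen S : Set A) :=
  StarSubalgebra.isClosed_topologicalClosure _

theorem subset_gen (S : Set A) : S ⊆ gen S := fun _ hx =>
  StarSubalgebra.le_topologicalClosure _ (StarAlgebra.subset_adjoin ℂ S hx)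

theorem gen_le {S : Set A} {B : StarSubalgebra ℂ A} (hB : IsClosed (B : Set A)) (h : S ⊆ B) :
    gen S ≤ B :=
  StarSubalgebra.topologicalClosure_minimal (StarAlgebra.adjoin_le h) hB

theorem gen_mono {S T : Set A} (h : S ⊆ T) : gen S ≤ gen T :=
  gen_le (isClosed_gen T) (h.trans (subset_gen T))

theorem coe_gen (S : Set A) : (gen S : Set A) = closure (StarAlgebra.adjoin ℂ S : Set A) := rfl

end Crest.Agent.R120
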