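import Crest.Agent.R120.Decomp

/-! Row 120: the algebra of reduced words. -/

set_option autoImplicit false
set_option linter.style.haveILetI false
set_option linter.unusedSectionVars false

open Filter Topology Crest.OpAlg

noncomputable section

namespace Crest.Agent.R120

variable {A : Type*} [CStarAlgebra A]

section General

variable {B B' K K' : Set A} {u : A}

theorem Neg.mono (hB : B ⊆ B') (hK : K ⊆ K') {w : A} (h : Neg B K u w) : Neg B' K' u w := by
  induction h with
  | base ha => exact .base (hB ha)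
  | step ha _ ih => exact .step (hK ha) ih

theorem Neg.mul_right' {c : A} (hc : ∀ b ∈ B, b * c ∈ B') (hK : K ⊆ K') {w : A}
    (h : Neg B K u w) : Neg B' K' u (w * c) := by
  induction h with
  | base ha => rw [mul_assoc]; exact .base (hc _ ha)
  | step ha _ ih => rw [mul_assoc]; exact .step (hK ha) ih

theorem Neg.concat {c : A} (hc : ∀ b ∈ B, b * c ∈ K') (hK : K ⊆ K') {w v : A}
    (h : Neg B K u w) (hv : Neg B' K' u v) : Neg B' K' u (w * c * v) := by
  induction h with
  | base ha => rw [mul_assoc u]; exact .step (hc _ ha) hv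
  | @step a w ha _ ih =>
    have : u * a * w * c * v = u * a * (w * c * v) := by noncomm_ring
    rw [this]; exact .step (hK ha) ih

theorem Neg.map {A' : Type*} [CStarAlgebra A'] {F : Type*} [FunLike F A A'] [MulHomClass F A A']
    (ψ : F) {B₂ K₂ : Set A'} (hB : ∀ b ∈ B, ψ b ∈ B₂) (hK : ∀ k ∈ K, ψ k ∈ K₂) {w : A}
    (h : Neg B K u w) : Neg B₂ K₂ (ψ u) (ψ w) := by
  induction h with
  | base ha => rw [map_mul]; exact .base (hB _ ha)
  | step ha _ ih => rw [map_mul, map_mul]; exact .step (hK _ ha) ih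

theorem Neg.lift {A' : Type*} [CStarAlgebra A'] {F : Type*} [FunLike F A A'] [MulHomClass F A A']
    (ψ : F) {B₂ K₂ : Set A'} (hB : ∀ b ∈ B₂, ∃ a ∈ B, ψ a = b) (hK : ∀ k ∈ K₂, ∃ a ∈ K, ψ a = k)
    {w : A'} (h : Neg B₂ K₂ (ψ u) w) : ∃ v, Neg B K u v ∧ ψ v = w := by
  induction h with
  | base ha =>
    obtain ⟨a, h1, rfl⟩ := hB _ ha
    exact ⟨u * a, .base h1, map_mul _ _ _⟩
  | step ha _ ih =>
    obtain ⟨a, h1, rfl⟩ := hK _ ha
    obtain ⟨v, h2, rfl⟩ := ih
    exact ⟨u * a * v, .step h1 h2, by rw [map_mul, map_mul]⟩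

theorem Neg.exists_core {w : A} (h : Neg B K u w) : ∃ c b, Core K u c ∧ b ∈ B ∧ w = c * b := by
  induction h with
  | base ha => exact ⟨u, _, .base, ha, rfl⟩
  | step ha _ ih =>
    obtain ⟨c, b, h1, h2, rfl⟩ := ih
    exact ⟨_, b, .step ha h1, h2, by rw [mul_assoc (u * _)]⟩

theorem Core.neg_mul {w b : A} (h : Core K u w) (hb : b ∈ B) : Neg B K u (w * b) := by
  induction h with
  | base => exact .base hb
  | step ha _ ih => rw [mul_assoc]; exact .step ha ih

theorem Core.neg_mul_neg {w a v : A} (h : Core K u w) (ha : a ∈ K) (hv : Neg B K u v) :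
    Neg B K u (w * (a * v)) := by
  induction h with
  | base => rw [← mul_assoc]; exact .step ha hv
  | step ha' _ ih => rw [mul_assoc]; exact .step ha' ih

theorem Core.snoc {w a : A} (h : Core K u w) (ha : a ∈ K) : Core K u (w * a * u) := by
  induction h with
  | base => exact .step ha .base
  | @step a' w ha' _ ih =>
    have : u * a' * w * a * u = u * a' * (w * a * u) := by noncomm_ring
    rw [this]; exact .step ha' ih

theorem Core.star (hu : star u = u) (hK : ∀ k ∈ K, star k ∈ K) {w : A} (h : Core K u w) :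
    Core K u (star w) := by
  induction h with
  | base => rw [hu]; exact .base
  | step ha _ ih =>
    rw [star_mul, star_mul, hu, ← mul_assoc]
    exact ih.snoc (hK _ ha)

theorem Core.cases_right {w : A} (h : Core K u w) :
    w = u ∨ ∃ w' a, Core K u w' ∧ a ∈ K ∧ w = w' * a * u := by
  induction h with
  | base => exact Or.inl rfl
  | @step a w ha _ ih =>
    right
    rcases ih with rfl | ⟨w', a', h1, h2, rfl⟩
    · exact ⟨w, a, .base, ha, rfl⟩
    · exact ⟨u * a * w', a', .step ha h1, h2, by noncomm_ring⟩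

theorem Neg.mem {S : StarSubalgebra ℂ A} (hB : B ⊆ S) (hK : K ⊆ S) (hu : u ∈ S) {w : A}
    (h : Neg B K u w) : w ∈ S := by
  induction h with
  | base ha => exact mul_mem hu (hB ha)
  | step ha _ ih => exact mul_mem (mul_mem hu (hK ha)) ih

theorem Core.mem {S : StarSubalgebra ℂ A} (hK : K ⊆ S) (hu : u ∈ S) {w : A}
    (h : Core K u w) : w ∈ S := by
  induction h with
  | base => exact hu
  | step ha _ ih => exact mul_mem (mul_mem hu (hK ha)) ih

end General

/-- span of the words starting with `u` -/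
def Wm (B K : Set A) (u : A) : Submodule ℂ A := Submodule.span ℂ {w | Neg B K u w}

/-- span of `B` and of the words starting with a letter of `K` -/
def Wp (B K : Set A) (u : A) : Submodule ℂ A :=
  Submodule.span ℂ (B ∪ {x | ∃ a ∈ K, ∃ w, Neg B K u w ∧ x = a * w})

/-- span of `B` and of all words -/
def Wall (B K : Set A) (u : A) : Submodule ℂ A :=
  Submodule.span ℂ (B ∪ {x | ∃ a ∈ B, ∃ w, Neg B K u w ∧ x = a * w})

theorem span_map_mem {A' : Type*} [AddCommGroup A'] [Module ℂ A'] (T : A →ₗ[ℂ] A') {s : Set A}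
    {V : Submodule ℂ A'} (h : ∀ x ∈ s, T x ∈ V) {y : A} (hy : y ∈ Submodule.span ℂ s) :
    T y ∈ V :=
  (Submodule.span_le (p := V.comap T)).mpr h hy

theorem span_mul_mem {s : Set A} {V : Submodule ℂ A} {c : A} (h : ∀ x ∈ s, c * x ∈ V) {y : A}
    (hy : y ∈ Submodule.span ℂ s) : c * y ∈ V :=
  span_map_mem (LinearMap.mulLeft ℂ c) h hy

theorem span_mul_mem' {s : Set A} {V : Submodule ℂ A} {c : A} (h : ∀ x ∈ s, x * c ∈ V) {y : A}
    (hy : y ∈ Submodule.span ℂ s) : y * c ∈ V :=
  span_map_mem (LinearMap.mulRight ℂ c) h hy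

section W

variable {B K : Set A} {u : A}

theorem Neg.mem_Wm {w : A} (h : Neg B K u w) : w ∈ Wm B K u := Submodule.subset_span h

theorem mem_Wp_of_mem {b : A} (h : b ∈ B) : b ∈ Wp B K u := Submodule.subset_span (Or.inl h)

theorem Neg.mul_mem_Wp {a w : A} (ha : a ∈ K) (h : Neg B K u w) : a * w ∈ Wp B K u :=
  Submodule.subset_span (Or.inr ⟨a, ha, w, h, rfl⟩)

theorem mem_Wall_of_mem {b : A} (h : b ∈ B) : b ∈ Wall B K u := Submodule.subset_span (Or.inl h)

theorem Neg.mul_mem_Wall {a w : A} (ha : a ∈ B) (h : Neg B K u w) : a * w ∈ Wall B K u :=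
  Submodule.subset_span (Or.inr ⟨a, ha, w, h, rfl⟩)

theorem K_mul_Wm {a y : A} (ha : a ∈ K) (hy : y ∈ Wm B K u) : a * y ∈ Wp B K u :=
  span_mul_mem (fun _ hx => Neg.mul_mem_Wp ha hx) hy

theorem Core.mul_Wp {w y : A} (h : Core K u w) (hy : y ∈ Wp B K u) : w * y ∈ Wm B K u := by
  refine span_mul_mem ?_ hy
  rintro x (hx | ⟨a, ha, v, hv, rfl⟩)
  · exact (h.neg_mul hx).mem_Wm
  · exact (h.neg_mul_neg ha hv).mem_Wm

theorem u_mul_Wp {y : A} (hy : y ∈ Wp B K u) : u * y ∈ Wm B K u := Core.base.mul_Wp hy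

theorem u_K_mul_Wm {a y : A} (ha : a ∈ K) (hy : y ∈ Wm B K u) : u * a * y ∈ Wm B K u := by
  rw [mul_assoc]; exact u_mul_Wp (K_mul_Wm ha hy)

end W

/-- the purely algebraic part of a step -/
structure PreStep (B : StarSubalgebra ℂ A) (D K : Set A) (u : A) : Prop where
  D_le : D ⊆ B
  K_le : K ⊆ B
  decomp : ∀ b ∈ B, ∃ d ∈ D, b - d ∈ K
  u_sa : star u = u
  u_sq : u * u = 1
  conj : ∀ d ∈ D, u * d * u ∈ D
  mul_K : ∀ d ∈ D, ∀ k ∈ K, d * k ∈ K
  K_mul : ∀ d ∈ D, ∀ k ∈ K, k * d ∈ K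
  star_K : ∀ k ∈ K, star k ∈ K

namespace PreStep

variable {B : StarSubalgebra ℂ A} {D K : Set A} {u : A} (h : PreStep B D K u)
include h

theorem neg_mul_right {w b : A} (hw : Neg B K u w) (hb : b ∈ B) : Neg B K u (w * b) :=
  hw.mul_right' (fun _ ha => mul_mem ha hb) subset_rfl

theorem neg_u : Neg B K u u := by simpa using (Neg.base (K := K) (u := u) (one_mem B))

theorem D_mul_u (d : A) : d * u = u * (u * d * u) := by
  rw [← mul_assoc, ← mul_assoc, h.u_sq, one_mul]

theorem u_mul_D (d : A) : u * d = u * d * u * u := by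
  rw [mul_assoc (u * d), h.u_sq, mul_one]

theorem D_mul_neg {d w : A} (hd : d ∈ D) (hw : Neg B K u w) : Neg B K u (d * w) := by
  cases hw with
  | base ha =>
    rw [← mul_assoc, h.D_mul_u, mul_assoc]
    exact .base (mul_mem (h.D_le (h.conj d hd)) ha)
  | step ha hw =>
    rw [← mul_assoc, ← mul_assoc, h.D_mul_u, mul_assoc u]
    exact .step (h.mul_K _ (h.conj d hd) _ ha) hw

theorem u_mul_neg {w : A} (hw : Neg B K u w) : u * w ∈ Wp B K u := by
  cases hw with
  | base ha => rw [← mul_assoc, h.u_sq, one_mul]; exact mem_Wp_of_mem ha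
  | step ha hw =>
    rw [← mul_assoc, ← mul_assoc, h.u_sq, one_mul]; exact hw.mul_mem_Wp ha

theorem u_mul_Wm {y : A} (hy : y ∈ Wm B K u) : u * y ∈ Wp B K u :=
  span_mul_mem (fun _ hx => h.u_mul_neg hx) hy

theorem D_mul_Wm {d y : A} (hd : d ∈ D) (hy : y ∈ Wm B K u) : d * y ∈ Wm B K u :=
  span_mul_mem (fun _ hx => (h.D_mul_neg hd hx).mem_Wm) hy

theorem Wp_le_Wall : Wp B K u ≤ Wall B K u := by
  refine Submodule.span_mono ?_
  rintro x (hx | ⟨a, ha, w, hw, rfl⟩)
  · exact Or.inl hx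
  · exact Or.inr ⟨a, h.K_le ha, w, hw, rfl⟩

theorem Wm_le_Wall : Wm B K u ≤ Wall B K u := by
  refine Submodule.span_le.mpr fun w hw => ?_
  simpa using Neg.mul_mem_Wall (one_mem B) hw

theorem Wall_decomp {y : A} (hy : y ∈ Wall B K u) :
    ∃ p ∈ Wp B K u, ∃ m ∈ Wm B K u, p + m = y := by
  rw [← Submodule.mem_sup]
  refine (Submodule.span_le.mpr ?_) hy
  rintro x (hx | ⟨a, ha, w, hw, rfl⟩)
  · exact Submodule.mem_sup_left (mem_Wp_of_mem hx)
  · obtain ⟨d, hd, hk⟩ := h.decomp a ha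
    have : a * w = (a - d) * w + d * w := by noncomm_ring
    rw [this]
    exact Submodule.add_mem_sup (hw.mul_mem_Wp hk) (h.D_mul_neg hd hw).mem_Wm

theorem B_mul_Wall {b y : A} (hb : b ∈ B) (hy : y ∈ Wall B K u) : b * y ∈ Wall B K u := by
  refine span_mul_mem ?_ hy
  rintro x (hx | ⟨a, ha, w, hw, rfl⟩)
  · exact mem_Wall_of_mem (mul_mem hb hx)
  · rw [← mul_assoc]; exact hw.mul_mem_Wall (mul_mem hb ha)

theorem u_mul_Wall {y : A} (hy : y ∈ Wall B K u) : u * y ∈ Wall B K u := by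
  obtain ⟨p, hp, m, hm, rfl⟩ := h.Wall_decomp hy
  rw [mul_add]
  exact Submodule.add_mem _ (h.Wm_le_Wall (u_mul_Wp hp)) (h.Wp_le_Wall (h.u_mul_Wm hm))

theorem adjoin_induction {P : A → Prop} (hB : ∀ b ∈ B, P b) (hu : P u)
    (hadd : ∀ x y, P x → P y → P (x + y)) (hmul : ∀ x y, P x → P y → P (x * y)) {x : A}
    (hx : x ∈ StarAlgebra.adjoin ℂ (insert u (B : Set A))) : P x := by
  rw [← StarSubalgebra.mem_toSubalgebra, StarAlgebra.adjoin_toSubalgebra] at hx
  induction hx using Algebra.adjoin_induction with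
  | mem x hx =>
    rcases hx with (rfl | hx) | hx
    · exact hu
    · exact hB x hx
    · rw [Set.mem_star] at hx
      rcases hx with hx | hx
      · have : x = u := by rw [← star_star x, hx, h.u_sa]
        rw [this]; exact hu
      · exact hB x (by simpa using star_mem hx)
  | algebraMap r => exact hB _ (algebraMap_mem B r)
  | add x y _ _ hx hy => exact hadd x y hx hy
  | mul x y _ _ hx hy => exact hmul x y hx hy

theorem adjoin_le_Wall {x : A} (hx : x ∈ StarAlgebra.adjoin ℂ (insert u (B : Set A))) :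
    x ∈ Wall B K u := by
  have : ∀ y ∈ Wall (B : Set A) K u, x * y ∈ Wall (B : Set A) K u := by
    refine h.adjoin_induction (P := fun x => ∀ y ∈ Wall (B : Set A) K u,
      x * y ∈ Wall (B : Set A) K u) ?_ ?_ ?_ ?_ hx
    · exact fun b hb y hy => h.B_mul_Wall hb hy
    · exact fun y hy => h.u_mul_Wall hy
    · intro a b ha hb y hy
      rw [add_mul]; exact Submodule.add_mem _ (ha y hy) (hb y hy)
    · intro a b ha hb y hy
      rw [mul_assoc]; exact ha _ (hb y hy)
  simpa using this 1 (mem_Wall_of_mem (one_mem B))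

theorem gen_subset_closure {x : A} (hx : x ∈ gen (insert u (B : Set A))) :
    x ∈ closure (Wall (B : Set A) K u : Set A) :=
  closure_mono (fun _ hy => h.adjoin_le_Wall hy) hx

theorem Wall_subset_gen {y : A} (hy : y ∈ Wall (B : Set A) K u) :
    y ∈ gen (insert u (B : Set A)) := by
  have hB : (B : Set A) ⊆ gen (insert u (B : Set A)) :=
    (Set.subset_insert _ _).trans (subset_gen _)
  have hu : u ∈ gen (insert u (B : Set A)) := subset_gen _ (Set.mem_insert _ _)
  refine (Submodule.span_le (p := Subalgebra.toSubmodule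
    (gen (insert u (B : Set A))).toSubalgebra)).mpr ?_ hy
  rintro x (hx | ⟨a, ha, w, hw, rfl⟩)
  · exact hB hx
  · exact (mul_mem (hB ha) (hw.mem hB (h.K_le.trans hB) hu) :
      a * w ∈ gen (insert u (B : Set A)))

theorem star_neg_mul {w' : A} (hw' : Neg B K u w') :
    ∀ a ∈ K, ∀ w, Neg B K u w → ∃ b ∈ B, ∃ v, Neg B K u v ∧ star w' * a * w = b * v := by
  induction hw' with
  | @base c hc =>
    intro a ha w hw
    refine ⟨star c, star_mem hc, u * a * w, .step ha hw, ?_⟩
    rw [star_mul, h.u_sa]; noncomm_ring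
  | @step c w'' hc _ ih =>
    intro a ha w hw
    obtain ⟨b, hb, v, hv, e⟩ := ih (star c) (h.star_K c hc) (u * a * w) (.step ha hw)
    refine ⟨b, hb, v, hv, ?_⟩
    rw [← e, star_mul, star_mul, h.u_sa]; noncomm_ring

section Functional

variable {σ : A →ₗ[ℂ] ℂ} (hfree : ∀ b ∈ B, ∀ w, Neg B K u w → σ (b * w) = 0)
include hfree

theorem apply_B_mul_Wm {b y : A} (hb : b ∈ B) (hy : y ∈ Wm B K u) : σ (b * y) = 0 :=
  span_map_mem (σ ∘ₗ LinearMap.mulLeft ℂ b) (V := ⊥) (fun w hw => hfree b hb w hw) hy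

/-- the two spans are orthogonal -/
theorem orth {x y : A} (hx : x ∈ Wp B K u) (hy : y ∈ Wm B K u) : σ (star x * y) = 0 := by
  induction hx using Submodule.span_induction with
  | mem x hx =>
    rcases hx with hx | ⟨a, ha, w, hw, rfl⟩
    · exact h.apply_B_mul_Wm hfree (star_mem hx) hy
    · refine span_map_mem (σ ∘ₗ LinearMap.mulLeft ℂ (star (a * w))) (V := ⊥) (fun v hv => ?_) hy
      obtain ⟨b, hb, v', hv', e⟩ := h.star_neg_mul hw (star a) (h.star_K a ha) v hv
      show σ (star (a * w) * v) = 0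
      rw [star_mul, e]; exact hfree b hb v' hv'
  | zero => simp
  | add x x' _ _ h1 h2 => rw [star_add, add_mul, map_add, h1, h2, add_zero]
  | smul c x _ h1 => rw [star_smul, smul_mul_assoc, map_smul, h1, smul_zero]

end Functional

theorem step_mul_u {w : A} (hw : Neg B K u w) :
    ∀ a ∈ K, u * a * w * u ∈ Wm (B : Set A) K u := by
  induction hw with
  | @base a' ha' =>
    intro a ha
    obtain ⟨d, hd, hk⟩ := h.decomp a' ha'
    have e : u * a * (u * a') * u = u * (a * (u * d * u)) + u * a * (u * (a' - d) * u) := by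
      noncomm_ring
    rw [e]
    exact Submodule.add_mem _ (Neg.base (mul_mem (h.K_le ha) (h.D_le (h.conj d hd)))).mem_Wm
      (Neg.step ha (Neg.step hk h.neg_u)).mem_Wm
  | @step a' w' ha' _ ih =>
    intro a ha
    have e : u * a * (u * a' * w') * u = u * a * (u * a' * w' * u) := by noncomm_ring
    rw [e]
    exact u_K_mul_Wm ha (ih a' ha')

/-- the vacuum functional is a trace on the generated algebra -/
theorem tracial {σ : A →ₗ[ℂ] ℂ} (hc : Continuous σ)
    (hfree : ∀ b ∈ B, ∀ w, Neg B K u w → σ (b * w) = 0)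
    (hB : ∀ x ∈ B, ∀ y ∈ B, σ (x * y) = σ (y * x)) (hK : ∀ k ∈ K, σ k = 0)
    (hD : ∀ d ∈ D, σ (u * d * u) = σ d) (hDD : ∀ d ∈ D, ∀ d' ∈ D, d * d' ∈ D)
    {x y : A} (hx : x ∈ gen (insert u (B : Set A))) (hy : y ∈ gen (insert u (B : Set A))) :
    σ (x * y) = σ (y * x) := by
  have hfree1 : ∀ w, Neg (B : Set A) K u w → σ w = 0 := fun w hw => by
    simpa using hfree 1 (one_mem B) w hw
  -- extension from generators of `Wall` to `gen`
  have ext : ∀ y : A, (∀ x ∈ (B : Set A) ∪ {x | ∃ a ∈ (B : Set A), ∃ w, Neg (B : Set A) K u w ∧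
      x = a * w}, σ (x * y) = σ (y * x)) →
      ∀ x ∈ gen (insert u (B : Set A)), σ (x * y) = σ (y * x) := by
    intro y hy x hx
    have h1 : ∀ x ∈ Wall (B : Set A) K u, σ (x * y) = σ (y * x) := by
      intro x hx
      have := span_map_mem (σ ∘ₗ LinearMap.mulRight ℂ y - σ ∘ₗ LinearMap.mulLeft ℂ y) (V := ⊥)
        (fun x hx => by simpa [sub_eq_zero] using hy x hx) hx
      simpa [sub_eq_zero] using this
    have h2 : IsClosed {x : A | σ (x * y) = σ (y * x)} := isClosed_eq (by fun_prop) (by fun_prop)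
    exact h2.closure_subset_iff.mpr h1 (h.gen_subset_closure hx)
  have gB : ∀ b ∈ B, ∀ x ∈ gen (insert u (B : Set A)), σ (x * b) = σ (b * x) := by
    intro b hb
    refine ext b ?_
    rintro x (hx | ⟨a, ha, w, hw, rfl⟩)
    · exact hB x hx b hb
    · rw [mul_assoc, hfree a ha _ (h.neg_mul_right hw hb), ← mul_assoc,
        hfree _ (mul_mem hb ha) w hw]
  have gu : ∀ x ∈ gen (insert u (B : Set A)), σ (x * u) = σ (u * x) := by
    refine ext u ?_
    rintro x (hx | ⟨b, hb, w, hw, rfl⟩)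
    · rw [hfree x hx u h.neg_u, hfree1 _ (.base hx)]
    · obtain ⟨d, hd, hk⟩ := h.decomp b hb
      have e1 : u * (b * w) = u * d * u * (u * w) + u * (b - d) * w := by
        rw [mul_assoc (u * d) u, ← mul_assoc u u w, h.u_sq]; noncomm_ring
      rw [e1, map_add, hfree1 _ (.step hk hw), add_zero]
      cases hw with
      | @base a ha =>
        obtain ⟨d', hd', hk'⟩ := h.decomp a ha
        have e2 : b * (u * a) * u = d * (u * d' * u) + (b - d) * (u * d' * u)
            + b * (u * (a - d') * u) := by noncomm_ring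
        have e3 : u * d * u * (u * (u * a)) = u * (d * (u * d' * u)) * u
            + u * d * u * (a - d') := by
          rw [← mul_assoc u u a, h.u_sq, one_mul]
          have : u * (d * (u * d' * u)) * u = u * d * u * d' * (u * u) := by noncomm_ring
          rw [this, h.u_sq]; noncomm_ring
        rw [e2, e3, map_add, map_add, map_add, hfree b hb _ (.step hk' h.neg_u),
          hK _ (h.K_mul _ (h.conj d' hd') _ hk), hK _ (h.mul_K _ (h.conj d hd) _ hk'),
          hD _ (hDD d hd _ (h.conj d' hd'))]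
        simp
      | @step a w' ha hw' =>
        have e2 : u * d * u * (u * (u * a * w')) = (u * d * u * a) * w' := by
          rw [mul_assoc u a w', ← mul_assoc u u, h.u_sq]; noncomm_ring
        rw [e2, hfree _ (mul_mem (h.D_le (h.conj d hd)) (h.K_le ha)) _ hw', mul_assoc,
          h.apply_B_mul_Wm hfree hb (h.step_mul_u hw' a ha)]
  have hgB : (B : Set A) ⊆ gen (insert u (B : Set A)) :=
    (Set.subset_insert _ _).trans (subset_gen _)
  have hgu : u ∈ gen (insert u (B : Set A)) := subset_gen _ (Set.mem_insert _ _)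
  have h1 : ∀ y ∈ StarAlgebra.adjoin ℂ (insert u (B : Set A)), y ∈ gen (insert u (B : Set A)) ∧
      ∀ x ∈ gen (insert u (B : Set A)), σ (x * y) = σ (y * x) := by
    intro y hy
    refine h.adjoin_induction (P := fun y => y ∈ gen (insert u (B : Set A)) ∧
      ∀ x ∈ gen (insert u (B : Set A)), σ (x * y) = σ (y * x)) ?_ ⟨hgu, gu⟩ ?_ ?_ hy
    · exact fun b hb => ⟨hgB hb, gB b hb⟩
    · rintro a b ⟨ha, ha'⟩ ⟨hb, hb'⟩
      refine ⟨add_mem ha hb, fun x hx => ?_⟩
      rw [mul_add, add_mul, map_add, map_add, ha' x hx, hb' x hx]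
    · rintro a b ⟨ha, ha'⟩ ⟨hb, hb'⟩
      refine ⟨mul_mem ha hb, fun x hx => ?_⟩
      rw [← mul_assoc, hb' _ (mul_mem hx ha), ← mul_assoc, ha' _ (mul_mem hb hx), mul_assoc]
  have h2 : IsClosed {y : A | σ (x * y) = σ (y * x)} := isClosed_eq (by fun_prop) (by fun_prop)
  exact h2.closure_subset_iff.mpr (fun y hy => (h1 y hy).2 x hx) hy

end PreStep

end Crest.Agent.R120
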